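import Vale.Agent.P004C.Ld.Cnt0
import Vale.Agent.P004C.Al.Gbx

/-!
# P004 C, the leading term: the row CNT
-/

set_option autoImplicit false
set_option linter.unusedSectionVars false

open NumberField IsDedekindDomain Finset Filter
open scoped Classical

noncomputable section

namespace Vale.Agent.P004C.Ld

open As Al.Gx Cn

namespace Cn

variable {M : Type} [Field M] [NumberField M]

theorem has {α β γ : Type} [Fintype γ] {p : α → Prop} {q : β → Prop} [DecidablePred p]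
    [DecidablePred q] {b : α → β}
    {y : Subtype p → γ} (inj : Function.Injective fun z : Subtype p => (b z, y z))
    (sur : ∀ I y', q I → ∃ z : Subtype p, (b z, y z) = (I, y')) (h : ∀ z, p z → q (b z))
    {F : β → ℂ} (hF : Summable fun I => ‖F I‖) : HasSum (fun z => if p z then F (b z) else 0)
      (Fintype.card γ * ∑' I, if q I then F I else 0) := by
  obtain ⟨G, hG⟩ : ∃ G : β → ℂ, ∀ I, G I = if q I then F I else 0 := ⟨_, fun _ => rfl⟩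
  simp only [← hG]
  have sG : Summable fun I => ‖G I‖ :=
    hF.of_nonneg_of_le (fun _ => norm_nonneg _) fun I => by rw [hG]; split_ifs <;> simp
  have s1 : HasSum (fun p : β × γ => G p.1) (Fintype.card γ * ∑' I, G I) := by
    have h1 : HasSum (fun _ : γ => (1 : ℂ)) (Fintype.card γ) := by
      simpa using hasSum_fintype fun _ : γ => (1 : ℂ)
    have := HasSum.mul (f := G) (g := fun _ : γ => (1 : ℂ)) sG.of_norm.hasSum h1
      (summable_mul_of_summable_norm (f := G) (g := fun _ : γ => (1 : ℂ)) sG .of_finite)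
    simp only [mul_one] at this
    rwa [mul_comm]
  have s2 := (inj.hasSum_iff fun p n => (hG p.1).trans (if_neg fun k => n (sur p.1 p.2 k))).2 s1
  refine (Subtype.val_injective.hasSum_iff fun z n => if_neg fun k => n ⟨⟨z, k⟩, rfl⟩).1 ?_
  have e : ((fun z => if p z then F (b z) else 0) ∘ Subtype.val : Subtype p → ℂ) =
      (fun p : β × γ => G p.1) ∘ fun z : Subtype p => (b z, y z) :=
    funext fun z => (if_pos z.2).trans ((hG _).trans (if_pos (h z z.2))).symm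
  exact e ▸ s2

/-- moving an ideal away from `T` -/
theorem ex_mv {T : Ideal (𝓞 M)} (h0 : T ≠ ⊥) (h1 : T ≠ ⊤) : ∃ (x : Ideal (𝓞 M) → M)
    (C : Ideal (𝓞 M) → Ideal (𝓞 M)), ∀ I, I ≠ ⊥ → x I ≠ 0 ∧ C I ≠ ⊥ ∧
      (∀ P : Pl M, T ≤ P.asIdeal → cn P (C I) = 0) ∧ ∀ P, od P (x I) + cn P (C I) = cn P I := by
  obtain ⟨c, C, a, h, k⟩ := ex_C h0
  have C0 : ∀ x, C x ≠ ⊥ := fun x e => h1 (by rw [← h x, e, bot_sup_eq])
  have a0 : ∀ I, I ≠ ⊥ → a I ≠ 0 := fun I n e =>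
    mul_ne_zero n (C0 _) ((k I n).trans (Ideal.span_singleton_eq_bot.2 e))
  have e : ∀ I, I ≠ ⊥ → ∀ P : Pl M, od P (a I : M) = cn P I + cn P (C (c I)) := fun I n P => by
    rw [← cn_span (a0 I n), ← k I n, cn_mul n (C0 _)]
  refine ⟨fun I => a I / a (C (c I)), fun I => C (c (C (c I))), fun I n =>
    ⟨div_ne_zero (coe_ne (a0 I n)) (coe_ne (a0 _ (C0 _))), C0 _, (sup_iff (C0 _)).1 (h _),
      fun P => ?_⟩⟩
  rw [od_div (coe_ne (a0 I n)) (coe_ne (a0 _ (C0 _))), e I n, e _ (C0 _)]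
  ring

variable {K : Type} [Field K] [NumberField K] {ι : ℂ →+* ℂ_[2]} {J : K →+* ℂ} [Algebra K M] {m : ℕ}

/-- an integer prime to `T` in a class of units modulo `v ^ m` -/
theorem ex_int (hv : VAL) {Ω : ℝ} (B : Base ι J Ω) (hm : 1 ≤ m) {T : Ideal (𝓞 M)} (h0 : T ≠ ⊥)
    {y : M} (y0 : y ≠ 0) (h : Vi ι J y) (h' : Vi ι J y⁻¹) : ∃ a : 𝓞 M, a ≠ 0 ∧
      V1 ι J m (y * a) ∧ ∀ P : Pl M, T ≤ P.asIdeal → od P a = 0 := by
  obtain ⟨f, f0, hf⟩ := strip (fun P : Pl M => Av ι J P.asIdeal) h0 one_ne_zero fun P _ => by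
    simpa [od] using cn_nn P T
  obtain ⟨a, a1, a2⟩ := ((hv K ι J Ω B).2.2 M).2.2.2.1 f y⁻¹ m (pv_of fun Q a b c => by
    obtain ⟨P, rfl, d⟩ := av_of a c
    exact (cn_zero f0).1 ((hf P).trans (if_pos d)) b) h'
  have v : V1 ι J m (y * a) := by
    have := Vi_mul h a2
    rwa [← mul_div_assoc, mul_sub, mul_inv_cancel₀ y0] at this
  obtain ⟨n, k⟩ := v1_unit hm v
  have a0 : (a : M) ≠ 0 := right_ne_zero_of_mul n
  refine ⟨a, RingOfIntegers.coe_ne_zero_iff.1 a0, v, fun P hP => ?_⟩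
  by_cases b : Av ι J P.asIdeal
  · have k1 := (od_nn (inv_ne_zero n)).2 (vi_iff.1 k P b)
    have k2 := (od_nn y0).2 (vi_iff.1 h P b)
    have k3 := (od_nn a0).2 (P.valuation_le_one a)
    rw [od_inv, od_mul y0 a0] at k1
    omega
  · refine (od_zero a0).2 (P.valuation_eq_one_iff_notMem.2 fun c => P.isPrime.one_notMem ?_)
    have : f ≤ P.asIdeal := by_contra fun e => (cn_zero h0).1 (by
      simpa [od, b] using (hf P).symm.trans ((cn_zero f0).2 e)) hP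
    simpa using P.asIdeal.sub_mem c (this a1)

variable {r A l : ℕ} {c : Pl M} {w : Fin (r + 1) → Pl M} {Φ : Ideal (𝓞 M) → ZMod (2 ^ A)}
  {φ : Fin (r + 1) → M → ZMod (2 ^ A)} {R : Finset (Ideal (𝓞 M))}

theorem ext {I I' : Ideal (𝓞 M)} (a : I ≠ ⊥) (b : I' ≠ ⊥) (e : ∀ i, cn (w i) I = cn (w i) I')
    (e' : ∀ P, (∀ i, P ≠ w i) → cn P I = cn P I') : I = I' :=
  cn_ext a b fun P => (em (∃ i, P = w i)).elim (fun ⟨i, k⟩ => k ▸ e i)
    fun k => e' P (not_exists.1 k)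

theorem in_iff {I : Ideal (𝓞 M)} {x : M} (a : I ≠ ⊥) (b : x ≠ 0) :
    In w I x ↔ ∀ P, (∀ i, P ≠ w i) → 0 ≤ od P x + cn P I := forall₂_congr fun _ _ => le_iff a b

theorem a2 {P : Pl M} (h : Av ι J P.asIdeal) : (2 * l : 𝓞 M) ∈ P.asIdeal :=
  P.asIdeal.mul_mem_right _ (two_av h)

section

variable (rp : Rp ι J (fun i => (w i).asIdeal) m (2 * l) R)
include rp

theorem R0 (I : Ideal (𝓞 M)) (h : I ∈ R) : I ≠ ⊥ := (rp.cop I h).1

theorem R1 (I : Ideal (𝓞 M)) (h : I ∈ R) (P : Pl M) (a : (2 * l : 𝓞 M) ∈ P.asIdeal) : cn P I = 0 :=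
  (sup_iff (R0 rp I h)).1 (rp.cop I h).2.1 P ((Ideal.span_singleton_le_iff_mem _).2 a)

end

variable (ax : Aux (2 * l) A (fun i => (w i).asIdeal) Φ φ)
include ax

theorem hw : Function.Injective w := fun _ _ e => ax.inj (congrArg HeightOneSpectrum.asIdeal e)

theorem w2 (P : Pl M) (h : (2 * l : 𝓞 M) ∈ P.asIdeal) (i : Fin (r + 1)) : P ≠ w i :=
  fun e => ax.cop i (e ▸ h)

theorem one (sm : Sm c.asIdeal l) {I C : Ideal (𝓞 M)} {x : M} (I0 : I ≠ ⊥) (I1 : cn c I = 0)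
    (I2 : ∀ i, I ⊔ (w i).asIdeal = ⊤) (x0 : x ≠ 0) (b0 : C ≠ ⊥) (b1 : ∀ i, cn (w i) C = 0)
    (b2 : ∀ P, (∀ i, P ≠ w i) → cn P C = od P x + cn P I) : Φ C = Φ I - ∑ i, φ i x ∧
      (c.asIdeal ∣ C ↔ c.valuation M x < 1) ∧
      ∀ (a : Ideal (𝓞 M) → ℂ) (N : M →*₀ ℂ), (∀ I I', a (I * I') = a I * a I') →
        (∀ y : 𝓞 M, a (Ideal.span {y}) = N y) →
        a C * ∏ i, a (w i).asIdeal ^ od (w i) x = a I * N x := by
  obtain ⟨y, z, y0, z0, e⟩ := ex_div x0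
  obtain ⟨Y, a, Y1, Y2, Y3, Y4, Y5⟩ := split (hw ax) y0
  obtain ⟨Z, b, Z1, Z2, Z3, Z4, Z5⟩ := split (hw ax) z0
  have o : ∀ P, od P (y : M) = od P x + od P (z : M) := fun P => by
    rw [← e, od_mul x0 (coe_ne z0)]
  have k : Z * C = Y * I := ext (mul_ne_zero Z1 b0) (mul_ne_zero Y1 I0)
    (fun i => by rw [cn_mul Z1 b0, cn_mul Y1 I0, Z2, Y2, b1, (sup_pl I0).1 (I2 i)])
    fun P n => by rw [cn_mul Z1 b0, cn_mul Y1 I0, Z4 P n, Y4 P n, b2 P n, o]; ring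
  refine ⟨?_, ?_, fun f N f1 f2 => ?_⟩
  · have k1 := ax.add _ _ Z1 b0 (fun i => (sup_pl Z1).2 (Z2 i)) fun i => (sup_pl b0).2 (b1 i)
    have k2 := ax.add _ _ Y1 I0 (fun i => (sup_pl Y1).2 (Y2 i)) I2
    have k3 := ax.prd y Y a y0 (fun i => (sup_pl Y1).2 (Y2 i)) Y5
    have k4 := ax.prd z Z b z0 (fun i => (sup_pl Z1).2 (Z2 i)) Z5
    simp only [← e, ax.loc _ _ _ x0 (coe_ne z0), sum_add_distrib] at k3
    rw [k, k2] at k1
    linear_combination k3 - k4 - k1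
  · have n : (2 * l : 𝓞 M) ∈ c.asIdeal :=
      c.asIdeal.mul_mem_left _ (sm.2.2.1 ▸ c.asIdeal.absNorm_mem)
    have := cn_nn c C
    rw [Ideal.dvd_iff_le, ← not_iff_not, ← cn_zero b0, ← od_pos x0]
    rw [b2 c (w2 ax c n), I1] at *
    omega
  · have N0 : ∀ y : 𝓞 M, y ≠ 0 → N y ≠ 0 := fun y h => (map_ne_zero N).2 (coe_ne h)
    let g : Ideal (𝓞 M) →* ℂ := ⟨⟨f, by simpa using f2 1⟩, f1⟩
    have f3 : ∀ (C : Ideal (𝓞 M)) (a : Fin (r + 1) → ℕ),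
        f (C * ∏ i, (w i).asIdeal ^ a i) = f C * ∏ i, f (w i).asIdeal ^ a i := fun C a => by
      change g _ = g _ * ∏ i, g _ ^ _
      simp only [map_mul, map_prod, map_pow]
    have f4 : ∀ i, f (w i).asIdeal ≠ 0 := fun i => by
      obtain ⟨u, hu, u0⟩ := Submodule.exists_mem_ne_zero_of_ne_bot (w i).ne_bot
      obtain ⟨C, hC⟩ := Ideal.dvd_span_singleton.2 hu
      exact left_ne_zero_of_mul ((f1 _ C).symm.trans_ne (hC ▸ f2 u ▸ N0 u u0))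
    have k1 : ∀ i, od (w i) x = (a i : ℤ) - b i := fun i => by rw [← Y3, ← Z3, o]; ring
    have k2 := congrArg f k
    have k3 := (f2 y).symm.trans (Y5 ▸ f3 Y a)
    have k4 := (f2 z).symm.trans (Z5 ▸ f3 Z b)
    rw [f1, f1] at k2
    rw [← e, map_mul] at k3
    simp only [k1, zpow_sub₀ (f4 _), zpow_natCast, prod_div_distrib]
    rw [← mul_div_assoc, div_eq_iff (right_ne_zero_of_mul (k4 ▸ N0 z z0))]
    refine mul_left_cancel₀ (left_ne_zero_of_mul (k4 ▸ N0 z z0)) ?_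
    linear_combination (∏ i, f (w i).asIdeal ^ a i) * k2 - f I * k3 + f I * N x * k4

theorem sum (hv : VAL) {Ω : ℝ} (B : Base ι J Ω) (hm : 1 ≤ m)
    (rp : Rp ι J (fun i => (w i).asIdeal) m (2 * l) R) {β : Ideal (𝓞 M) → M → Ideal (𝓞 M)}
    (hβ : ∀ I (x : M), I ≠ ⊥ → x ≠ 0 → In w I x → β I x ≠ ⊥ ∧ (∀ i, cn (w i) (β I x) = 0) ∧
      ∀ P, (∀ i, P ≠ w i) → cn P (β I x) = od P x + cn P I) {Y : Finset M} {D : Set M}
    (hY : Yr ι J m Y) (D0 : (0 : M) ∉ D)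
    (hD : ∀ x : M, x ≠ 0 → ∃! e : Ew w ι J m, (e : Mˣ) • x ∈ D) :
    ∃ y : {z : R × D // In w z.1 z.2} → Y, (Function.Injective fun z : {z : R × D // In w z.1 z.2} =>
      (β z.1.1 z.1.2, y z)) ∧ ∀ I y', (∀ j, I ⊔ (w j).asIdeal = ⊤) →
        ∃ z : {z : R × D // In w z.1 z.2}, (β z.1.1 z.1.2, y z) = (I, y') := by
  set T := Ideal.span {(2 * l : 𝓞 M)} * ∏ i, (w i).asIdeal ^ 1 with hT
  have T0 : T ≠ ⊥ := mul_ne_zero (sp_ne fun e => ax.cop 0 (e ▸ zero_mem _)) (prod_ne _ _ _)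
  have T1 : ∀ i, T ≤ (w i).asIdeal := fun i => Ideal.le_of_dvd
    (((dvd_pow_self _ one_ne_zero).trans
      (dvd_prod_of_mem (fun i => (w i).asIdeal ^ 1) (mem_univ i))).mul_left _)
  have T2 : ∀ P : Pl M, (2 * l : 𝓞 M) ∈ P.asIdeal → T ≤ P.asIdeal := fun P h =>
    Ideal.mul_le_left.trans ((Ideal.span_singleton_le_iff_mem _).2 h)
  obtain ⟨X, C, hX⟩ := ex_mv T0 fun e => (w 0).isPrime.ne_top (top_unique (e ▸ T1 0))
  have n0 : ∀ x : D, (x : M) ≠ 0 := fun x e => D0 (e ▸ x.2)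
  have hb := fun z : {z : R × D // In w z.1 z.2} => hβ _ _ (R0 rp _ z.1.1.2) (n0 z.1.2) z.2
  have hy : ∀ z : {z : R × D // In w z.1 z.2},
      ∃! y, y ∈ Y ∧ V1 ι J m (z.1.2 / X (β z.1.1 z.1.2) / y) := fun z => by
    obtain ⟨b0, -, b2⟩ := hb z
    obtain ⟨x0, -, x1, x2⟩ := hX _ b0
    have n := div_ne_zero (n0 z.1.2) x0
    have k : ∀ P : Pl M, Av ι J P.asIdeal → od P (z.1.2 / X (β z.1.1 z.1.2)) = 0 := fun P a => by
      have := x2 P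
      rw [x1 P (T2 P (a2 a)), b2 P (w2 ax P (a2 a)), R1 rp _ z.1.1.2 P (a2 a)] at this
      rw [od_div (n0 z.1.2) x0]
      omega
    exact hY.2 _ n (vi_iff.2 fun P a => (od_nn n).1 (k P a).ge)
      (vi_iff.2 fun P a => (od_nn (inv_ne_zero n)).1 (by rw [od_inv, k P a, neg_zero]))
  choose yy y1 y2 using hy
  have ew : ∀ u : Mˣ, V1 ι J m (u : M) → (∀ P, (∀ i, P ≠ w i) → od P (u : M) = 0) →
      u ∈ Ew w ι J m := fun u a b =>
    ⟨⟨a, u.val_inv_eq_inv_val ▸ v1_inv hm a⟩, fun P k => (od_zero u.ne_zero).1 (b P k)⟩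
  refine ⟨fun z => ⟨yy z, (y1 z).1⟩, fun z z' e => ?_, fun I ⟨y, hy⟩ k => ?_⟩
  · obtain ⟨e1, e2⟩ := Prod.mk.inj e
    have k1 := (y1 z).2
    have k2 := v1_inv hm (y1 z').2
    have k3 := (hb z).2.2
    have k4 := (hb z').2.2
    have x0 := (hX _ (hb z').1).1
    have y0 := (hY.1 _ (y1 z').1).1
    rw [e1, Subtype.mk.inj e2] at k1
    rw [e1] at k3
    obtain ⟨⟨⟨I, hI⟩, x⟩, _⟩ := z
    obtain ⟨⟨⟨I', hI'⟩, x'⟩, _⟩ := z'
    have v : V1 ι J m ((x : M) / x') := by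
      have := v1_mul k1 k2
      rwa [← div_eq_mul_inv, div_div_div_cancel_right₀ y0, div_div_div_cancel_right₀ x0] at this
    have n := div_ne_zero (n0 x) (n0 x')
    have o : ∀ P, (∀ i, P ≠ w i) → cn P I' = od P ((x : M) / x') + cn P I := fun P a => by
      have := (k3 P a).symm.trans (k4 P a)
      rw [od_div (n0 x) (n0 x')]
      dsimp only at this
      omega
    obtain rfl : I = I' := (rp.ex I' (R0 rp _ hI') (rp.cop _ hI').2.1 (rp.cop _ hI').2.2).unique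
      ⟨hI, _, (ev_iff (hw ax) (R0 rp _ hI') (R0 rp _ hI) n).2 ⟨v, o⟩⟩ ⟨hI', _, ev_refl _⟩
    have := (hD x' (n0 x')).unique (y₁ := ⟨Units.mk0 _ n, ew _ v fun P a =>
      add_eq_right.1 (o P a).symm⟩) (y₂ := 1) (by
        simp [Units.smul_def, div_mul_cancel₀ _ (n0 x')]) (by simp)
    obtain rfl : x = x' := Subtype.ext ((div_eq_one_iff_eq (n0 x')).1
      (congrArg (fun e : Ew w ι J m => ((e : Mˣ) : M)) this))
    rfl
  have I0 : I ≠ ⊥ := fun e => (w 0).isPrime.ne_top (by simpa [e] using k 0)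
  obtain ⟨x0, C0, x1, x2⟩ := hX I I0
  obtain ⟨y0, y3, y4⟩ := hY.1 y hy
  obtain ⟨a, a0, a1, a3⟩ := ex_int hv B hm T0 y0 y3 y4
  have n := mul_ne_zero (sp_ne a0) C0
  have g : ∀ P : Pl M, T ≤ P.asIdeal → cn P (Ideal.span {a} * C I) = 0 := fun P h => by
    rw [cn_mul (sp_ne a0) C0, cn_span a0, a3 P h, x1 P h, add_zero]
  obtain ⟨I', ⟨hI', u, hu⟩, -⟩ := rp.ex _ n ((sup_iff n).2 fun P h =>
    g P (Ideal.mul_le_left.trans h)) fun i => (sup_pl n).2 (g _ (T1 i))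
  have u0 := (v1_unit hm hu.1).1
  obtain ⟨u1, u2⟩ := (ev_iff (hw ax) n (R0 rp _ hI') u0).1 hu
  have n' := div_ne_zero (mul_ne_zero x0 u0) (coe_ne a0)
  obtain ⟨⟨e, ⟨e1, _⟩, e2⟩, he, -⟩ := hD _ n'
  have x3 : e • (X I * u / a) ≠ 0 := n0 ⟨_, he⟩
  have o : ∀ P, (∀ i, P ≠ w i) → od P (e • (X I * u / a)) + cn P I' = cn P I := fun P h => by
    have := u2 P h
    rw [cn_mul (sp_ne a0) C0, cn_span a0] at this
    rw [Units.smul_def, smul_eq_mul, od_mul e.ne_zero n', (od_zero e.ne_zero).2 (e2 P h),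
      od_div (mul_ne_zero x0 u0) (coe_ne a0), od_mul x0 u0, ← x2 P]
    omega
  let z : {z : R × D // In w z.1 z.2} :=
    ⟨(⟨I', hI'⟩, ⟨_, he⟩), (in_iff (R0 rp _ hI') x3).2 fun P h => o P h ▸ cn_nn P I⟩
  have b : β z.1.1 z.1.2 = I := ext (hb z).1 I0
    (fun i => ((hb z).2.1 i).trans ((sup_pl I0).1 (k i)).symm)
    fun P h => ((hb z).2.2 P h).trans (o P h)
  refine ⟨z, Prod.ext b (Subtype.ext (y2 z y ⟨hy, ?_⟩).symm)⟩
  rw [b]
  have := v1_mul (v1_mul e1 u1) (v1_inv hm a1)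
  have a4 := coe_ne a0
  refine (congrArg (V1 ι J m) ?_).mp this
  change _ = (e : M) * (X I * u / a) / X I / y
  field_simp


end Cn

/-- **CNT** -/
theorem cnt (hv : VAL) : CNT := by
  intro K _ _ ι J Ω B M _ _ _ m r A l c w Φ φ R hm sm ax rp
  have hβ : ∀ I (x : M), ∃ C, I ≠ ⊥ → x ≠ 0 → In w I x → C ≠ ⊥ ∧ (∀ i, cn (w i) C = 0) ∧
      ∀ P, (∀ i, P ≠ w i) → cn P C = od P x + cn P I := fun I x => by
    by_cases h : I ≠ ⊥ ∧ x ≠ 0 ∧ In w I x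
    · obtain ⟨C, a, b⟩ := strip (fun P => ∃ i, P = w i) h.1 h.2.1 fun P k =>
        (in_iff h.1 h.2.1).1 h.2.2 P (not_exists.1 k)
      exact ⟨C, fun _ _ _ => ⟨a, fun i => (b _).trans (if_pos ⟨i, rfl⟩), fun P k =>
        (b P).trans (if_neg (not_exists.2 k))⟩⟩
    · exact ⟨⊥, fun a b c => absurd ⟨a, b, c⟩ h⟩
  choose β hβ using hβ
  refine ⟨β, fun I hI x x0 h => ?_, fun I hI x => ⟨fun h => ⟨fun P _ => h P, vi_iff.2 fun P a => ?_⟩,
    fun h P a y hy => ?_⟩, fun Y D F hY D0 hD hF => ?_⟩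
  · obtain ⟨b0, b1, b2⟩ := hβ I x (R0 rp I hI) x0 h
    exact one ax sm (R0 rp I hI) (R1 rp I hI c (c.asIdeal.mul_mem_left _
      (sm.2.2.1 ▸ c.asIdeal.absNorm_mem))) (rp.cop I hI).2.2 x0 b0 b1 b2
  · obtain ⟨y, hy, n⟩ := SetLike.not_le_iff_exists.1 ((cn_zero (R0 rp I hI)).1 (R1 rp I hI P (a2 a)))
    have := h P (w2 ax P (a2 a)) y hy
    rwa [map_mul, P.valuation_eq_one_iff_notMem.2 n, mul_one] at this
  · by_cases b : Av ι J P.asIdeal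
    · rw [map_mul]
      exact mul_le_one' (vi_iff.1 h.2 P b) (P.valuation_le_one y)
    · exact h.1 P b a y hy
  obtain ⟨y, inj, sur⟩ := sum ax hv B hm rp hβ hY D0 hD
  rw [← Fintype.card_coe]
  refine has (b := fun z : R × D => β z.1 z.2) inj sur (fun z h j => ?_) hF
  obtain ⟨a, b, -⟩ := hβ _ _ (R0 rp _ z.1.2) (fun e => D0 (e ▸ z.2.2)) h
  exact (sup_pl a).2 (b j)

end Vale.Agent.P004C.Ld
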