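import Vale.Agent.P004C.An.Ch

/-!
# P004 C, the leading term: invariant cocycles on the cycle, the volume of the cycle
-/

set_option autoImplicit false

open FreeAbelianGroup

noncomputable section

namespace Vale.Agent.P004C.Ld.Oc

open An

section grp

variable {G A : Type*} [CommGroup G] [AddCommGroup A]

theorem P_bd (ψ : Ch G →+ A) (hb : ∀ c, ψ (bd c) = 0) {y : G} (hy : ∀ c, ψ (tr y c) = ψ c)
    (c : Ch G) : ψ (P y (bd c)) = 0 := by
  have h := hb (P y c)
  rwa [bd_P, map_sub, map_sub, hy, sub_self, zero_sub, neg_eq_zero] at h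

/-- **the prism is additive on the cycle** -/
theorem P_mul {L : List G} (ψ : Ch G →+ A) (hb : ∀ c, ψ (bd c) = 0)
    (h : ∀ y ∈ L, ∀ c, ψ (tr y c) = ψ c) (e e' : G) :
    ψ (P (e * e') (cyc L)) = ψ (P e (cyc L)) + ψ (tr e (P e' (cyc L))) := by
  induction L generalizing ψ with
  | nil =>
    have h1 := hb (of [1, e, e * e'])
    have h2 : ∀ g : G, P g (cyc []) = of [1, g] := fun g => by
      rw [cyc, ← cn_of, pr_cn]
      simp
    have h3 : bd (of [1, e, e * e']) = of [e, e * e'] - (of [1, e * e'] - of [1, e]) := by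
      simp [bd, bd0]
    rw [h3, map_sub, map_sub, sub_eq_zero, eq_sub_iff_add_eq] at h1
    rw [h2, h2, h2, ← h1, add_comm]
    simp
  | cons y L ih =>
    obtain ⟨k1, k2⟩ := List.forall_mem_cons.1 h
    have h1 := ih (ψ.comp (P y)) (P_bd ψ hb k1) fun e' m c => by
      simp only [AddMonoidHom.comp_apply, ← tr_P, k2 e' m]
    simp only [AddMonoidHom.comp_apply] at h1
    rw [cyc, P_P (e * e'), P_P e, P_P e', map_neg, map_neg, map_neg, map_neg, tr_P e y, h1, neg_add]

theorem P_pow (L : List G) (ψ : Ch G →+ A) (hb : ∀ c, ψ (bd c) = 0)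
    (h : ∀ y c, ψ (tr y c) = ψ c) (e : G) (N : ℕ) :
    ψ (P (e ^ N) (cyc L)) = N • ψ (P e (cyc L)) := by
  induction N with
  | zero =>
    have h1 := P_mul (L := L) ψ hb (fun y _ => h y) 1 1
    rw [mul_one, h, left_eq_add] at h1
    rw [pow_zero, h1, zero_smul]
  | succ N ih => rw [pow_succ, P_mul ψ hb fun y _ => h y, ih, h, succ_nsmul]

theorem cyc_pow (L : List G) (ψ : Ch G →+ A) (hb : ∀ c, ψ (bd c) = 0)
    (h : ∀ y c, ψ (tr y c) = ψ c) (N : ℕ) :
    ψ (cyc (L.map (· ^ N))) = N ^ L.length • ψ (cyc L) := by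
  induction L generalizing ψ with
  | nil => simp
  | cons e L ih =>
    have h1 := ih (ψ.comp (P (e ^ N))) (P_bd ψ hb (h _)) fun e' c => by
      simp only [AddMonoidHom.comp_apply, ← tr_P, h e']
    simp only [AddMonoidHom.comp_apply] at h1
    rw [List.map_cons, cyc, h1, P_pow L ψ hb h, cyc, List.length_cons, pow_succ, mul_smul]

end grp

section vol

open ExteriorAlgebra

variable {R V G : Type*} [CommRing R] [AddCommGroup V] [Module R V]

/-- the exterior product of the vertices -/
def wg (X : G → V) : Ch G →+ ExteriorAlgebra R V :=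
  FreeAbelianGroup.lift fun L => (L.map fun a => ι R (X a)).prod

theorem wg_of (X : G → V) (L : List G) :
    wg (R := R) X (of L) = (L.map fun a => ι R (X a)).prod := lift_apply_of _ _

theorem wg_cn (X : G → V) (a : G) (c : Ch G) : wg X (cn a c) = ι R (X a) * wg X c :=
  hom_ext (φ := (wg X).comp (cn a)) (ψ := (AddMonoidHom.mulLeft (ι R (X a))).comp (wg X))
    (fun L => by simp [wg_of]) c

theorem swap (x y : V) (z : ExteriorAlgebra R V) : ι R x * (ι R y * z) = -(ι R y * (ι R x * z)) := by
  rw [← mul_assoc, ← mul_assoc, eq_neg_iff_add_eq_zero, ← add_mul, ι_add_mul_swap, zero_mul]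

theorem sq0 (x : V) (z : ExteriorAlgebra R V) : ι R x * (ι R x * z) = 0 := by
  rw [← mul_assoc, ι_sq_zero, zero_mul]

variable [CommGroup G] {X : G → V} {e : G} {y : V}

theorem wg_tr (h : ∀ a, X (e * a) = X a + y) (L : List G) :
    ι R y * wg X (tr e (of L)) = ι R y * wg X (of L) := by
  induction L with
  | nil => rfl
  | cons a L ih =>
    rw [← cn_of, mp_cn, wg_cn, wg_cn, h, map_add, add_mul, mul_add, sq0, add_zero, swap, ih, ← swap]

theorem wg_P (h : ∀ a, X (e * a) = X a + y) (L : List G) :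
    wg X (P e (of L)) = -(L.length • (ι R y * wg X (of L))) := by
  induction L with
  | nil => simp
  | cons a L ih =>
    rw [← cn_of, pr_cn, wg_cn, map_sub, wg_cn, wg_cn, ih, h, map_add, add_mul, id, mul_sub, mul_add,
      sq0, zero_add, wg_tr h, swap y, List.length_cons, succ_nsmul, mul_neg, mul_smul_comm,
      smul_neg]
    abel

theorem wg_cyc {l : G → V} (h : ∀ e a, X (e * a) = X a + l e) (L : List G) :
    wg X (cyc L) = L.length.factorial • (ι R (X 1) * (L.map fun e => ι R (l e)).prod) := by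
  induction L with
  | nil => simp [cyc, wg_of]
  | cons e L ih =>
    have h1 : wg X (P e (cyc L)) = -((L.length + 1) • (ι R (l e) * wg X (cyc L))) :=
      sp_ext (φ := (wg X).comp (P e)) (ψ := -((L.length + 1) •
        (AddMonoidHom.mulLeft (ι R (l e))).comp (wg X))) (fun L' k => by
          rw [AddMonoidHom.comp_apply, wg_P (h e), k.1]
          rfl) (cyc_sp ⊤ fun _ _ => trivial)
    rw [cyc, h1, ih, mul_smul_comm, swap, List.length_cons, Nat.factorial_succ, mul_smul,
      List.map_cons, List.prod_cons, smul_neg, smul_neg, neg_neg]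

end vol

/-- **the volume of the cycle** -/
theorem det_cyc {R G : Type*} [CommRing R] [CommGroup G] {p : ℕ} {X l : G → Fin (p + 1) → R}
    (h : ∀ e a, X (e * a) = X a + l e) (e : Fin p → G) :
    co (fun a : Fin (p + 1) → G => (Matrix.of fun j => X (a j)).det) (cyc (List.ofFn e)) =
      p.factorial * (Matrix.of (Fin.cons (X 1) fun j => l (e j) :
        Fin (p + 1) → Fin (p + 1) → R)).det := by
  let T := ExteriorAlgebra.liftAlternating (R := R) (M := Fin (p + 1) → R) (N := R)
    (Pi.single (p + 1) Matrix.detRowAlternating)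
  have h1 : ∀ v : Fin (p + 1) → Fin (p + 1) → R,
      T (List.ofFn fun i => ExteriorAlgebra.ι R (v i)).prod = (Matrix.of v).det := fun v => by
    rw [← ExteriorAlgebra.ιMulti_apply, ExteriorAlgebra.liftAlternating_apply_ιMulti,
      Pi.single_eq_same]
    rfl
  rw [← co_ext (φ := T.toAddMonoidHom.comp (wg X)) (fun a => ?_) fun L k => ?_]
  · rw [AddMonoidHom.comp_apply, wg_cyc h, map_nsmul, List.length_ofFn, nsmul_eq_mul, ← h1,
      List.ofFn_succ, List.prod_cons, List.map_ofFn]
    rfl
  · rw [AddMonoidHom.comp_apply, wg_of, List.map_ofFn, ← h1]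
    rfl
  · obtain ⟨a, ha⟩ := ex_ofFn (rfl : L.length = L.length)
    rw [AddMonoidHom.comp_apply, wg_of, ha, List.map_ofFn]
    have h2 := ExteriorAlgebra.liftAlternating_apply_ιMulti (R := R) (M := Fin (p + 1) → R)
      (N := R) (Pi.single (p + 1) Matrix.detRowAlternating) fun i => X (a i)
    rw [ExteriorAlgebra.ιMulti_apply, Pi.single_eq_of_ne k] at h2
    exact h2

end Vale.Agent.P004C.Ld.Oc
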