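import Vale.Agent.P004C.Ld.Defs
import Vale.Agent.P004C.Ld.Om0

/-!
# P004 C, the leading term: the residue on the cycle is the regulator
-/

set_option autoImplicit false

open Finset Filter Topology

noncomputable section

namespace Vale.Agent.P004C.Ld.Oc

open An

theorem nm_two : ‖(2 : ℂ_[2])‖ = 1 / 2 := by
  have := (PadicComplex.norm_extends' 2 ((2 : ℕ) : ℚ_[2])).trans Padic.norm_p
  rw [map_natCast, PadicComplex.coe_natCast] at this
  simpa using this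

theorem nm_add {x y : ℂ_[2]} {r : ℝ} (hx : ‖x‖ ≤ r) (hy : ‖y‖ ≤ r) : ‖x + y‖ ≤ r :=
  (IsUltrametricDist.norm_add_le_max x y).trans (max_le hx hy)

theorem nm_sub {x y : ℂ_[2]} {r : ℝ} (hx : ‖x‖ ≤ r) (hy : ‖y‖ ≤ r) : ‖x - y‖ ≤ r := by
  rw [sub_eq_add_neg]
  exact nm_add hx (by rwa [norm_neg])

/-- closed balls -/
def ball (r : ℝ) (hr : 0 ≤ r) : AddSubgroup ℂ_[2] where
  carrier := {x | ‖x‖ ≤ r}
  zero_mem' := by simpa using hr
  add_mem' := nm_add
  neg_mem' := fun h => by simpa using h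

theorem nm_prod {ι : Type*} (s : Finset ι) {x y : ι → ℂ_[2]} {ρ : ι → ℝ} {δ : ℝ} (hδ : 0 ≤ δ)
    (hx : ∀ i, ‖x i‖ ≤ ρ i) (hy : ∀ i, ‖y i‖ ≤ ρ i) (h : ∀ i, ‖x i - y i‖ ≤ δ * ρ i) :
    ‖∏ i ∈ s, x i - ∏ i ∈ s, y i‖ ≤ δ * ∏ i ∈ s, ρ i := by
  classical
  induction s using Finset.induction_on with
  | empty => simpa using hδ
  | insert a s ha ih =>
    rw [prod_insert ha, prod_insert ha, prod_insert ha, show x a * ∏ i ∈ s, x i -
      y a * ∏ i ∈ s, y i = x a * (∏ i ∈ s, x i - ∏ i ∈ s, y i) + (x a - y a) * ∏ i ∈ s, y i by ring]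
    have h0 : 0 ≤ ρ a := (norm_nonneg _).trans (hx a)
    refine nm_add ?_ ?_
    · rw [norm_mul, mul_left_comm]
      exact mul_le_mul (hx a) ih (norm_nonneg _) h0
    · rw [norm_mul, ← mul_assoc, norm_prod]
      exact mul_le_mul (h a) (prod_le_prod (fun _ _ => norm_nonneg _) fun i _ => hy i)
        (prod_nonneg fun _ _ => norm_nonneg _) (mul_nonneg hδ h0)

theorem nm_det {n : ℕ} {A B : Matrix (Fin n) (Fin n) ℂ_[2]} {ρ : Fin n → ℝ} {δ : ℝ} (hδ : 0 ≤ δ)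
    (hA : ∀ i j, ‖A i j‖ ≤ ρ i) (hB : ∀ i j, ‖B i j‖ ≤ ρ i)
    (h : ∀ i j, ‖A i j - B i j‖ ≤ δ * ρ i) :
    ‖A.det‖ ≤ ∏ i, ρ i ∧ ‖A.det - B.det‖ ≤ δ * ∏ i, ρ i := by
  have h0 : 0 ≤ ∏ i, ρ i := prod_nonneg fun i _ => (norm_nonneg _).trans (hA i i)
  rw [← Matrix.det_transpose A, ← Matrix.det_transpose B, Matrix.det_apply, Matrix.det_apply,
    ← sum_sub_distrib]
  refine ⟨(ball _ h0).sum_mem fun σ _ => (ball _ h0).zsmul_mem ?_ _,
    (ball _ (mul_nonneg hδ h0)).sum_mem fun σ _ => ?_⟩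
  · change ‖_‖ ≤ _
    rw [norm_prod]
    exact prod_le_prod (fun _ _ => norm_nonneg _) fun i _ => hA i _
  · rw [← smul_sub]
    exact (ball _ (mul_nonneg hδ h0)).zsmul_mem
      (nm_prod _ hδ (fun i => hA i _) (fun i => hB i _) fun i => h i _) _

variable {p : ℕ}

theorem det_red (A : Fin (p + 1) → Fin (p + 1) → ℂ_[2]) : (Matrix.of A).det = (Matrix.of
    (Fin.cons (A 0) fun j => A j.succ - A 0 : Fin (p + 1) → Fin (p + 1) → ℂ_[2])).det :=
  Matrix.det_eq_of_forall_row_eq_smul_add_const (Fin.cons 0 fun _ => 1) 0 rfl fun i j => by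
    refine Fin.cases ?_ (fun i => ?_) i <;> simp

theorem det_near {A B : Fin (p + 1) → Fin (p + 1) → ℂ_[2]} {r : ℝ} (h0 : 0 ≤ r) (h1 : 2 * r ≤ 1)
    (hA : ∀ i j, ‖A i j - 1‖ ≤ r) (h : ∀ i j, ‖A i j - B i j‖ ≤ 2 * r * r) :
    ‖(Matrix.of A).det‖ ≤ r ^ p ∧ ‖(Matrix.of A).det - (Matrix.of B).det‖ ≤ 2 * r * r ^ p := by
  have hB : ∀ i j, ‖B i j - 1‖ ≤ r := fun i j => by
    rw [show B i j - 1 = A i j - 1 - (A i j - B i j) by ring]
    exact nm_sub (hA i j) ((h i j).trans (by nlinarith))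
  have k : ∀ {C : Fin (p + 1) → Fin (p + 1) → ℂ_[2]}, (∀ i j, ‖C i j - 1‖ ≤ r) → ∀ i j,
      ‖Matrix.of (Fin.cons (C 0) fun j => C j.succ - C 0 : Fin (p + 1) → Fin (p + 1) → ℂ_[2]) i j‖ ≤
        (Fin.cons 1 fun _ => r : Fin (p + 1) → ℝ) i := fun {C} hC i j => by
    refine Fin.cases ?_ (fun i => ?_) i
    · simpa using nm_add ((hC 0 j).trans (by linarith : r ≤ 1)) norm_one.le
    · simpa using nm_sub (hC i.succ j) (hC 0 j)
  have h2 := nm_det (δ := 2 * r) (by linarith) (k hA) (k hB) fun i j => by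
    refine Fin.cases ?_ (fun i => ?_) i
    · simpa using (h 0 j).trans (by nlinarith)
    · have := nm_sub (h i.succ j) (h 0 j)
      simp only [Matrix.of_apply, Fin.cons_succ, Pi.sub_apply]
      rwa [sub_sub_sub_comm]
  rw [← det_red, ← det_red] at h2
  simpa [Fin.prod_univ_succ] using h2

theorem nr_mono {n m m' : ℕ} {e : Fin n → ℂ_[2]} (h : Nr m e) (hm : m' ≤ m) : Nr m' e :=
  fun i => (h i).trans (pow_le_pow_of_le_one (by norm_num) (by norm_num) hm)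

theorem nr_mul {n m : ℕ} {e e' : Fin n → ℂ_[2]} (h : Nr m e) (h' : Nr m e') : Nr m (e * e') := by
  intro i
  have h1 : ‖e i‖ ≤ 1 := by
    simpa using nm_add ((h i).trans (pow_le_one₀ (by norm_num) (by norm_num))) norm_one.le
  rw [Pi.mul_apply, show e i * e' i - 1 = e i * (e' i - 1) + (e i - 1) by ring]
  refine nm_add ?_ (h i)
  rw [norm_mul]
  exact (mul_le_of_le_one_left (norm_nonneg _) h1).trans (h' i)

theorem bd_add {C : ℝ} {F G : Qs p} (h : Bd C F) (h' : Bd C G) : Bd C (F + G) := fun x => by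
  simpa [cf] using nm_add (h x) (h' x)

theorem bd_neg {C : ℝ} {F : Qs p} (h : Bd C F) : Bd C (-F) := fun x => by simpa [cf] using h x

theorem bd_one : Bd 1 (1 : Qs p) := fun x => by
  classical
  simp only [cf, PowerSeries.coeff_one]
  split_ifs
  · rw [MvPowerSeries.coeff_one]
    split_ifs <;> simp
  · simp

theorem bd_prod (h1 : S1 p) {ι : Type*} (s : Finset ι) {F : ι → Qs p} {C : ℝ} (hC : 0 ≤ C)
    (h : ∀ i, Bd 1 (F i)) (h' : ∀ i, Bd C (F i - 1)) :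
    Bd 1 (∏ i ∈ s, F i) ∧ Bd C (∏ i ∈ s, F i - 1) := by
  classical
  induction s using Finset.induction_on with
  | empty => exact ⟨bd_one, fun x => by simpa [cf] using hC⟩
  | insert a s ha ih =>
    rw [prod_insert ha, show F a * ∏ i ∈ s, F i - 1 = F a * (∏ i ∈ s, F i - 1) + (F a - 1) by ring]
    exact ⟨by simpa using h1.mul _ _ _ _ (h a) ih.1,
      bd_add (by simpa using h1.mul _ _ _ _ (h a) ih.2) (h' a)⟩

theorem lt_sum (h2 : S2 p) {ι : Type*} (s : Finset ι) (c : ι → ℂ_[2]) {F : ι → Qs p} {C : ℝ}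
    (h : ∀ i, Bd C (F i)) : Lt (∑ i ∈ s, c i • F i) = ∑ i ∈ s, c i • Lt (F i) := by
  refine HasSum.tsum_eq ((hasSum_sum fun i _ => (h2.has _ _ (h i)).const_smul (c i)).congr_fun
    fun x => ?_)
  simp only [cf, map_sum, PowerSeries.coeff_smul, MvPowerSeries.coeff_smul, sum_smul, mul_smul]

theorem lu_one : lu (1 : Fin (p + 1) → ℂ_[2]) = 1 := by simp [lu, uu, Fin.sum_univ_succ]

theorem lu_sub (t : Fin (p + 1) → ℂ_[2]) : lu (t - 1) = lu t - 1 := by
  rw [← lu_one]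
  simp [lu, sub_mul]

theorem bd_inv (h1 : S1 p) {m : ℕ} (hm : 3 ≤ m) {q : ℕ} {t : Fin q → Fin (p + 1) → ℂ_[2]}
    (ht : ∀ j, Nr m (t j)) : Bd 1 (PowerSeries.C (∏ j, (lu (t j))⁻¹)) ∧
      Bd (8 * (1 / 2) ^ m) (PowerSeries.C (∏ j, (lu (t j))⁻¹) - 1) := by
  rw [map_prod]
  refine bd_prod h1 _ (by positivity) (fun j => (h1.inv _ (nr_mono (ht j) hm)).2.2) fun j => ?_
  obtain ⟨k1, -, k2⟩ := h1.inv _ (nr_mono (ht j) hm)
  have k3 := bd_neg (h1.mul _ _ _ _ k2 (h1.lu _ (t j - 1) (ht j)))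
  rwa [one_mul, ← map_mul, lu_sub, mul_sub, mul_comm _ (lu _), k1, mul_one, map_sub, map_one,
    neg_sub] at k3

/-- the residue is close to `1 / (p + 1)!` -/
theorem kp_near (h1 : S1 p) (h2 : S2 p) : ∃ C0 : ℝ, 0 ≤ C0 ∧ ∀ m, 3 ≤ m →
    ∀ t : Fin (p + 1) → Fin (p + 1) → ℂ_[2], (∀ j, Nr m (t j)) →
    ‖kp t - ((p + 1).factorial : ℂ_[2])⁻¹‖ ≤ C0 * (1 / 2) ^ m := by
  obtain ⟨C0, h0, h⟩ := h2.nrm
  refine ⟨C0 * 8, by positivity, fun m hm t ht => ?_⟩
  obtain ⟨k1, k2⟩ := bd_inv h1 hm ht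
  have k3 := lt_sum h2 univ ![1, -1] (F := ![PowerSeries.C (∏ j, (lu (t j))⁻¹), 1]) (C := 1)
    (Fin.forall_fin_two.2 ⟨k1, bd_one⟩)
  simp only [Fin.sum_univ_two, Matrix.cons_val_zero, Matrix.cons_val_one, one_smul, neg_smul,
    ← sub_eq_add_neg] at k3
  have k4 := (h _ _ k2).1
  rwa [k3, TrivSqZeroExt.fst_sub, h2.one.1, ← mul_assoc] at k4

/-- the residue is invariant -/
theorem kp_inv (h1 : S1 p) (h2 : S2 p) (hI : INV p) {e : Fin (p + 1) → ℂ_[2]} (he : Nr 7 e)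
    {t : Fin (p + 1) → Fin (p + 1) → ℂ_[2]} (ht : ∀ j, Nr 3 (t j)) :
    (∏ i, e i) * kp (fun j => e * t j) = kp t := by
  have e3 := nr_mono he (by norm_num : 3 ≤ 7)
  have k0 := congrArg TrivSqZeroExt.fst (hI e _ _ he (bd_inv h1 le_rfl ht).1)
  have k1 : ∀ j, se e (lu (t j))⁻¹ = lu e * (lu (e * t j))⁻¹ := fun j => by
    have a := (h1.inv _ (nr_mul e3 (ht j))).1
    have b := congrArg (se e) (h1.inv _ (ht j)).1
    rw [map_mul, map_one] at b
    have c := (h1.se e e3).1 (t j)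
    linear_combination (-se e (lu (t j))⁻¹) * a + (lu e * (lu (e * t j))⁻¹) * b -
      (se e (lu (t j))⁻¹ * (lu (e * t j))⁻¹) * c
  have k2 : ge e * Se e (PowerSeries.C (∏ j, (lu (t j))⁻¹)) =
      Ex (e - 1) * PowerSeries.C (∏ j, (lu (e * t j))⁻¹) := by
    have a : Se e (PowerSeries.C (∏ j, (lu (t j))⁻¹)) =
        PowerSeries.C (se e (∏ j, (lu (t j))⁻¹)) := by
      ext d
      simp only [Se, RingHom.comp_apply, PowerSeries.map_C, PowerSeries.coeff_rescale,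
        PowerSeries.coeff_C]
      split_ifs with hd
      · rw [hd, pow_zero, one_mul]
        rfl
      · rw [mul_zero]
    rw [a, ge, mul_assoc, ← map_mul, map_prod (se e)]
    simp only [k1]
    rw [prod_mul_distrib, prod_const, card_univ, Fintype.card_fin, ← mul_assoc, ← mul_pow,
      mul_comm _ (lu e), (h1.inv e e3).1, one_pow, one_mul]
  have k3 := h1.mul _ _ _ _ (h1.ex (e - 1) he) (bd_inv h1 le_rfl fun j => nr_mul e3 (ht j)).1
  have k4 : PowerSeries.coeff 0 (Ex (e - 1) * PowerSeries.C (∏ j, (lu (e * t j))⁻¹)) =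
      ∏ j, (lu (e * t j))⁻¹ := by
    rw [PowerSeries.coeff_mul_C, Ex, PowerSeries.coeff_rescale]
    simp
  rw [k2, TrivSqZeroExt.fst_smul, h2.fst _ _ k3, k4, TrivSqZeroExt.fst_mul, TrivSqZeroExt.fst_sub,
    TrivSqZeroExt.fst_one, TrivSqZeroExt.fst_inr, sub_zero, one_mul] at k0
  exact k0

/-- the cocycle relation -/
theorem kp_coc (h1 : S1 p) (h2 : S2 p) {t : Fin (p + 1 + 1) → Fin (p + 1) → ℂ_[2]}
    (ht : ∀ j, Nr 3 (t j)) : ∑ i : Fin (p + 1 + 1), (-1 : ℤ) ^ (i : ℕ) •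
      ((Matrix.of fun j => t (i.succAbove j)).det * kp fun j => t (i.succAbove j)) = 0 := by
  have k1 := lt_sum h2 univ (fun i : Fin (p + 1 + 1) => (-1) ^ (i : ℕ) *
    (Matrix.of fun j => t (i.succAbove j)).det) fun i : Fin (p + 1 + 1) =>
      (bd_inv h1 le_rfl fun j => ht (i.succAbove j)).1
  have k2 : ∑ i : Fin (p + 1 + 1), ((-1) ^ (i : ℕ) * (Matrix.of fun j => t (i.succAbove j)).det) •
      (PowerSeries.C (∏ j, (lu (t (i.succAbove j)))⁻¹) : Qs p) = 0 := by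
    have a := cramer (uu (p := p)) fun i k => MvPowerSeries.C (t i k)
    have b := congrArg (fun x => (PowerSeries.C (x * ∏ j, (lu (t j))⁻¹) : Qs p)) a
    simp only [zero_mul, map_zero, sum_mul, map_sum] at b
    rw [← b]
    refine sum_congr rfl fun i _ => ?_
    have c : (Matrix.of fun j k => (MvPowerSeries.C (t (i.succAbove j) k) : Tt p)).det =
        MvPowerSeries.C (Matrix.of fun j => t (i.succAbove j)).det :=
      (RingHom.map_det (MvPowerSeries.C : ℂ_[2] →+* Tt p)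
        (Matrix.of fun j => t (i.succAbove j))).symm
    rw [Algebra.smul_def, PowerSeries.algebraMap_apply, MvPowerSeries.algebraMap_apply, ← map_mul,
      c, Fin.prod_univ_succAbove _ i, Algebra.algebraMap_self_apply]
    congr 1
    have d := (h1.inv _ (ht i)).1
    rw [map_mul, map_pow, map_neg, map_one, show ∑ k, MvPowerSeries.C (t i k) * uu k = lu (t i) from
      rfl]
    linear_combination (-(-1) ^ (i : ℕ) * MvPowerSeries.C (Matrix.of fun j => t (i.succAbove j)).det *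
      ∏ j, (lu (t (i.succAbove j)))⁻¹) * d
  have k3 : Lt (0 : Qs p) = 0 := by simp [Lt, cf]
  rw [k2, k3] at k1
  have k4 := congrArg TrivSqZeroExt.fst k1
  rw [TrivSqZeroExt.fst_zero, TrivSqZeroExt.fst_sum] at k4
  rw [k4]
  refine sum_congr rfl fun i _ => ?_
  rw [TrivSqZeroExt.fst_smul, zsmul_eq_mul, smul_eq_mul, kp]
  push_cast
  ring

section cyc

variable {G : Type} [CommGroup G] (s : G →* (Fin (p + 1) → ℂ_[2]))

/-- the cocycle -/
def Fm (a : Fin (p + 1) → G) : ℂ_[2] := (Matrix.of fun j => s (a j)).det * kp fun j => s (a j)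

/-- the logarithm of a vertex -/
def lv (g : G) (i : Fin (p + 1)) : ℂ_[2] := lg (s g i)

/-- the regulator -/
def rg (e : Fin p → G) : ℂ_[2] :=
  (Matrix.of (Fin.cons 1 fun j => lv s (e j) : Fin (p + 1) → Fin (p + 1) → ℂ_[2])).det

variable {s}

theorem fm_bd (h1 : S1 p) (h2 : S2 p) (hs : ∀ g, Nr 7 (s g)) (z : Ch G) : co (Fm s) (bd z) = 0 := by
  rw [co_bd]
  exact (co_ext (φ := 0) (fun a => (kp_coc h1 h2 (t := fun j => s (a j))
    fun j => nr_mono (hs _) (by norm_num)).symm) (fun _ _ => rfl) z).symm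

theorem fm_tr (h1 : S1 p) (h2 : S2 p) (hI : INV p) (hs : ∀ g, Nr 7 (s g)) (y : G) (z : Ch G) :
    co (Fm s) (tr y z) = co (Fm s) z := by
  rw [co_mp]
  refine congrArg (co · z) (funext fun a => ?_)
  simp only [Fm, Function.comp_apply, map_mul]
  rw [← kp_inv h1 h2 hI (hs y) (t := fun j => s (a j)) fun j => nr_mono (hs _) (by norm_num),
    ← mul_assoc, mul_comm _ (∏ _, _), ← Matrix.det_mul_row]
  rfl

theorem q4 (hs : ∀ g, Nr 7 (s g)) (g : G) (i : Fin (p + 1)) : ‖s g i - 1‖ ≤ 1 / 4 :=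
  (hs g i).trans (by norm_num)

theorem lv_mul (hL : LG) (hs : ∀ g, Nr 7 (s g)) (g g' : G) : lv s (g * g') = lv s g + lv s g' :=
  funext fun i => by
    simp only [lv, map_mul, Pi.mul_apply, Pi.add_apply]
    exact (hL _ (q4 hs g i)).2.2.2 _ (q4 hs g' i)

theorem lv_pow (hL : LG) (hs : ∀ g, Nr 7 (s g)) (g : G) (N : ℕ) :
    lv s (g ^ N) = (N : ℂ_[2]) • lv s g := by
  induction N with
  | zero => simpa using lv_mul hL hs 1 1
  | succ N ih => rw [pow_succ, lv_mul hL hs, ih, Nat.cast_succ, add_smul, one_smul]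

theorem f0_cyc (hL : LG) (hs : ∀ g, Nr 7 (s g)) (e : Fin p → G) (N : ℕ) :
    co (fun a : Fin (p + 1) → G => (Matrix.of fun j => 1 + lv s (a j)).det)
      (cyc (List.ofFn fun j => e j ^ N)) = p.factorial * (N ^ p * rg s e) := by
  have l0 : lv s 1 = 0 := by simpa using lv_pow hL hs 1 0
  rw [det_cyc (X := fun g => 1 + lv s g) (l := lv s) fun g g' => by rw [lv_mul hL hs]; abel]
  have := Matrix.det_mul_column (Fin.cons 1 fun _ => N : Fin (p + 1) → ℂ_[2])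
    (Matrix.of (Fin.cons 1 fun j => lv s (e j) : Fin (p + 1) → Fin (p + 1) → ℂ_[2]))
  rw [Fin.prod_univ_succ, Fin.cons_zero, one_mul] at this
  simp only [Fin.cons_succ, prod_const, card_univ, Fintype.card_fin] at this
  rw [rg, ← this]
  refine congrArg (_ * Matrix.det ·) (Matrix.ext fun i j => ?_)
  refine Fin.cases ?_ (fun i => ?_) i <;> simp [l0, lv_pow hL hs]

theorem fm_near (hL : LG) (hs : ∀ g, Nr 7 (s g)) {c : ℂ_[2]} {C0 r : ℝ} (h0 : 0 ≤ C0) (r0 : 0 ≤ r)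
    (r2 : 2 * r ≤ 1) {b : Fin (p + 1) → G} (hb : ∀ j i, ‖s (b j) i - 1‖ ≤ r)
    (d3 : ‖kp (fun j => s (b j)) - c‖ ≤ C0 * r) :
    ‖Fm s b - c * (Matrix.of fun j => 1 + lv s (b j)).det‖ ≤ (C0 + 2 * ‖c‖) * (r * r ^ p) := by
  obtain ⟨d1, d2⟩ := det_near (A := fun j => s (b j)) (B := fun j => 1 + lv s (b j)) r0 r2 hb
    fun i j => by
      rw [← norm_neg, show -(s (b i) j - (1 + lv s (b i)) j) = lg (s (b i) j) - (s (b i) j - 1) by
        simp only [lv, Pi.add_apply, Pi.one_apply]; ring]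
      refine (hL _ (q4 hs _ j)).2.2.1.trans ?_
      have := pow_le_pow_left₀ (norm_nonneg _) (hb i j) 2
      linarith
  rw [Fm]
  generalize (Matrix.of fun j => s (b j)).det = x at d1 d2 ⊢
  generalize (Matrix.of fun j => 1 + lv s (b j)).det = y at d2 ⊢
  generalize kp (fun j => s (b j)) = z at d3 ⊢
  rw [show x * z - c * y = (z - c) * x + c * (x - y) by ring]
  refine (norm_add_le _ _).trans ?_
  rw [norm_mul, norm_mul]
  have d4 := mul_le_mul d3 d1 (norm_nonneg _) (by positivity)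
  have d5 := mul_le_mul_of_nonneg_left d2 (norm_nonneg c)
  linarith

theorem fm_cyc (hL : LG) (h1 : S1 p) (h2 : S2 p) (hI : INV p) (hs : ∀ g, Nr 7 (s g))
    (e : Fin p → G) : co (Fm s) (cyc (List.ofFn e)) =
      ((p + 1).factorial : ℂ_[2])⁻¹ * (p.factorial * rg s e) := by
  obtain ⟨C0, h0, hk⟩ := kp_near h1 h2
  generalize ((p + 1).factorial : ℂ_[2])⁻¹ = c at hk ⊢
  have key : ∀ a : ℕ, ‖co (Fm s) (cyc (List.ofFn e)) - c * (p.factorial * rg s e)‖ ≤
      (C0 + 2 * ‖c‖) * (1 / 2) ^ a := fun a => by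
    have r0 : (0 : ℝ) ≤ (1 / 2) ^ (7 + a) := by positivity
    have r1 : (1 / 2 : ℝ) ^ (7 + a) ≤ (1 / 2) ^ a :=
      pow_le_pow_of_le_one (by norm_num) (by norm_num) (by omega)
    have r2 : 2 * (1 / 2 : ℝ) ^ (7 + a) ≤ 1 := by
      have : (1 / 2 : ℝ) ^ (7 + a) ≤ (1 / 2) ^ 1 :=
        pow_le_pow_of_le_one (by norm_num) (by norm_num) (by omega)
      linarith
    let S : Submonoid G := ⟨⟨{g | Nr (7 + a) (s g)}, fun {g g'} hg hg' => by
      simpa only [Set.mem_ofPred_eq, map_mul] using nr_mul hg hg'⟩, fun i => by simp⟩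
    have k1 : cyc (List.ofFn fun j => e j ^ 2 ^ a) ∈ sp (Vx (S : Set G) (p + 1)) := by
      have := cyc_sp S (L := List.ofFn fun j => e j ^ 2 ^ a) (List.forall_mem_ofFn_iff.2 fun j i => by
        rw [map_pow, Pi.pow_apply, pow_add]
        exact ((hL _ (q4 hs _ i)).2.1 a).trans (mul_le_mul_of_nonneg_right (hs _ i) (by positivity)))
      rwa [List.length_ofFn] at this
    have k2 := sp_map (co (Fm s) - (AddMonoidHom.mulLeft c).comp
      (co fun a : Fin (p + 1) → G => (Matrix.of fun j => 1 + lv s (a j)).det))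
      (ball ((C0 + 2 * ‖c‖) * ((1 / 2) ^ (7 + a) * ((1 / 2) ^ (7 + a)) ^ p)) (by positivity))
      (fun L k => by
        obtain ⟨b, rfl⟩ := ex_ofFn k.1
        have hb : ∀ j, Nr (7 + a) (s (b j)) := fun j => List.forall_mem_ofFn_iff.1 k.2 j
        rw [AddMonoidHom.sub_apply, AddMonoidHom.comp_apply, co_ofFn, co_ofFn]
        exact fm_near hL hs h0 r0 r2 hb (hk (7 + a) (by omega) _ hb)) k1
    have k3 := cyc_pow (List.ofFn e) (co (Fm s)) (fm_bd h1 h2 hs) (fm_tr h1 h2 hI hs) (2 ^ a)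
    rw [List.map_ofFn, List.length_ofFn] at k3
    rw [AddMonoidHom.sub_apply, AddMonoidHom.comp_apply, f0_cyc hL hs,
      show (fun j => e j ^ 2 ^ a) = (· ^ 2 ^ a) ∘ e from rfl, k3, AddMonoidHom.coe_mulLeft] at k2
    generalize co (Fm s) (cyc (List.ofFn e)) = x at k2 ⊢
    generalize rg s e = y at k2 ⊢
    rw [nsmul_eq_mul, show (((2 ^ a) ^ p : ℕ) : ℂ_[2]) * x - c * (p.factorial *
      (((2 ^ a : ℕ) : ℂ_[2]) ^ p * y)) = (2 ^ a) ^ p * (x - c * (p.factorial * y)) by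
        push_cast; ring] at k2
    replace k2 : ‖_‖ ≤ _ := k2
    rw [norm_mul, norm_pow, norm_pow, nm_two] at k2
    refine le_of_mul_le_mul_left (k2.trans ?_) (by positivity : (0 : ℝ) < ((1 / 2) ^ a) ^ p)
    rw [mul_left_comm _ (C0 + 2 * ‖c‖), mul_comm ((1 / 2 : ℝ) ^ (7 + a))]
    exact mul_le_mul_of_nonneg_left (mul_le_mul (pow_le_pow_left₀ r0 r1 p) r1 r0 (by positivity))
      (by positivity)
  rw [← sub_eq_zero, ← norm_le_zero_iff]
  have := (tendsto_pow_atTop_nhds_zero_of_lt_one (by norm_num : (0 : ℝ) ≤ 1 / 2)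
    (by norm_num)).const_mul (C0 + 2 * ‖c‖)
  rw [mul_zero] at this
  exact ge_of_tendsto' this key

end cyc

end Vale.Agent.P004C.Ld.Oc

namespace Vale.Agent.P004C.Ld

open An Oc

/-- **row OM** -/
theorem om {p : ℕ} (hL : LG) (h1 : S1 p) (h2 : S2 p) (hI : INV p) : OM p := by
  intro m hm
  refine ⟨(-1) ^ (p + 1), by simp, fun G _ s e hs => ?_⟩
  have k6 := fm_cyc hL h1 h2 hI (fun g => nr_mono (hs g) hm) e
  have k7 := map_co (Fm s) (AddMonoidHom.mulLeft ((-2 ^ m) ^ (p + 1))⁻¹) (cyc (List.ofFn e))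
  have k8 : ((p + 1).factorial : ℂ_[2]) ≠ 0 := by exact_mod_cast Nat.factorial_ne_zero _
  have k9 : ((p : ℂ_[2]) + 1) * p.factorial = (p + 1).factorial := by
    rw [Nat.factorial_succ]
    push_cast
    rfl
  rw [show (fun a : Fin (p + 1) → G => (Matrix.of fun j => s (a j)).det *
      (((-2 ^ m) ^ (p + 1))⁻¹ * kp fun j => s (a j))) =
      fun a => AddMonoidHom.mulLeft ((-2 ^ m) ^ (p + 1))⁻¹ (Fm s a) from
    funext fun a => mul_left_comm _ _ _, ← k7, k6, AddMonoidHom.coe_mulLeft, neg_pow, pow_mul,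
    mul_inv, ← inv_pow, inv_neg_one, ← k9]
  change _ = _ * rg s e
  have : ((p : ℂ_[2]) + 1) ≠ 0 := left_ne_zero_of_mul (k9 ▸ k8)
  have : (p.factorial : ℂ_[2]) ≠ 0 := right_ne_zero_of_mul (k9 ▸ k8)
  field_simp

end Vale.Agent.P004C.Ld
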