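import Vale.Agent.P004C.Ld.Cup0

/-!
# P004 C, the leading term: row CUP
-/

set_option autoImplicit false

open Finset

noncomputable section

namespace Vale.Agent.P004C.Ld

open An

namespace Cu

/-- splitting of the indices -/
def sq {N n m : ℕ} (h : N = n + m) : Fin N ≃ Fin n ⊕ Fin m := (finCongr h).trans finSumFinEquiv.symm

/-- concatenation -/
def ap {α : Type*} {N n m : ℕ} (h : N = n + m) (t : Fin n → α) (l : Fin m → α) : Fin N → α :=
  fun k => Sum.elim t l (sq h k)

theorem ofFn_ap {α : Type*} {N n m : ℕ} (h : N = n + m) (t : Fin n → α) (l : Fin m → α) :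
    List.ofFn (ap h t l) = List.ofFn t ++ List.ofFn l := by
  subst h
  rw [← List.ofFn_fin_append]
  refine congrArg _ (funext fun k => ?_)
  induction k using Fin.addCases <;> simp [ap, sq]

theorem ap_zero {α : Type*} {m : ℕ} (h : m = 0 + m) (t : Fin 0 → α) (l : Fin m → α) :
    ap h t l = l := List.ofFn_injective (by simp [ofFn_ap])

theorem ap_succ {α : Type*} {N n m : ℕ} (h : N + 1 = n + 1 + m) (h' : N = n + m)
    (t : Fin (n + 1) → α) (l : Fin m → α) : ap h t l = Fin.cons (t 0) (ap h' (Fin.tail t) l) :=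
  List.ofFn_injective (by
    rw [ofFn_ap, List.ofFn_succ, List.ofFn_succ (f := Fin.cons _ _)]
    simp only [Fin.cons_zero, Fin.cons_succ, ofFn_ap, List.cons_append]
    rfl)

variable {G R X N : Type} [CommGroup G] [CommRing R] [MulAction G X] [AddCommGroup N] [Module R N]

/-- the columns -/
def col {n : ℕ} (χ : Fin n → G → R) (κ : G → R) (x : G) (i : Fin n) : R :=
  κ x * (∏ j, if j < i then χ j x else 1) * (1 - χ i x)

omit [CommGroup G] in
theorem col_tail {n : ℕ} (χ : Fin (n + 1) → G → R) (κ : G → R) (x : G) :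
    Fin.tail (col χ κ x) = col (Fin.tail χ) (κ * χ 0) x := funext fun i => by
  simp [col, Fin.tail, Fin.prod_univ_succ, mul_assoc]

omit [CommGroup G] in
theorem col_sum {n : ℕ} (χ : Fin n → G → R) (κ : G → R) (x : G) :
    ∑ i, col χ κ x i = κ x * (1 - ∏ i, χ i x) := by
  induction n generalizing κ with
  | zero => simp
  | succ n ih =>
    have := ih (Fin.tail χ) (κ * χ 0)
    rw [← col_tail] at this
    rw [Fin.sum_univ_succ, Fin.prod_univ_succ]
    simp only [Fin.tail, Pi.mul_apply] at this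
    rw [this]
    simp only [col, Fin.not_lt_zero, if_false, prod_const_one]
    ring

/-- the residue -/
def Rs {p : ℕ} (x0 : X) (lo : G → Fin (p + 1) → R) (n0 : N) : Co G R X N := fun M =>
  .mk' (fun f => (f x0 * co (fun v : Fin p → G => (Matrix.of (Fin.cons 1 fun j => lo (v j) :
    Fin (p + 1) → Fin (p + 1) → R)).det) (.of M)) • n0) fun _ _ => by
      rw [Pi.add_apply, add_mul, add_smul]

theorem res {p n m : ℕ} {x0 : X} (lo : G → Fin (p + 1) → R) (n0 : N) (h0 : ∀ g : G, g • x0 = x0)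
    {χ : Fin n → G → R} {c : Fin n → G → X → R} (hc : ∀ i x, c i x x0 = 1 - χ i x) (κ : G → R)
    (h : m + 1 = n + (p + 1)) (a : Fin m → G) (f : X → R) :
    T (Rs x0 lo n0) χ c κ (List.ofFn a) f = (f x0 * ((-1) ^ n * (Matrix.of (Fin.cons (ap h 0 1)
      fun j => ap h (col χ κ (a j)) (lo (a j)) : Fin (m + 1) → Fin (m + 1) → R)).det)) • n0 := by
  induction n generalizing κ m f with
  | zero =>
    obtain rfl : m = p := by omega
    simp [T, Rs, co_ofFn, ap_zero]
  | succ n ih =>
    obtain ⟨m, rfl⟩ : ∃ k, m = k + 1 := ⟨n + p, by omega⟩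
    have h' : m + 1 = n + (p + 1) := by omega
    rw [T, cup_apply, alt_ofFn, Matrix.det_succ_column_zero, Fin.sum_univ_succ (n := m + 1)]
    simp only [ih (χ := Fin.tail χ) (c := Fin.tail c) (fun i => hc i.succ) _ h', ap_succ h h',
      Matrix.of_apply, Fin.cons_zero, Fin.cons_succ, Pi.zero_apply, mul_zero, zero_mul, zero_add,
      mul_sum, sum_smul, col_tail]
    refine sum_congr rfl fun i _ => ?_
    rw [← Int.cast_smul_eq_zsmul R, smul_smul]
    congr 1
    have e : (Matrix.of (Fin.cons (Fin.cons 0 (ap h' (Fin.tail (0 : Fin (n + 1) → R)) 1)) fun j => Fin.cons (col χ κ (a j) 0)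
        (ap h' (col (Fin.tail χ) (κ * χ 0) (a j)) (lo (a j))) : Fin (m + 2) → Fin (m + 2) → R)).submatrix
        i.succ.succAbove Fin.succ = Matrix.of (Fin.cons (ap h' 0 1) fun j => ap h'
          (col (Fin.tail χ) (κ * χ 0) (a (i.succAbove j))) (lo (a (i.succAbove j)))) := by
      ext j k
      induction j using Fin.cases <;> simp
      rfl
    rw [e]
    simp only [col, tw, h0, hc, Pi.mul_apply, Fin.not_lt_zero, if_false, prod_const_one, Fin.val_succ]
    push_cast
    ring

theorem det_ap {p r m : ℕ} (h : m + 1 = r + 1 + (p + 1)) (h' : m = r + (p + 1)) (e : R)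
    (t : Fin m → Fin (r + 1) → R) (l : Fin m → Fin (p + 1) → R)
    (k : ∀ j, ∑ i, t j i = e * ∑ i, l j i) :
    (Matrix.of (Fin.cons (ap h 0 1) fun j => ap h (t j) (l j) : Fin (m + 1) → Fin (m + 1) → R)).det =
      -((p + 1) * e) * (Matrix.of fun j => ap h' (Fin.tail (t j)) (l j)).det := by
  have s : ∀ (t : Fin (r + 1) → R) (l : Fin (p + 1) → R),
      ∑ i, ap h 1 (fun _ => -e) i • ap h t l i = ∑ i, t i - e * ∑ i, l i := fun t l => by
    rw [← (sq h).symm.sum_comp, Fintype.sum_sum_type]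
    simp [ap, mul_sum, sub_eq_add_neg]
  have := Matrix.det_updateCol_sum (Matrix.of (Fin.cons (ap h 0 1) fun j => ap h (t j) (l j) :
    Fin (m + 1) → Fin (m + 1) → R)) 0 (ap h 1 fun _ => -e)
  rw [ap_succ h h' 1, Fin.cons_zero, ← ap_succ h h', Pi.one_apply, one_smul] at this
  rw [← this, Matrix.det_succ_column_zero, Fin.sum_univ_succ]
  simp only [Matrix.updateCol_self, Matrix.of_apply, Fin.cons_zero, Fin.cons_succ, s, k, sub_self,
    mul_zero, zero_mul, sum_const_zero, add_zero]
  congr 1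
  · simp [mul_comm]
  · congr 1
    ext j i
    simp [Matrix.updateCol_ne, ap_succ h h']

end Cu

open Cu

theorem cup : CUP := by
  intro p r q
  have h1 : r + (p + 1) = r + 1 + p := by omega
  have h2 : r + (p + 1) + 1 = r + 1 + (p + 1) := by omega
  obtain ⟨z, hz⟩ : ∃ z : ℤˣ, Equiv.Perm.sign (((sq rfl).trans (Equiv.sumComm _ _)).trans
    ((sq h1).trans q.symm).symm) = z := ⟨_, rfl⟩
  refine ⟨(-1) ^ r * z, ?_, ?_⟩
  · rcases Int.units_eq_one_or z with rfl | rfl <;>
      rcases neg_one_pow_eq_or ℤ r with k | k <;> simp [k]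
  intro G R X N _ _ _ _ _ x0 K φ χ c c' b L L' π u Ψ N0 lo e n0 h0 hφ hK hw t1 t2 hΨ hχ hr
  have o : ∀ x : G, tw 1 x φ = φ := fun x => funext fun y => by simp [tw, hφ]
  have hA : ∀ f ∈ ({φ} : Set (X → R)), ∀ x : G, tw 1 x f ∈ ({φ} : Set (X → R)) := by
    rintro _ rfl x
    exact o x
  obtain ⟨-, Ξ, k1⟩ := main (fun M => Ψ (cyc M)) (χ := fun i => χ i) (c' := c') 1
    (fun i x => ((hw i).st _ x (hK i x)).1) (fun i x => ((hw i).cm x).1) (fun i => (hw i).bm)
    (fun i => (hw i).sub) (fun i => (hw i).sym) hA (by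
      rintro _ rfl g hg M
      obtain _ | ⟨a, M⟩ := M
      · rfl
      · rw [← (hΨ (cyc (a :: M)) g hg).1, bd_cyc, dd_apply, one_mul,
          show (∏ i, (χ i : G → R)) = fun y => ∏ i, χ i y from funext fun _ => Finset.prod_apply _ _ _]
        refine .trans ?_ (map_alt (Ψ.flip _) _ _).symm
        simp only [map_sub, AddMonoidHom.flip_apply, fun z => (hΨ z g hg).2])
  have k2 := k1 φ rfl (List.ofFn π ++ List.ofFn u)
  rw [dd_apply, alt_zero fun x _ _ => by rw [o, sub_self], sub_eq_zero, tri _ (fun i => (hw i).sym) t1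
    (fun i x m => by obtain ⟨j, rfl⟩ := List.mem_ofFn.1 m; exact t2 i j) fun x _ => o x] at k2
  have k3 := err (fun M => Ψ (cyc M)) (Rs x0 lo n0) N0 (χ := fun i => χ i) (c := c') (p := p) 1
    (fun i x => ((hw i).st _ x (hK i x)).2) (fun i x => ((hw i).cm x).2) hA (by
      rintro _ rfl g hg M hM
      obtain ⟨v, rfl⟩ := ex_ofFn hM
      simpa only [Rs, AddMonoidHom.mk'_apply, co_ofFn] using hr v g hg) φ rfl
    (List.ofFn π ++ List.ofFn u) (by simp only [List.length_append, List.length_ofFn])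
  rw [← k2, ← ofFn_ap h1, res lo n0 h0 (fun i => (hw i).val) 1 h2, det_ap h2 rfl e _ _ fun j => by
    rw [col_sum, hχ]; simp] at k3
  convert k3 using 3
  have := Matrix.det_reindex ((sq h1).trans q.symm) ((sq rfl).trans (Equiv.sumComm _ _))
    (Matrix.of fun j => ap rfl (Fin.tail (col (fun i => χ i) 1 (ap h1 π u j))) (lo (ap h1 π u j)))
  rw [show (Matrix.of fun j j' => Sum.elim (lo (Sum.elim π u (q j))) (fun i : Fin r =>
    (∏ i' ∈ Iic i, χ i'.castSucc (Sum.elim π u (q j))) * (1 - χ i.succ (Sum.elim π u (q j)))) j') = _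
    from Matrix.ext fun j j' => ?_, this, hz]
  · clear hz
    rcases Int.units_eq_one_or z with rfl | rfl <;> push_cast <;> ring
  · obtain j' | j' := j'
    · simp [ap]
    · have : ∀ f : Fin (r + 1) → R,
          (∏ i, if i < j'.succ then f i else 1) = ∏ i ∈ Iic j', f i.castSucc := fun f => by
        rw [Fin.prod_univ_castSucc, if_neg (Fin.le_last _).not_gt, mul_one, ← prod_filter]
        exact prod_congr (by ext; simp) fun _ _ => rfl
      simp [ap, Fin.tail, col, this]

end Vale.Agent.P004C.Ld
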