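import Vale.Agent.P004C.Ld.St1

/-!
# P004 C, the leading term: row EXT (extension of scalars)
-/

set_option autoImplicit false

open TensorProduct

noncomputable section

namespace Vale.Agent.P004C.Ld

theorem pi_inj (X R : Type) [AddCommGroup R] [Module ℚ R] :
    LinearMap.ker (piScalarRightHom ℚ ℚ R X) = ⊥ := by
  classical
  let b := Module.Free.chooseBasis ℚ R
  have k : ∀ (t : R ⊗[ℚ] (X → ℚ)) i x,
      equivFinsuppOfBasisLeft b t i x = b.repr (piScalarRightHom ℚ ℚ R X t x) i := fun t i x => by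
    induction t with
    | zero => simp
    | tmul a g => simp [mul_comm]
    | add s t hs ht => simp [hs, ht]
  refine LinearMap.ker_eq_bot'.2 fun t ht => (equivFinsuppOfBasisLeft b).injective ?_
  ext i x
  simp [k, ht]

/-- **row EXT** -/
theorem ext : EXT := by
  intro X R _ _ A ψ h
  let _ : DivisibleBy R ℤ := ⟨fun a n => (n : ℚ)⁻¹ • a, fun a => by simp, fun {n} a hn => by
    rw [← Int.cast_smul_eq_zsmul ℚ, smul_smul, mul_inv_cancel₀ (Int.cast_ne_zero.2 hn), one_smul]⟩
  obtain ⟨φ, hφ⟩ := (Module.Baer.of_divisible R).extension_property_addMonoidHom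
    (M := A) (N := X → ℚ) (.mk' (fun g x => g.1 x) fun _ _ => by ext; simp)
    (fun g g' e => Subtype.ext (funext fun x => Int.cast_injective (α := ℚ) (congrFun e x)))
    (.mk' (fun g => ψ g) fun g g' => h _ g.2 _ g'.2)
  obtain ⟨l, hl⟩ := (piScalarRightHom ℚ ℚ R X).exists_leftInverse_of_injective (pi_inj X R)
  refine ⟨((LinearMap.mul' ℚ R ∘ₗ φ.toRatLinearMap.lTensor R) ∘ₗ l).toAddMonoidHom,
    fun g hg a => ?_⟩
  have e : (fun x => a * g x) = piScalarRightHom ℚ ℚ R X (a ⊗ₜ fun x => (g x : ℚ)) := by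
    ext x
    simp only [piScalarRightHom_tmul, Int.cast_smul_eq_zsmul, zsmul_eq_mul, mul_comm]
  have e2 : φ (fun x => (g x : ℚ)) = ψ g := DFunLike.congr_fun hφ ⟨g, hg⟩
  have e3 := LinearMap.congr_fun hl (a ⊗ₜ fun x => (g x : ℚ))
  simp only [LinearMap.comp_apply, LinearMap.id_apply] at e3
  simp only [e, LinearMap.toAddMonoidHom_coe, LinearMap.comp_apply, e3]
  simp [e2]

end Vale.Agent.P004C.Ld
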