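import Vale.Agent.P004C.Ld.St1

/-!
# P004 C, the leading term: row TRF (transfer and base vertex)
-/

set_option autoImplicit false

open Finset FreeAbelianGroup

noncomputable section

namespace Vale.Agent.P004C.Ld

open An

namespace Tf

section

variable {V W : Type*}

/-- the homotopy between `pr f h` and `pr f g + pr g h` -/
def hm0 (f g h : V → W) : List V → Ch W
  | [] => 0
  | a :: L => cn (f a) (hm0 f g h L - pr g h (of (a :: L)))

/-- the homotopy between `pr f h` and `pr f g + pr g h` -/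
def hm (f g h : V → W) : Ch V →+ Ch W := lift (hm0 f g h)

theorem hm_nil (f g h : V → W) : hm f g h (of []) = 0 := lift_apply_of _ _

theorem hm_cn (f g h : V → W) (a : V) (c : Ch V) :
    hm f g h (cn a c) = cn (f a) (hm f g h c - pr g h (cn a c)) :=
  hom_ext (φ := (hm f g h).comp (cn a)) (ψ := (cn (f a)).comp (hm f g h - (pr g h).comp (cn a)))
    (fun L => by simp [hm, hm0]) c

theorem bd_hm (f g h : V → W) (c : Ch V) :
    bd (hm f g h c) = pr f h c - pr f g c - pr g h c + hm f g h (bd c) :=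
  cn_ext (φ := bd.comp (hm f g h)) (ψ := pr f h - pr f g - pr g h + (hm f g h).comp bd)
    (by simp [hm_nil]) (fun a c k => by
      simp only [AddMonoidHom.comp_apply, AddMonoidHom.sub_apply, AddMonoidHom.add_apply] at k ⊢
      simp only [hm_cn, bd_cn, pr_cn, map_sub, map_add, k, bd_pr, bd_mp]
      abel) c

theorem mp_hm {U : Type*} (f g h : V → W) (k : W → U) (c : Ch V) :
    mp k (hm f g h c) = hm (k ∘ f) (k ∘ g) (k ∘ h) c :=
  cn_ext (φ := (mp k).comp (hm f g h)) (by simp [hm_nil]) (fun a c e => by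
    simp only [AddMonoidHom.comp_apply] at e ⊢
    simp only [hm_cn, mp_cn, map_sub, e, mp_pr, Function.comp_apply]) c

theorem hm_mp {U : Type*} (f g h : V → W) (k : U → V) (c : Ch U) :
    hm f g h (mp k c) = hm (f ∘ k) (g ∘ k) (h ∘ k) c :=
  cn_ext (φ := (hm f g h).comp (mp k)) (by simp [hm_nil]) (fun a c e => by
    simp only [AddMonoidHom.comp_apply] at e ⊢
    rw [hm_cn, ← pr_mp, mp_cn, hm_cn, e]
    rfl) c

end

variable {G N : Type*} [CommGroup G] [AddCommGroup N] {ψ : Ch G →+ N}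

/-- **additivity of the prism** -/
theorem P_mul (hb : ∀ z, ψ (bd z) = 0) {L : List G} (h : ∀ y ∈ L, ∀ z, ψ (tr y z) = ψ z)
    (e e' : G) : ψ (P (e * e') (cyc L)) = ψ (P e (cyc L)) + ψ (tr e (P e' (cyc L))) := by
  have k := hb (hm id (e * ·) (e * e' * ·) (cyc L))
  have k2 := kill (L := L) (ψ.comp (hm id (e * ·) (e * e' * ·))) (by simp [hm_nil]) fun y m z => by
    rw [AddMonoidHom.comp_apply, AddMonoidHom.comp_apply, ← h y m (hm _ _ _ z), mp_hm, hm_mp,
      show (e * ·) ∘ (y * ·) = (y * ·) ∘ (e * ·) from funext fun a => mul_left_comm _ _ _,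
      show (e * e' * ·) ∘ (y * ·) = (y * ·) ∘ (e * e' * ·) from funext fun a => mul_left_comm _ _ _]
    rfl
  rw [AddMonoidHom.comp_apply] at k2
  rw [bd_hm, map_add, k2, add_zero, map_sub, map_sub, sub_sub, sub_eq_zero] at k
  rw [k, mp_pr, show (e * ·) ∘ (e' * ·) = (e * e' * ·) from funext fun a => (mul_assoc _ _ _).symm]
  rfl

theorem P_pow (hb : ∀ z, ψ (bd z) = 0) {L : List G} (h : ∀ y ∈ L, ∀ z, ψ (tr y z) = ψ z)
    (e : G) (d : ℕ) : ψ (P (e ^ d) (cyc L)) = ∑ a ∈ range d, ψ (tr (e ^ a) (P e (cyc L))) := by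
  induction d with
  | zero =>
    have k := P_mul hb h 1 1
    rw [tr_one, mul_one] at k
    simpa using k
  | succ d ih => rw [pow_succ, P_mul hb h, ih, sum_range_succ]

/-- `ψ ∘ P e` kills boundaries -/
theorem P_bd (hb : ∀ z, ψ (bd z) = 0) {e : G} (h : ∀ z, ψ (tr e z) = ψ z) (z : Ch G) :
    ψ (P e (bd z)) = 0 := by
  have k := hb (P e z)
  rwa [bd_P, map_sub, map_sub, h, sub_self, zero_sub, neg_eq_zero] at k

/-- **the base vertex** -/
theorem base (hb : ∀ z, ψ (bd z) = 0) {L : List G} (h : ∀ y ∈ L, ∀ z, ψ (tr y z) = ψ z) (s : G) :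
    ψ (tr s (cyc L)) = ψ (cyc L) := by
  have k := hb (P s (cyc L))
  have k2 := kill (L := L) (ψ.comp (P s)) (by simp) fun y m z => by
    simp only [AddMonoidHom.comp_apply, ← tr_P, h y m]
  rw [AddMonoidHom.comp_apply] at k2
  rwa [bd_P, map_sub, map_sub, k2, sub_zero, sub_eq_zero] at k

theorem sum_pi {p : ℕ} (d : Fin (p + 1) → ℕ) (F : (Fin (p + 1) → ℕ) → N) :
    ∑ a ∈ Fintype.piFinset fun j => range (d j), F a =
      ∑ x ∈ range (d 0), ∑ a ∈ Fintype.piFinset fun j => range (d (Fin.succ j)),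
        F (Fin.cons x a) := by
  rw [← sum_product']
  exact (sum_equiv (Fin.consEquiv fun _ => ℕ) (fun x => by
    simp [Fin.forall_fin_succ, Fin.consEquiv]) fun _ _ => rfl).symm

/-- the average of `ψ` -/
def av {p : ℕ} (u : Fin p → G) (d : Fin p → ℕ) (ψ : Ch G →+ N) : Ch G →+ N :=
  ∑ a ∈ Fintype.piFinset fun j => range (d j), ψ.comp (tr (∏ j, u j ^ a j))

theorem av_apply {p : ℕ} (u : Fin p → G) (d : Fin p → ℕ) (z : Ch G) :
    av u d ψ z = ∑ a ∈ Fintype.piFinset fun j => range (d j), ψ (tr (∏ j, u j ^ a j) z) := by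
  simp [av, AddMonoidHom.finsetSum_apply]

theorem av_succ {p : ℕ} (u : Fin (p + 1) → G) (d : Fin (p + 1) → ℕ) (z : Ch G) :
    av u d ψ z = ∑ x ∈ range (d 0),
      av (fun j => u j.succ) (fun j => d j.succ) ψ (tr (u 0 ^ x) z) := by
  simp only [av_apply, sum_pi, Fin.prod_univ_succ, Fin.cons_zero, Fin.cons_succ, tr_tr, mul_comm]

theorem av_tr {p : ℕ} (u : Fin p → G) (d : Fin p → ℕ) {e : G} (h : ∀ z, ψ (tr e z) = ψ z)
    (z : Ch G) : av u d ψ (tr e z) = av u d ψ z := by
  simp only [av_apply, tr_tr, mul_comm _ e]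
  simp only [← tr_tr, h]

theorem av_inv {p : ℕ} (u : Fin p → G) (d : Fin p → ℕ) (h : ∀ j z, ψ (tr (u j ^ d j) z) = ψ z)
    (j : Fin p) (z : Ch G) : av u d ψ (tr (u j) z) = av u d ψ z := by
  induction p generalizing z with
  | zero => exact j.elim0
  | succ p ih =>
    simp only [av_succ, tr_tr]
    refine j.cases ?_ fun j => sum_congr rfl fun x _ => ?_
    · have k := (sum_range_succ' (fun x => av (fun j => u j.succ) (fun j => d j.succ) ψ
        (tr (u 0 ^ x) z)) (d 0)).symm.trans (sum_range_succ _ _)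
      rw [av_tr _ _ (h 0), pow_zero, tr_one, add_left_inj] at k
      simpa only [pow_succ] using k
    · rw [mul_comm, ← tr_tr]
      exact ih _ _ (fun j => h j.succ) j _

/-- **the transfer** -/
theorem av_cyc {p : ℕ} (u : Fin p → G) (d : Fin p → ℕ) (hb : ∀ z, ψ (bd z) = 0)
    (h : ∀ j z, ψ (tr (u j ^ d j) z) = ψ z) :
    av u d ψ (cyc (List.ofFn u)) = ψ (cyc (List.ofFn fun j => u j ^ d j)) := by
  induction p generalizing ψ with
  | zero => simp [av_apply, tr_one]
  | succ p ih =>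
    have k := ih (ψ := ψ.comp (P (u 0 ^ d 0))) (fun j => u j.succ) (fun j => d j.succ)
      (P_bd hb (h 0)) fun j z => by simp only [AddMonoidHom.comp_apply, ← tr_P, h]
    rw [List.ofFn_succ, List.ofFn_succ, cyc, cyc, av_succ, ← P_pow (fun z => by
      simp only [av_apply, ← bd_mp, hb, sum_const_zero]) (List.forall_mem_ofFn_iff.2 fun j =>
        av_inv _ _ (fun j => h j.succ) j)]
    simpa only [av_apply, AddMonoidHom.comp_apply, tr_P] using k

end Tf

open Tf

/-- **row TRF** -/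
theorem trf : TRF := by
  intro p G X R N _ _ _ _ Ψ A u d f s hb hu hf hd
  let S : Submonoid G :=
    { carrier := {e | ∀ g ∈ A, (fun y => g (e⁻¹ • y)) ∈ A ∧
        ∀ z, Ψ (tr e z) g = Ψ z fun y => g (e⁻¹ • y)}
      one_mem' := fun g hg => by simpa [tr_one] using hg
      mul_mem' := fun {e e'} k k' g hg => by
        have := k' _ (k g hg).1
        simp only [mul_inv, mul_smul, ← tr_tr, (k g hg).2]
        exact this }
  have h1 : ∀ j z, Ψ.flip f (tr (u j ^ d j) z) = Ψ.flip f z := fun j z => by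
    have := (S.pow_mem (show u j ∈ S from hu j) (d j) f hf).2 z
    rwa [show (fun y => f ((u j ^ d j)⁻¹ • y)) = f from funext fun y => by
      rw [← hd j, smul_inv_smul]] at this
  have h0 : ∀ z, Ψ.flip f (bd z) = 0 := fun z => hb z f hf
  refine Eq.trans ?_ ((av_cyc u d h0 h1).trans
    (base h0 (List.forall_mem_ofFn_iff.2 h1) s).symm)
  rw [av_apply, map_sum]
  exact sum_congr rfl fun a _ =>
    ((S.prod_mem fun j _ => S.pow_mem (show u j ∈ S from hu j) (a j)) f hf).2 _ |>.symm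

end Vale.Agent.P004C.Ld
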