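import Vale.Agent.P004C.Ld.Bd

/-!
# P004 C, the leading term: row LG
-/

set_option autoImplicit false

open Filter Topology

noncomputable section

namespace Vale.Agent.P004C.Ld

variable {x y : ℂ_[2]}

theorem lg_pow (h : ‖x - 1‖ ≤ 1 / 4) (a : ℕ) : ‖x ^ 2 ^ a - 1‖ ≤ ‖x - 1‖ * (1 / 2) ^ a := by
  induction a with
  | zero => simp
  | succ a ih =>
    have k : ‖x ^ 2 ^ a - 1‖ ≤ 1 / 2 := ih.trans (by
      nlinarith [pow_le_one₀ (n := a) (by norm_num : (0 : ℝ) ≤ 1 / 2) (by norm_num),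
        norm_nonneg (x - 1), pow_pos (by norm_num : (0 : ℝ) < 1 / 2) a])
    rw [show x ^ 2 ^ (a + 1) - 1 = (x ^ 2 ^ a - 1) * (2 + (x ^ 2 ^ a - 1)) by
      rw [pow_succ, pow_mul]; ring, norm_mul, pow_succ, ← mul_assoc]
    exact mul_le_mul ih (nrm_add nrm_two.le k) (norm_nonneg _) (by positivity)

theorem lg_err (h : ‖x - 1‖ ≤ 1 / 4) (k : ‖y - 1‖ ≤ 1 / 4) (a : ℕ) :
    ‖(x ^ 2 ^ a - 1) * (y ^ 2 ^ a - 1) / 2 ^ a‖ ≤ ‖x - 1‖ * ‖y - 1‖ * (1 / 2) ^ a := by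
  rw [norm_div, norm_mul, norm_pow, nrm_two, div_le_iff₀ (by positivity)]
  exact (mul_le_mul (lg_pow h a) (lg_pow k a) (norm_nonneg _) (by positivity)).trans_eq (by ring)

theorem lg_step (h : ‖x - 1‖ ≤ 1 / 4) (a : ℕ) :
    ‖(x ^ 2 ^ (a + 1) - 1) / 2 ^ (a + 1) - (x ^ 2 ^ a - 1) / 2 ^ a‖ ≤
      2 * ‖x - 1‖ ^ 2 * (1 / 2) ^ a := by
  rw [show (x ^ 2 ^ (a + 1) - 1) / 2 ^ (a + 1) - (x ^ 2 ^ a - 1) / 2 ^ a =
    (x ^ 2 ^ a - 1) * (x ^ 2 ^ a - 1) / 2 ^ a / 2 by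
      rw [pow_succ, pow_mul]; field_simp; ring, norm_div, nrm_two]
  linarith [lg_err h h a]

theorem lg_lim (h : ‖x - 1‖ ≤ 1 / 4) :
    Tendsto (fun a : ℕ => (x ^ 2 ^ a - 1) / 2 ^ a) atTop (𝓝 (lg x)) :=
  CauchySeq.tendsto_limUnder (cauchySeq_of_le_geometric (1 / 2) (2 * ‖x - 1‖ ^ 2) (by norm_num)
    fun a => by rw [dist_comm, dist_eq_norm]; exact lg_step h a)

theorem lg_near (h : ‖x - 1‖ ≤ 1 / 4) : ‖lg x - (x - 1)‖ ≤ 2 * ‖x - 1‖ ^ 2 := by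
  refine le_of_tendsto' ((lg_lim h).sub_const _).norm fun a => ?_
  induction a with
  | zero => simp
  | succ a ih =>
    rw [← sub_add_sub_cancel _ ((x ^ 2 ^ a - 1) / 2 ^ a)]
    exact nrm_add ((lg_step h a).trans (mul_le_of_le_one_right (by positivity)
      (pow_le_one₀ (by norm_num) (by norm_num)))) ih

theorem near_mul {r : ℝ} (hr : r ≤ 1) (h : ‖x - 1‖ ≤ r) (k : ‖y - 1‖ ≤ r) : ‖x * y - 1‖ ≤ r := by
  rw [show x * y - 1 = (x - 1) * (y - 1) + (x - 1) + (y - 1) by ring]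
  refine nrm_add (nrm_add ?_ h) k
  rw [norm_mul]
  exact (mul_le_of_le_one_right (norm_nonneg _) (k.trans hr)).trans h

theorem lg_mul (h : ‖x - 1‖ ≤ 1 / 4) (k : ‖y - 1‖ ≤ 1 / 4) : lg (x * y) = lg x + lg y := by
  have e : Tendsto (fun a : ℕ => (x ^ 2 ^ a - 1) * (y ^ 2 ^ a - 1) / 2 ^ a) atTop (𝓝 0) :=
    squeeze_zero_norm (lg_err h k) (by
      simpa using (tendsto_pow_atTop_nhds_zero_of_lt_one (by norm_num : (0 : ℝ) ≤ 1 / 2)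
        (by norm_num)).const_mul (‖x - 1‖ * ‖y - 1‖))
  refine tendsto_nhds_unique (lg_lim (near_mul (by norm_num) h k)) ?_
  rw [← add_zero (lg x + lg y)]
  exact (((lg_lim h).add (lg_lim k)).add e).congr fun a => by rw [mul_pow]; ring

/-- **row LG** -/
theorem lg_row : LG := fun _ h => ⟨lg_lim h, lg_pow h, lg_near h, fun _ => lg_mul h⟩

end Vale.Agent.P004C.Ld
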