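import Vale.Agent.P004C.Ld.St2
import Vale.Agent.P004C.As.Fou
import Vale.Agent.P004C.As.Vaq

/-! # P004 C, the leading term: row FOV -/

set_option autoImplicit false
set_option linter.all false

open NumberField Module Finset
open scoped Classical

noncomputable section

namespace Vale.Agent.P004C.Ld

open As Al.Gx As.Fo As.Vq

namespace Fv

variable {K : Type} [Field K] [NumberField K] {ι : ℂ →+* ℂ_[2]} {J : K →+* ℂ} {Ω : ℝ}
  {M : Type} [Field M] [NumberField M] [Algebra K M] {x y : M} {m : ℕ}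

theorem le_half (a : VAL) (B : Base ι J Ω) {w : K} (h : ‖ι (J w)‖ < 1) : ‖ι (J w)‖ ≤ 1 / 2 := by
  obtain ⟨s, s1, hs⟩ := (((a K ι J Ω B).2.2 K).1 w).2 h.le
  obtain ⟨u, hu, v, hv, e⟩ := Submodule.mem_sup.1 ((vv_cop B).ge (Submodule.mem_top (x := 1)))
  have v1 := not_vv.1 fun k => vv_prime.ne_top ((Ideal.eq_top_iff_one _).2 (e ▸ add_mem hu k))
  have m : (⟨_, hs⟩ : 𝓞 K) ∈ vv ι J := mem_vv.2 (by
    show ‖ι (J (s * w))‖ < 1
    rwa [map_mul, map_mul, norm_mul, s1, one_mul])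
  obtain ⟨c, hc⟩ := Ideal.mem_span_singleton'.1 ((vv_two B).1.le (Ideal.mul_mem_mul m hv))
  have e2 : (c : K) * 2 = s * w * v := congrArg (fun x : 𝓞 K => (x : K)) hc
  have e3 := congrArg (fun x => ‖ι (J x)‖) e2
  simp only [map_mul, norm_mul, s1, v1, map_ofNat, nm_two, one_mul, mul_one] at e3
  rw [← e3]
  exact mul_le_of_le_one_left (by norm_num) (nm_le c)

theorem unit (hm : 1 ≤ m) (x0 : x ≠ 0) (h : Vi ι J x⁻¹) (e : Vi ι J ((x - y) / 2 ^ m)) :
    y ≠ 0 ∧ Vi ι J y⁻¹ ∧ V1 ι J m (x / y) := by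
  have v : V1 ι J m (y / x) := by
    have := (Ov ι J M).neg_mem ((Ov ι J M).mul_mem e h)
    rwa [show -((x - y) / 2 ^ m * x⁻¹) = (y / x - 1) / 2 ^ m by field_simp; ring] at this
  obtain ⟨n, k⟩ := v1_unit hm v
  refine ⟨(div_ne_zero_iff.1 n).1, ?_, by simpa using v1_inv hm v⟩
  have := (Ov ι J M).mul_mem k h
  rwa [inv_div, div_eq_mul_inv, mul_right_comm, mul_inv_cancel₀ x0, one_mul] at this

end Fv

open Fv in
theorem fov (a : VAL) : FOV := fun K _ _ ι J Ω B M _ _ _ m hm => by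
  obtain ⟨-, -, q3, q4, -⟩ := vaq0 K ι J Ω B M
  obtain ⟨-, v2, -, v4, -⟩ := (a K ι J Ω B).2.2 M
  have q5 : Ideal.absNorm (Qm ι J M m) = 2 ^ (m * finrank K M) := by
    rw [q3, map_pow, q4, ← pow_mul, mul_comm]
  have fin : Finite (𝓞 M ⧸ Qm ι J M m) := (Ideal.absNorm_ne_zero_iff _).1 (by rw [q5]; positivity)
  have := Fintype.ofFinite (𝓞 M ⧸ Qm ι J M m)
  obtain ⟨r, hr⟩ := (Ideal.Quotient.mk_surjective (I := Qm ι J M m)).hasRightInverse
  have inj : Function.Injective fun a => (r a : M) :=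
    RingOfIntegers.coe_injective.comp hr.injective
  have yr : Yr ι J m ((univ.filter fun a => (r a : M) ≠ 0 ∧ Vi ι J (r a : M)⁻¹).image
      fun a => (r a : M)) := by
    refine ⟨fun y hy => ?_, fun x x0 h1 h2 => ?_⟩
    · obtain ⟨b, hb, rfl⟩ := mem_image.1 hy
      exact ⟨(mem_filter.1 hb).2.1, Vi_of ι J _, (mem_filter.1 hb).2.2⟩
    obtain ⟨z, -, hz⟩ := v4 ⊤ x m ⟨1, by simp, trivial⟩ h1
    have k : ∀ b, Vi ι J ((x - r b) / 2 ^ m) ↔ b = Ideal.Quotient.mk _ z := fun b => by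
      rw [← hr b, Ideal.Quotient.eq, hr, ← neg_mem_iff, neg_sub, mem_Q, ← mem_Ov, ← mem_Ov,
        ← add_mem_cancel_left (mem_Ov.2 hz), ← add_div, sub_add_sub_cancel]
      simp
    obtain ⟨u1, u2, u3⟩ := unit hm x0 h2 ((k _).2 rfl)
    refine ⟨_, ⟨mem_image_of_mem _ (mem_filter.2 ⟨mem_univ _, u1, u2⟩), u3⟩, ?_⟩
    rintro _ ⟨hy, v⟩
    obtain ⟨b, hb, rfl⟩ := mem_image.1 hy
    have := (mem_filter.1 hb).2.1
    refine congrArg (fun a => (r a : M)) ((k b).1 ?_)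
    have v' := (Ov ι J M).mul_mem v (int_Ov (r b))
    rwa [show (x / r b - 1) / 2 ^ m * r b = (x - r b) / 2 ^ m by field_simp] at v'
  obtain ⟨y1, h1, -⟩ := yr.2 1 one_ne_zero (Ov ι J M).one_mem ((inv_one (G := M)).symm ▸ (Ov ι J M).one_mem)
  refine ⟨_, (univ.filter fun a => ¬ ((r a : M) ≠ 0 ∧ Vi ι J (r a : M)⁻¹)).image
    fun a => (r a : M), yr, ⟨y1, h1.1⟩, fun y hy => ?_, fun ψ y₀ p d x hx => ?_⟩
  · obtain ⟨b, hb, rfl⟩ := mem_image.1 hy
    refine ⟨Vi_of ι J _, fun x h => le_half a B ?_⟩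
    have hx : Vi ι J x := by
      have := (Ov ι J M).add_mem ((Ov ι J M).mul_mem h
        ((Ov ι J M).pow_mem (ofNat_mem _ 2) m)) (int_Ov (r b))
      rwa [div_mul_cancel₀ _ (pow_ne_zero m two_ne_zero), sub_add_cancel] at this
    refine (v2 x hx).2.1.lt_of_ne fun e => ?_
    have : FiniteDimensional K M := Module.Finite.of_restrictScalars_finite ℚ K M
    obtain ⟨u1, u2, -⟩ := unit hm (fun z => by simp [z, Algebra.norm_zero] at e)
      ((v2 x hx).2.2 e) h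
    exact (mem_filter.1 hb).2 ⟨u1, u2⟩
  · have e := sum_id le_top r hr (ch ψ y₀ x) ch_add ((ch_triv p d _).2 fun y hy => by
      have := Vi_mul hx (mem_Q.1 hy)
      rwa [show 2 ^ m * x * ((y : M) / 2 ^ m) = x * y by field_simp] at this)
    rw [← Submodule.cardQuot_apply, ← Submodule.cardQuot_apply, ← Ideal.absNorm_apply,
      ← Ideal.absNorm_apply, q5, Ideal.absNorm_top, Nat.cast_one, one_mul] at e
    rw [sum_image inj.injOn, sum_image inj.injOn, sum_filter_add_sum_filter_not]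
    refine Eq.trans (sum_congr rfl fun b _ => (if_pos trivial).symm) (e.trans ?_)
    by_cases t : Vi ι J x
    · rw [if_pos t, if_pos ((ch_triv p d _).2 fun y _ => Vi_mul t (Vi_of ι J y))]
      push_cast
      rfl
    · rw [if_neg t, if_neg fun k => t (by simpa using (ch_triv p d _).1 k 1 trivial)]

end Vale.Agent.P004C.Ld
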