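import Vale.Agent.P004C.Ld.St1

/-!
# P004 C, the leading term: adapted bases
-/

set_option autoImplicit false

open Finset Module

noncomputable section

namespace Vale.Agent.P004C.Ld

namespace Ap

variable {M : Type} [AddCommGroup M] {n p : ℕ}

/-- the triangular generators -/
theorem tri (O : M →ₗ[ℤ] Fin n → ℤ)
    (hO : ∀ i, ∃ (x : M) (N : ℤ), N ≠ 0 ∧ O x = Pi.single i N) (j : Fin n) :
    ∃ (π : M) (h : ℕ), 0 < h ∧ O π j = h ∧ (∀ i < j, O π i = 0) ∧
      ∀ x, (∀ i < j, O x i = 0) → (h : ℤ) ∣ O x j := by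
  let S : AddSubgroup ℤ :=
    { carrier := {m | ∃ x, (∀ i < j, O x i = 0) ∧ O x j = m}
      add_mem' := by
        rintro _ _ ⟨x, h1, rfl⟩ ⟨y, h2, rfl⟩
        exact ⟨x + y, fun i hi => by rw [map_add, Pi.add_apply, h1 i hi, h2 i hi, add_zero],
          by rw [map_add, Pi.add_apply]⟩
      zero_mem' := ⟨0, fun i _ => by rw [map_zero, Pi.zero_apply], by rw [map_zero, Pi.zero_apply]⟩
      neg_mem' := by
        rintro _ ⟨x, h1, rfl⟩
        exact ⟨-x, fun i hi => by rw [map_neg, Pi.neg_apply, h1 i hi, neg_zero],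
          by rw [map_neg, Pi.neg_apply]⟩ }
  obtain ⟨a, ha⟩ := Int.subgroup_cyclic S
  have dv : ∀ m ∈ S, a ∣ m := fun m hm => by
    obtain ⟨k, hk⟩ := AddSubgroup.mem_closure_singleton.1 (ha ▸ hm)
    exact ⟨k, by rw [← hk, smul_eq_mul, mul_comm]⟩
  have m1 : a ∈ S := ha ▸ AddSubgroup.mem_closure_singleton.2 ⟨1, one_smul _ _⟩
  have m2 : (a.natAbs : ℤ) ∈ S := by
    rcases Int.natAbs_eq a with h | h
    · exact h ▸ m1
    · rw [← neg_eq_iff_eq_neg.2 h]; exact S.neg_mem m1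
  obtain ⟨π, h1, h2⟩ := m2
  refine ⟨π, a.natAbs, Int.natAbs_pos.2 fun e => ?_, h2, h1, fun x hx =>
    Int.natAbs_dvd.2 (dv _ ⟨x, hx, rfl⟩)⟩
  obtain ⟨x, N, hN, hx⟩ := hO j
  refine hN (zero_dvd_iff.1 (e ▸ dv N ⟨x, fun i hi => ?_, ?_⟩))
  · rw [hx, Pi.single_eq_of_ne hi.ne]
  · rw [hx, Pi.single_eq_same]

theorem ex_box (O : M →ₗ[ℤ] Fin n → ℤ) (π : Fin n → M) (h : Fin n → ℕ)
    (H : ∀ i, 0 < h i ∧ O (π i) i = h i ∧ ∀ j, i < j → O (π j) i = 0) (v : Fin n → ℤ) :
    ∃ x ∈ Submodule.span ℤ (Set.range π), ∀ i, 0 ≤ (v + O x) i ∧ (v + O x) i < h i := by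
  have A : ∀ m : ℕ, ∃ x ∈ Submodule.span ℤ (Set.range π), ∀ i : Fin n, i.val < m →
      0 ≤ (v + O x) i ∧ (v + O x) i < h i := fun m => by
    induction m with
    | zero => exact ⟨0, Submodule.zero_mem _, fun i hi => absurd hi (Nat.not_lt_zero _)⟩
    | succ m ih =>
      obtain ⟨x, hx, k⟩ := ih
      by_cases hm : m < n
      · let j : Fin n := ⟨m, hm⟩
        refine ⟨x + (-((v + O x) j / h j)) • π j, Submodule.add_mem _ hx (Submodule.smul_mem _ _
          (Submodule.subset_span ⟨j, rfl⟩)), fun i hi => ?_⟩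
        have e : (v + O (x + (-((v + O x) j / h j)) • π j)) i =
            (v + O x) i - (v + O x) j / h j * O (π j) i := by
          simp only [map_add, map_smul, Pi.add_apply, Pi.smul_apply, smul_eq_mul]; ring
        rw [e]
        rcases (Nat.lt_succ_iff.1 hi).eq_or_lt with c | c
        · obtain rfl : i = j := Fin.ext c
          have p0 : (0 : ℤ) < h j := Int.natCast_pos.2 (H j).1
          rw [(H j).2.1, mul_comm, ← Int.emod_def]
          exact ⟨Int.emod_nonneg _ p0.ne', Int.emod_lt_of_pos _ p0⟩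
        · rw [(H i).2.2 j c, mul_zero, sub_zero]
          exact k i c
      · exact ⟨x, hx, fun i _ => k i (i.2.trans_le (not_lt.1 hm))⟩
  obtain ⟨x, hx, k⟩ := A n
  exact ⟨x, hx, fun i => k i i.2⟩

theorem uq_box (O : M →ₗ[ℤ] Fin n → ℤ) (h : Fin n → ℕ)
    (H : ∀ j x, (∀ i < j, O x i = 0) → (h j : ℤ) ∣ O x j) (v : Fin n → ℤ) (x : M)
    (h1 : ∀ i, 0 ≤ v i ∧ v i < h i) (h2 : ∀ i, 0 ≤ (v + O x) i ∧ (v + O x) i < h i) :
    O x = 0 := by
  funext i
  induction i using WellFoundedLT.induction with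
  | ind i ih =>
    have a := h1 i
    have b := h2 i
    rw [Pi.add_apply] at b
    exact Int.eq_zero_of_abs_lt_dvd (H i x ih) (abs_lt.2 ⟨by linarith [a.2, b.1], by
      linarith [a.1, b.2]⟩)

theorem rk [Module.Finite ℤ M] (O : M →ₗ[ℤ] Fin n → ℤ)
    (hO : ∀ i, ∃ (x : M) (N : ℤ), N ≠ 0 ∧ O x = Pi.single i N) :
    n + finrank ℤ (LinearMap.ker O) = finrank ℤ M := by
  choose x N hN hx using hO
  have e : finrank ℤ (LinearMap.range O) = n := by
    refine le_antisymm ((Submodule.finrank_le _).trans_eq (finrank_fin_fun ℤ))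
      ((finrank_fin_fun ℤ).symm.trans_le (LinearMap.finrank_le_finrank_of_injective
        (f := O.rangeRestrict ∘ₗ Fintype.linearCombination ℤ x)
        ((injective_iff_map_eq_zero _).2 fun a ha => funext fun i => ?_)))
    have := congrFun (congrArg Subtype.val ha) i
    simp only [LinearMap.comp_apply, Fintype.linearCombination_apply, LinearMap.codRestrict_apply,
      LinearMap.rangeRestrict, map_sum, map_smul, hx, Submodule.coe_zero, Pi.zero_apply,
      Finset.sum_apply, Pi.smul_apply, smul_eq_mul, Submodule.coe_sum, Submodule.coe_smul] at this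
    rw [Finset.sum_eq_single i (fun j _ c => by rw [Pi.single_eq_of_ne c.symm, mul_zero])
      (fun c => absurd (mem_univ i) c), Pi.single_eq_same] at this
    exact (mul_eq_zero.1 this).resolve_right (hN i)
  rw [← (LinearMap.ker O).finrank_quotient_add_finrank, O.quotKerEquivRange.finrank_eq, e]

theorem smith (b0 : Basis (Fin p) ℤ M) (N : Submodule ℤ M) (d0 : ℕ) (h0 : 0 < d0)
    (h : ∀ x, (d0 : ℤ) • x ∈ N) : ∃ (b : Basis (Fin p) ℤ M) (d : Fin p → ℕ), (∀ j, 0 < d j) ∧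
      ∀ x, x ∈ N ↔ ∀ j, (d j : ℤ) ∣ b.repr x j := by
  have := Module.Finite.of_basis b0
  have e : finrank ℤ N = finrank ℤ M := le_antisymm (Submodule.finrank_le _)
    (LinearMap.finrank_le_finrank_of_injective
      (f := LinearMap.codRestrict N ((d0 : ℤ) • LinearMap.id) h)
      ((injective_iff_map_eq_zero _).2 fun a ha => by
        have k : (d0 : ℤ) • a = 0 := congrArg Subtype.val ha
        refine b0.ext_elem fun i => ?_
        have k' := congrArg (fun y => b0.repr y i) k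
        simp only [map_smul, Finsupp.smul_apply, smul_eq_mul, map_zero, Finsupp.zero_apply] at k' ⊢
        exact (mul_eq_zero.1 k').resolve_left (Int.natCast_pos.2 h0).ne'))
  obtain ⟨b, a, c, hc⟩ := Submodule.exists_smith_normal_form_of_rank_eq b0 e
  refine ⟨b, fun j => (a j).natAbs, fun j => Int.natAbs_pos.2 fun k => c.ne_zero j
    (Subtype.ext (by rw [hc, k, zero_smul]; rfl)), fun x => ⟨fun hx j => ?_, fun hx => ?_⟩⟩
  · have := congrArg (fun y : N => b.repr (y : M) j) (c.sum_repr ⟨x, hx⟩)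
    simp only [Submodule.coe_sum, Submodule.coe_smul, hc, smul_smul, Basis.repr_sum_self] at this
    exact Int.natAbs_dvd.2 ⟨_, by rw [← this, mul_comm]⟩
  · rw [← b.sum_repr x]
    refine N.sum_mem fun j _ => ?_
    obtain ⟨k, hk⟩ := Int.natAbs_dvd.1 (hx j)
    rw [hk, mul_comm, mul_smul, ← hc]
    exact N.smul_mem _ (c j).2

/-- the additive form -/
theorem add {ι : Type} [Fintype ι] (g : Basis ι ℤ M) (hc : Fintype.card ι = n + p)
    (O : M →ₗ[ℤ] Fin n → ℤ) (U : Submodule ℤ M) (d0 : ℕ)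
    (hO : ∀ i, ∃ (x : M) (N : ℤ), N ≠ 0 ∧ O x = Pi.single i N) (hU : ∀ x ∈ U, O x = 0)
    (h0 : 0 < d0) (hd : ∀ x, O x = 0 → (d0 : ℤ) • x ∈ U) :
    ∃ (π : Fin n → M) (h : Fin n → ℕ) (u : Fin p → M) (d : Fin p → ℕ),
    (∀ i, 0 < h i ∧ O (π i) i = h i ∧ ∀ j, i < j → O (π j) i = 0) ∧ (∀ j, 0 < d j ∧ O (u j) = 0) ∧
    (∀ x ∈ U, ∃! a : Fin p → ℤ, x = ∑ j, a j • d j • u j) ∧ (∀ j, d j • u j ∈ U) ∧
    (∀ x, O x = 0 → ∃! a : Fin p → ℕ, (∀ j, a j < d j) ∧ -(∑ j, a j • u j) + x ∈ U) ∧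
    (∀ v : Fin n → ℤ, (∃ x, ∀ i, 0 ≤ (v + O x) i ∧ (v + O x) i < h i) ∧ ∀ x,
      (∀ i, 0 ≤ v i ∧ v i < h i) → (∀ i, 0 ≤ (v + O x) i ∧ (v + O x) i < h i) → O x = 0) ∧
    ∀ x, ∃ a : Fin n ⊕ Fin p → ℤ, x = ∑ j, a j • Sum.elim π u j := by
  have := Module.Finite.of_basis g
  have := Module.Free.of_basis g
  choose π h h1 h2 h3 h4 using tri O hO
  have H : ∀ i, 0 < h i ∧ O (π i) i = h i ∧ ∀ j, i < j → O (π j) i = 0 :=
    fun i => ⟨h1 i, h2 i, fun j c => h3 j i c⟩
  have e : finrank ℤ (LinearMap.ker O) = p := by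
    have := rk O hO
    rw [finrank_eq_card_basis g, hc] at this
    exact Nat.add_left_cancel this
  obtain ⟨b, d, d1, d2⟩ := smith (finBasisOfFinrankEq ℤ _ e) (U.comap (LinearMap.ker O).subtype)
    d0 h0 fun x => hd x x.2
  have dp : ∀ j, (0 : ℤ) < d j := fun j => Int.natCast_pos.2 (d1 j)
  have s1 : ∀ a : Fin p → ℤ, ((∑ j, a j • b j : LinearMap.ker O) : M) = ∑ j, a j • (b j : M) :=
    fun a => by simp only [Submodule.coe_sum, Submodule.coe_smul]
  have s2 : ∀ a : Fin p → ℤ, ∑ j, a j • d j • (b j : M) =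
      ((∑ j, (a j * d j) • b j : LinearMap.ker O) : M) := fun a => by
    rw [s1]
    simp only [mul_smul, natCast_zsmul]
  have s3 : ∀ (a : Fin p → ℕ) (x : LinearMap.ker O), -(∑ j, a j • (b j : M)) + x ∈ U ↔
      ∀ j, (d j : ℤ) ∣ b.repr x j - a j := fun a x => by
    have := d2 (-(∑ j, (a j : ℤ) • b j) + x)
    simp only [Submodule.mem_comap, Submodule.subtype_apply, Submodule.coe_add, Submodule.coe_neg,
      s1, map_add b.repr, map_neg b.repr, Finsupp.add_apply, Finsupp.neg_apply,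
      Basis.repr_sum_self] at this
    simpa only [natCast_zsmul, neg_add_eq_sub] using this
  refine ⟨π, h, fun j => b j, d, H, fun j => ⟨d1 j, (b j).2⟩, fun x hx => ?_, fun j => ?_,
    fun x hx => ?_, fun v => ⟨(ex_box O π h H v).imp fun _ k => k.2, uq_box O h h4 v⟩, fun x => ?_⟩
  · choose a ha using (d2 ⟨x, hU x hx⟩).1 hx
    refine ⟨a, ?_, fun a' k => funext fun j => ?_⟩
    · show x = _
      rw [s2]
      simp only [mul_comm (a _), ← ha, b.sum_repr]
    · have k' : (⟨x, hU x hx⟩ : LinearMap.ker O) = ∑ j, (a' j * d j) • b j :=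
        Subtype.ext (k.trans (s2 a'))
      have := ha j
      rw [k', Basis.repr_sum_self, mul_comm] at this
      exact mul_left_cancel₀ (dp j).ne' this
  · refine (d2 (d j • b j)).2 fun i => ?_
    rw [map_nsmul, Finsupp.smul_apply, nsmul_eq_mul, Basis.repr_self]
    rcases eq_or_ne j i with rfl | c
    · exact Dvd.intro _ rfl
    · rw [Finsupp.single_eq_of_ne c.symm, mul_zero]; exact dvd_zero _
  · have t : ∀ j, (((b.repr ⟨x, hx⟩ j % d j).toNat : ℕ) : ℤ) = b.repr ⟨x, hx⟩ j % d j :=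
      fun j => Int.toNat_of_nonneg (Int.emod_nonneg _ (dp j).ne')
    refine ⟨fun j => (b.repr ⟨x, hx⟩ j % d j).toNat, ⟨fun j => ?_, (s3 _ ⟨x, hx⟩).2 fun j => ?_⟩,
      fun a k => funext fun j => ?_⟩
    · exact Int.ofNat_lt.1 ((t j).trans_lt (Int.emod_lt_of_pos _ (dp j)))
    · rw [t]; exact Int.dvd_self_sub_emod
    · have := (s3 a ⟨x, hx⟩).1 k.2 j
      refine Int.natCast_inj.1 ?_
      rw [t, ← Int.emod_eq_of_lt (Int.natCast_nonneg (a j)) (Int.ofNat_lt.2 (k.1 j))]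
      exact Int.modEq_iff_dvd.2 this
  · obtain ⟨y, hy, k⟩ := ex_box O π h H (O (-x))
    have z : O (-x + y) = 0 := uq_box O h h4 0 _ (fun i => ⟨le_rfl, Int.natCast_pos.2 (h1 i)⟩)
      fun i => by rw [zero_add, map_add]; exact k i
    obtain ⟨a, ha⟩ := (Submodule.mem_span_range_iff_exists_fun ℤ).1 hy
    refine ⟨Sum.elim a fun j => -b.repr ⟨_, z⟩ j, ?_⟩
    simp only [Fintype.sum_sum_type, Sum.elim_inl, Sum.elim_inr, neg_smul, Finset.sum_neg_distrib,
      ha, ← s1, b.sum_repr]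
    abel

end Ap

open Ap Additive in
theorem adp : ADP := by
  intro p r q E _ γ o U d0 hγ ho hN hU h0 hd
  have e1 : ∀ {ι : Type} [Fintype ι] (γ : ι → E) (a : ι → ℤ) (x : E),
      x = ∏ j, γ j ^ a j ↔ ofMul x = ∑ j, a j • ofMul (γ j) := fun γ a x => by
    rw [← ofMul.apply_eq_iff_eq, ofMul_prod]; rfl
  let g : Basis (Fin (p + 1) ⊕ Fin r) ℤ (Additive E) := Basis.mk (v := fun j => ofMul (γ j))
    (Fintype.linearIndependent_iff.2 fun a ha i => congrFun ((hγ 1).unique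
      ((e1 γ a 1).2 ha.symm) (y₂ := 0) (by simp)) i)
    fun x _ => (Submodule.mem_span_range_iff_exists_fun ℤ).2
      ((hγ (toMul x)).exists.imp fun a ha => ((e1 γ a _).1 ha).symm)
  have hg : ∀ j, g j = ofMul (γ j) := fun j => Basis.mk_apply _ _ j
  let O : Additive E →ₗ[ℤ] Fin (r + 1) → ℤ :=
    (AddMonoidHom.mk' (fun x => o (toMul x)) fun x y => ho _ _).toIntLinearMap
  obtain ⟨π, h, u, d, a1, a2, a3, a4, a5, a6, a7⟩ := add (n := r + 1) (p := p) g
    (by rw [Fintype.card_congr q]; simp) O (AddSubgroup.toIntSubmodule (Subgroup.toAddSubgroup U))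
    d0 (fun i => let ⟨x, k⟩ := hN i; ⟨ofMul x, k⟩) (fun x hx => hU _ hx) h0 fun x hx => by
      rw [natCast_zsmul]; exact hd _ hx
  let P : Matrix (Fin (p + 1) ⊕ Fin r) (Fin (p + 1) ⊕ Fin r) ℤ :=
    Matrix.of fun j i => g.repr (Sum.elim π u (q j)) i
  refine ⟨fun i => toMul (π i), h, fun j => toMul (u j), d, P, a1, a2, fun x hx => ?_, a4,
    fun x hx => ?_, fun v => ⟨(a6 v).1, (a6 v).2⟩, ?_, fun j => ?_⟩
  · simp only [e1]
    exact a3 (ofMul x) hx
  · have : ∀ a : Fin p → ℕ, (∏ j, toMul (u j) ^ a j)⁻¹ * x =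
        toMul (-(∑ j, a j • u j) + ofMul x) := fun a => by
      rw [toMul_add, toMul_neg, toMul_sum]; rfl
    simp only [this]
    exact a5 (ofMul x) hx
  · choose a ha using a7
    have : (Matrix.of fun k j => a (g k) (q j)) * P = 1 := by
      ext k i
      have := congrArg (fun y => g.repr y i) (ha (g k))
      simp only [map_sum, map_smul, Finsupp.finsetSum_apply, Finsupp.smul_apply, smul_eq_mul,
        Basis.repr_self, ← q.sum_comp] at this
      rw [Matrix.mul_apply, Matrix.one_apply, ← Finsupp.single_apply, this]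
      rfl
    exact Int.isUnit_iff.1 (Matrix.isUnit_det_of_left_inverse this)
  · rw [e1]
    have : ofMul (Sum.elim (fun i => toMul (π i)) (fun j => toMul (u j)) (q j)) =
        Sum.elim π u (q j) := by cases q j <;> rfl
    rw [this, ← g.sum_repr (Sum.elim π u (q j))]
    simp only [hg]
    rfl

end Vale.Agent.P004C.Ld
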