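import Vale.Agent.P004C.Ld.St2
import Vale.Agent.P004C.As.Vtx

/-! # P004 C, the leading term: row HYP -/

set_option autoImplicit false
set_option linter.all false

open NumberField Module IsDedekindDomain
open scoped Classical

noncomputable section

namespace Vale.Agent.P004C.Ld

open As Al.Gx As.Vx

namespace Hy

variable {M : Type} [Field M] [NumberField M]

theorem ex_h {w : Ideal (𝓞 M)} (hw : w.IsMaximal) : ∃ (p : ℕ) (t : M) (h : 𝓞 M → ℤ), p.Prime ∧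
    (p : 𝓞 M) ∈ w ∧ (∀ y : 𝓞 M, Algebra.trace ℚ M (t * y) = h y) ∧
    ∀ (y : 𝓞 M) (N : ℤ), y - N ∈ w → (p : ℤ) ∣ h y → (p : ℤ) ∣ N := by
  let _ := Ideal.Quotient.field w
  have : Finite (𝓞 M ⧸ w) :=
    w.finiteQuotientOfFreeOfNeBot (w.bot_lt_of_maximal (RingOfIntegers.not_isField M)).ne'
  obtain ⟨p, hp⟩ := CharP.exists (𝓞 M ⧸ w)
  have : Fact p.Prime := ⟨CharP.char_is_prime (𝓞 M ⧸ w) p⟩
  let _ := ZMod.algebra (𝓞 M ⧸ w) p
  obtain ⟨lam, hl⟩ := not_forall.1 (mt (Module.forall_dual_apply_eq_zero_iff (ZMod p)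
    (1 : 𝓞 M ⧸ w)).1 one_ne_zero)
  obtain ⟨h, e⟩ := Module.projective_lifting_property (Int.castAddHom (ZMod p)).toIntLinearMap
    (lam.toAddMonoidHom.comp (Ideal.Quotient.mk w).toAddMonoidHom).toIntLinearMap
    ZMod.intCast_surjective
  have e' : ∀ y, (h y : ZMod p) = lam (Ideal.Quotient.mk w y) := fun y => LinearMap.congr_fun e y
  obtain ⟨L, hL⟩ := ex_L h
  obtain ⟨t, ht⟩ : ∃ t, ∀ x, Algebra.trace ℚ M (t * x) = L x :=
    ⟨_, LinearMap.BilinForm.apply_toDual_symm_apply (hB := traceForm_nondegenerate ℚ M) L⟩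
  refine ⟨p, t, h, Fact.out, ?_, fun y => (ht y).trans (hL y), fun y N a b => ?_⟩
  · rw [← Ideal.Quotient.eq_zero_iff_mem, map_natCast, CharP.cast_eq_zero]
  · rw [← ZMod.intCast_zmod_eq_zero_iff_dvd] at b ⊢
    rw [e', Ideal.Quotient.eq.2 a, map_intCast, ← map_intCast (algebraMap (ZMod p) (𝓞 M ⧸ w)),
      Algebra.algebraMap_eq_smul_one, map_smul, smul_eq_mul] at b
    exact (mul_eq_zero.1 b).resolve_right hl

theorem ex_den (x : M) {p : ℕ} (hp : p.Prime) :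
    ∃ (e : ℕ) (k : ℤ) (y : 𝓞 M), ¬ (p : ℤ) ∣ k ∧ (y : M) = p ^ e * k * x := by
  obtain ⟨k, y, k0, h⟩ := ex_int x
  obtain ⟨e, k', a, rfl⟩ := WfDvdMonoid.max_power_factor k0
    (Nat.prime_iff_prime_int.1 hp).irreducible
  exact ⟨e, k', y, a, by simpa using h⟩

theorem loc {x : M} {p : ℕ} (hp : p.Prime)
    (h : ∀ Q : Pl M, (p : 𝓞 M) ∈ Q.asIdeal → Q.valuation M x ≤ 1) :
    ∃ (k : ℤ) (y : 𝓞 M), ¬ (p : ℤ) ∣ k ∧ (y : M) = k * x := by
  obtain ⟨e, k, y, a, b⟩ := ex_den x hp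
  obtain ⟨z, hz⟩ := HeightOneSpectrum.mem_integers_of_valuation_le_one M (R := 𝓞 M) (k * x)
    fun Q => by
      by_cases m : (p : 𝓞 M) ∈ Q.asIdeal
      · rw [map_mul]
        exact mul_le_one' (by simpa using Q.valuation_le_one (K := M) k) (h Q m)
      · have : Q.valuation M (y : M) ≤ 1 := Q.valuation_le_one y
        rwa [b, mul_assoc, map_mul, map_pow, ← map_natCast (algebraMap (𝓞 M) M),
          Q.valuation_eq_one_iff_notMem.2 m, one_pow, one_mul] at this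
  exact ⟨k, z, a, hz⟩

theorem ex_θ (P : Pl M) {k : 𝓞 M} (h : k ≠ 0) : ∃ θ : 𝓞 M, θ - 1 ∈ P.asIdeal ∧
    ∀ Q : Pl M, Q ≠ P → Q.valuation M θ ≤ Q.valuation M k := by
  obtain ⟨e, A, a, b⟩ := WfDvdMonoid.max_power_factor (mt Ideal.span_singleton_eq_bot.1 h)
    P.irreducible
  obtain ⟨u, hu, θ, hθ, c⟩ := Submodule.mem_sup.1 ((P.isMaximal.out.2 (P.asIdeal ⊔ A)
    (left_lt_sup.2 (mt Ideal.dvd_iff_le.2 a))).ge (Submodule.mem_top (x := 1)))
  refine ⟨θ, by rw [← c]; simpa using hu, fun Q n => ?_⟩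
  obtain ⟨π, p1, p2⟩ := SetLike.not_le_iff_exists.1 fun l : P.asIdeal ^ e ≤ Q.asIdeal =>
    n (HeightOneSpectrum.ext (P.isMaximal.eq_of_le Q.isPrime.ne_top
      (Q.isPrime.le_of_pow_le l)).symm)
  obtain ⟨c, hc⟩ := Ideal.mem_span_singleton'.1 (b.ge (Ideal.mul_mem_mul p1 hθ))
  have := congrArg (fun x => Q.valuation M (algebraMap (𝓞 M) M x)) hc
  simp only [map_mul, Q.valuation_eq_one_iff_notMem.2 p2, one_mul] at this
  exact this ▸ mul_le_of_le_one_left' (Q.valuation_le_one c)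

theorem under {Q : Pl M} {p : ℕ} (hp : p.Prime) (h : (p : 𝓞 M) ∈ Q.asIdeal) :
    Q.asIdeal.under ℤ = Ideal.span {(p : ℤ)} :=
  ((PrincipalIdealRing.isMaximal_of_irreducible
    (Nat.prime_iff_prime_int.1 hp).irreducible).eq_of_le (Ideal.comap_ne_top _ Q.isPrime.ne_top)
    ((Ideal.span_singleton_le_iff_mem _).2 (by simpa [Ideal.mem_comap] using h))).symm

end Hy

open Hy in
theorem hyp : HYP := by
  intro K _ _ ι J M _ _ _ P C m ρ t h2 hm ρ0 t0
  obtain ⟨p, t₀, h, hp, pP, ht, hh⟩ := ex_h P.isMaximal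
  have p0 : (p : M) ≠ 0 := Nat.cast_ne_zero.2 hp.ne_zero
  obtain ⟨k₃, y₃, k0, e₃⟩ := ex_int ρ⁻¹
  obtain ⟨θ, θ1, θ2⟩ := ex_θ P (k := k₃ * p ^ C)
    (mul_ne_zero (Int.cast_ne_zero.2 k0) (pow_ne_zero _ (Nat.cast_ne_zero.2 hp.ne_zero)))
  have θ0 : (θ : M) ≠ 0 := fun e => P.isPrime.ne_top ((Ideal.eq_top_iff_one _).2 (by
    simpa [show θ = 0 from RingOfIntegers.coe_injective (by simpa using e)] using θ1))
  obtain ⟨e₁, k₁, y₁, n1, f1⟩ := ex_den (t₀ * (θ / ρ) / t - 1) Nat.prime_two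
  obtain ⟨e₂, k₂, y₂, n2, f2⟩ := ex_den (t₀ - t / (θ / ρ)) hp
  obtain ⟨α, β, ab⟩ : IsCoprime ((2 : ℤ) ^ (m + e₁)) ((p : ℤ) ^ (e₂ + 1)) :=
    (Nat.isCoprime_iff_coprime.2 ((Nat.coprime_primes Nat.prime_two hp).2 fun e =>
      h2 (by simpa [← e] using pP))).pow
  have ab' : (α : M) * 2 ^ (m + e₁) + β * p ^ (e₂ + 1) = 1 := by
    exact_mod_cast congrArg (Int.cast : ℤ → M) ab
  have v : V1 ι J m (1 + α * 2 ^ (m + e₁) * (t₀ * (θ / ρ) / t - 1)) := by
    refine ⟨k₁, not_vv.1 fun q => ?_, ?_⟩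
    · obtain ⟨u, v, uv⟩ := (Int.prime_two.coprime_iff_not_dvd.2 n1)
      refine (vv_prime (ι := ι) (J := J)).ne_top ((Ideal.eq_top_iff_one _).2 ?_)
      rw [← Int.cast_one, ← uv]
      push_cast
      exact add_mem (Ideal.mul_mem_left _ _ two_vv) (Ideal.mul_mem_left _ _ q)
    · convert (α * y₁ : 𝓞 M).isIntegral_coe using 1
      simp only [RingOfIntegers.coe_eq_algebraMap, map_mul, map_intCast] at f1 ⊢
      rw [f1]
      push_cast
      field_simp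
      ring
  refine ⟨⟨Units.mk0 _ (v1_unit hm v).1, v, v1_inv hm v⟩, fun x a b z => ?_⟩
  have c1 : P.valuation M (θ * (x / ρ) - 1) < 1 := by
    rw [show θ * (x / ρ) - 1 = θ * (x / ρ - 1) + (θ - 1 : 𝓞 M) by simp; ring]
    exact Valuation.map_add_lt _ (by
      rw [map_mul]
      exact (mul_le_of_le_one_left' (P.valuation_le_one θ)).trans_lt a) ((P.valuation_lt_one_iff_mem _).2 θ1)
  obtain ⟨N, y, nN, ey⟩ := loc (x := θ * (x / ρ)) hp fun Q m => by
    obtain rfl | n := eq_or_ne Q P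
    · simpa using Valuation.map_add_le _ c1.le (map_one (Q.valuation M)).le
    have k1 : Q.valuation M (k₃ : 𝓞 M) ≠ 0 := (Valuation.ne_zero_iff _).2 (by simpa using k0)
    have c2 : Q.valuation M (p ^ C : 𝓞 M) ≤ WithZero.exp (-C : ℤ) :=
      (Q.valuation_of_algebraMap _).trans_le ((Q.intValuation_le_pow_iff_mem _ C).2
        (Ideal.pow_mem_pow m C))
    have c3 := θ2 Q n
    rw [RingOfIntegers.coe_eq_algebraMap (k₃ * p ^ C), map_mul, map_mul] at c3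
    refine le_of_mul_le_mul_left (a := Q.valuation M (k₃ : 𝓞 M)) ?_ (zero_lt_iff.2 k1)
    rw [← map_mul, show ((k₃ : 𝓞 M) : M) * (θ * (x / ρ)) = θ * x * y₃ by
      rw [e₃, div_eq_mul_inv]; simp; ring, map_mul, map_mul]
    refine (mul_le_mul' (mul_le_mul' (c3.trans (mul_le_mul_right c2 _))
      (b Q n ((under hp m).trans (under hp pP).symm))) (Q.valuation_le_one y₃)).trans_eq ?_
    rw [mul_one, mul_one, mul_assoc, ← WithZero.exp_add, neg_add_cancel, WithZero.exp_zero,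
      mul_one]
  refine nN (hh y N ((P.valuation_lt_one_iff_mem (K := M) _).1 ?_) ?_)
  · show P.valuation M ((y - N : 𝓞 M) : M) < 1
    rw [show ((y - N : 𝓞 M) : M) = (N : 𝓞 M) * (θ * (x / ρ) - 1) by simp [ey]; ring, map_mul]
    exact (mul_le_of_le_one_left' (P.valuation_le_one _)).trans_lt c1
  · have : FiniteDimensional K M := Module.Finite.of_restrictScalars_finite ℚ K M
    have z' := congrArg (Algebra.trace ℚ K) z
    rw [Algebra.trace_trace, map_zero] at z'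
    have e : k₂ • (t₀ * y) = (N * k₂) • (t * (1 + α * 2 ^ (m + e₁) *
        (t₀ * (θ / ρ) / t - 1)) * x) + (β * p : ℤ) • ((y₂ * y : 𝓞 M) : M) := by
      simp only [zsmul_eq_mul, RingOfIntegers.coe_eq_algebraMap, map_mul] at f2 ey θ0 ⊢
      rw [f2, ey, eq_sub_of_add_eq ab']
      push_cast
      field_simp
      ring
    have e' := congrArg (Algebra.trace ℚ M) e
    rw [map_add, map_zsmul, map_zsmul, map_zsmul, ht, ← Algebra.coe_trace_int] at e'
    erw [z'] at e'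
    rw [smul_zero, zero_add, zsmul_eq_mul, zsmul_eq_mul, ← Int.cast_mul, ← Int.cast_mul,
      Int.cast_inj] at e'
    exact ((Nat.prime_iff_prime_int.1 hp).dvd_or_dvd
      (e' ▸ (dvd_mul_left _ β).mul_right _)).resolve_left n2

end Vale.Agent.P004C.Ld
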