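import Vale.Agent.P004C.Ld.St3
import Vale.Agent.P004C.Ld.Hyp

/-! # P004 C, the leading term: row GOO -/

set_option autoImplicit false
set_option linter.all false

open NumberField Module IsDedekindDomain
open scoped Classical

noncomputable section

namespace Vale.Agent.P004C.Ld

open As Al.Gx

namespace Go

variable {M : Type} [Field M] [NumberField M]

theorem ex_C {y : 𝓞 M} (h : y ≠ 0) : ∃ C : ℕ, ∀ (Q : Pl M) (x : M), Q.valuation M (x * y) ≤ 1 →
    Q.valuation M x ≤ WithZero.exp (C : ℤ) := by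
  refine ⟨Ideal.absNorm (Ideal.span {y}), fun Q x k => ?_⟩
  set C := Ideal.absNorm (Ideal.span {y})
  have n : ¬ Q.valuation M (y : M) ≤ WithZero.exp (-C : ℤ) := fun l => by
    have m := (Q.intValuation_le_pow_iff_mem _ C).1 ((Q.valuation_of_algebraMap y).ge.trans l)
    have d := Nat.le_of_dvd (Nat.pos_of_ne_zero (Ideal.absNorm_eq_zero_iff.not.2
      (Ideal.span_singleton_eq_bot.not.2 h)))
      (Ideal.absNorm_dvd_absNorm_of_le ((Ideal.span_singleton_le_iff_mem _).2 m))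
    rw [map_pow] at d
    exact absurd d (Nat.lt_pow_self (NumberField.HeightOneSpectrum.one_lt_absNorm Q)).not_ge
  rw [map_mul] at k
  have := mul_le_mul_left ((mul_le_mul_right (not_le.1 n).le _).trans k) (WithZero.exp (C : ℤ))
  rwa [mul_assoc, ← WithZero.exp_add, neg_add_cancel, WithZero.exp_zero, mul_one, one_mul] at this

theorem one_of {Q : Pl M} {a b : 𝓞 M} (h : IsCoprime a b) (hb : b ∈ Q.asIdeal) :
    a ∉ Q.asIdeal := fun ha => by
  obtain ⟨u, v, e⟩ := h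
  exact Q.isPrime.ne_top ((Ideal.eq_top_iff_one _).2
    (e ▸ add_mem (Ideal.mul_mem_left _ _ ha) (Ideal.mul_mem_left _ _ hb)))

theorem ex_e (x : M) {p : ℕ} (hp : p.Prime) : ∃ e : ℕ, ∀ Q : Pl M, (p : 𝓞 M) ∈ Q.asIdeal →
    ∀ i, Q.valuation M (p ^ (e + i) * x) ≤ 1 ∧ Q.valuation M (p ^ (e + i + 1) * x) < 1 := by
  obtain ⟨e, k, y, a, b⟩ := Hy.ex_den x hp
  refine ⟨e, fun Q m i => ?_⟩
  have k1 : Q.valuation M (k : 𝓞 M) = 1 := Q.valuation_eq_one_iff_notMem.2 (one_of (by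
    simpa using (((Nat.prime_iff_prime_int.1 hp).coprime_iff_not_dvd.2 a).symm.intCast
      (R := 𝓞 M))) m)
  have k2 : Q.valuation M (p : 𝓞 M) < 1 := (Q.valuation_lt_one_iff_mem _).2 m
  have k3 : Q.valuation M (y : M) ≤ 1 := Q.valuation_le_one y
  simp only [RingOfIntegers.coe_eq_algebraMap, map_intCast, map_natCast] at k1 k2
  rw [b, mul_right_comm, map_mul, k1, mul_one] at k3
  have k4 : Q.valuation M (p ^ (e + i) * x) ≤ 1 := by
    rw [pow_add, mul_right_comm, map_mul]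
    exact mul_le_one' k3 (by rw [map_pow]; exact pow_le_one' k2.le _)
  refine ⟨k4, ?_⟩
  rw [pow_succ, mul_right_comm, map_mul]
  exact (mul_le_of_le_one_left' k4).trans_lt k2

end Go

open Go in
theorem goo : GOO := by
  intro K _ _ ι J π τ ψ A M _ _ _ c l S r w hw m I ρ t hm I0 ρ0 t0
  obtain ⟨p, hp, pw⟩ : ∃ p : ℕ, p.Prime ∧ (p : 𝓞 M) ∈ (w 0).asIdeal := by
    obtain ⟨p, -, -, a, b, -⟩ := Hy.ex_h (w 0).isMaximal
    exact ⟨p, a, b⟩
  have p2 : p ≠ 2 := fun e => hw 0 (Ideal.mul_mem_right _ _ (by simpa [e] using pw))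
  have pl : p.Coprime l := (Nat.coprime_primes hp S.1).2 fun e =>
    hw 0 (Ideal.mul_mem_left _ _ (e ▸ pw))
  have pv : ‖ι (J (p : 𝓞 K))‖ = 1 := not_vv.1 fun q => by
    obtain ⟨u, v, e⟩ := (Nat.isCoprime_iff_coprime.2
      ((Nat.coprime_primes hp Nat.prime_two).2 p2)).intCast (R := 𝓞 K)
    refine (vv_prime (ι := ι) (J := J)).ne_top ((Ideal.eq_top_iff_one _).2 ?_)
    exact e ▸ add_mem (Ideal.mul_mem_left _ _ (by simpa using q))
      (Ideal.mul_mem_left _ _ (by simpa using two_vv))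
  have lQ : ∀ Q : Pl M, (p : 𝓞 M) ∈ Q.asIdeal → (l : 𝓞 M) ∉ Q.asIdeal := fun Q =>
    one_of (by simpa using (Nat.isCoprime_iff_coprime.2 pl.symm).intCast (R := 𝓞 M))
  obtain ⟨C, hC⟩ := ex_C (y := (Ideal.absNorm I : 𝓞 M))
    (Nat.cast_ne_zero.2 (Ideal.absNorm_eq_zero_iff.not.2 I0))
  obtain ⟨s, hs⟩ := hyp K ι J M (w 0) C m ρ t (fun h => hw 0 (Ideal.mul_mem_right _ _ h)) hm ρ0 t0
  have : FiniteDimensional K M := Module.Finite.of_restrictScalars_finite ℚ K M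
  have n0 : (finrank K M : M) ≠ 0 := Nat.cast_ne_zero.2 finrank_pos.ne'
  have s0 : vl s ≠ 0 := (s : Mˣ).ne_zero
  obtain ⟨e₁, h₁⟩ := ex_e (finrank K M * (t * vl s))⁻¹ hp
  obtain ⟨e₂, h₂⟩ := ex_e ((finrank K M * (t * vl s))⁻¹ / ρ) hp
  refine ⟨s, fun n a g ha hg => ⟨p ^ (e₂ + e₁ + 1), pl.pow_left _, fun j x gx ⟨b, hb⟩ => ?_⟩⟩
  obtain ⟨g1, g2, g3⟩ := hg x gx
  set o := Algebra.trace K M (t * (vl s * a j) * x) / (p ^ (e₂ + e₁ + 1) : ℕ) with ho
  have vo : ∀ Q : Pl M, (p : 𝓞 M) ∈ Q.asIdeal → Q.valuation M (algebraMap K M o) ≤ 1 := by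
    intro Q q
    have k := Q.valuation_le_one (K := M) (algebraMap (𝓞 K) (𝓞 M) ⟨_, hb⟩)
    have k1 : Q.valuation M (algebraMap (𝓞 K) (𝓞 M) (π * l) : 𝓞 M) = 1 :=
      Q.valuation_eq_one_iff_notMem.2 fun z => by
        rw [map_mul, map_natCast] at z
        exact (Q.isPrime.mem_or_mem z).elim (one_of (by
          simpa using (A.cop p pv).map (algebraMap (𝓞 K) (𝓞 M))) q) (lQ Q q)
    change Q.valuation M (algebraMap K M (((π * l : 𝓞 K) : K) ^ b * o)) ≤ 1 at k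
    change Q.valuation M (algebraMap K M ((π * l : 𝓞 K) : K)) = 1 at k1
    rwa [map_mul, map_pow, map_mul, map_pow, k1, one_pow, one_mul] at k
  refine hs (a j * x - p ^ (e₂ + e₁ + 1) * (finrank K M * (t * vl s))⁻¹ * algebraMap K M o) ?_
    (fun Q n u => ?_) ?_
  · rw [show (a j * x - p ^ (e₂ + e₁ + 1) * (finrank K M * (t * vl s))⁻¹ * algebraMap K M o) / ρ -
      1 = a j * (x / ρ - 1) + (a j - 1) -
        p ^ (e₂ + e₁ + 1) * ((finrank K M * (t * vl s))⁻¹ / ρ) * algebraMap K M o by ring]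
    refine Valuation.map_sub_lt _ (Valuation.map_add_lt _ ?_ (ha j).1) ?_
    · rwa [map_mul, Rh.val_one _ (ha j).1, one_mul]
    · rw [map_mul]
      exact (mul_le_of_le_one_right' (vo _ pw)).trans_lt (h₂ _ pw e₁).2
  · have q : (p : 𝓞 M) ∈ Q.asIdeal := by
      have : (p : ℤ) ∈ Q.asIdeal.under ℤ := u ▸ (by simpa [Ideal.mem_comap] using pw)
      simpa [Ideal.mem_comap] using this
    have o1 : (1 : WithZero (Multiplicative ℤ)) ≤ WithZero.exp (C : ℤ) := by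
      rw [← WithZero.exp_zero, WithZero.exp_le_exp]; positivity
    refine Valuation.map_sub_le _ ?_ ?_
    · rw [map_mul, (ha j).2 Q fun e => lQ Q q (e ▸ S.2.2.1 ▸ Ideal.absNorm_mem _), one_mul]
      by_cases k : ∃ i, Q = w i
      · obtain ⟨i, rfl⟩ := k
        exact (g2 i).trans o1
      · exact hC Q x (g1 Q (fun z => z.2 ⟨p, pv, by simpa using q⟩) (not_exists.1 k) _
          (Ideal.absNorm_mem I))
    · rw [map_mul, show e₂ + e₁ + 1 = e₁ + (e₂ + 1) by ring]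
      exact (mul_le_one' (h₁ Q q _).1 (vo Q q)).trans o1
  · have p0 : ((p ^ (e₂ + e₁ + 1) : ℕ) : K) ≠ 0 := Nat.cast_ne_zero.2 (pow_ne_zero _ hp.ne_zero)
    have n1 : (finrank K M : K) ≠ 0 := Nat.cast_ne_zero.2 finrank_pos.ne'
    rw [show t * vl s * (a j * x - p ^ (e₂ + e₁ + 1) * (finrank K M * (t * vl s))⁻¹ *
      algebraMap K M o) = t * (vl s * a j) * x -
        algebraMap K M ((p ^ (e₂ + e₁ + 1) : ℕ) * o / finrank K M) by
      simp only [map_div₀, map_mul, map_natCast]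
      push_cast
      field_simp, map_sub, Algebra.trace_algebraMap, nsmul_eq_mul, mul_div_cancel₀ _ n1, ho,
      mul_div_cancel₀ _ p0, sub_self]

end Vale.Agent.P004C.Ld
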