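import Vale.Agent.P004C.Ld.St3

/-!
# P004 C, the leading term: the measures and the series give a germ of cocycles
-/

open NumberField Module Finset Filter
open scoped Classical

noncomputable section

namespace Vale.Agent.P004C.Ld

open An As

theorem pga (hE : Ms.EMB) (hT : Ms.TFC) (hB : TFB) : PGA := by
  intro K _ _ ι J π τ ψ ω A M _ _ _ n b σ hσ c P l hc m r w hw C0 Ps κ iv t0 nu ϖ Z L W
  obtain ⟨-, -, -, -, e5⟩ := (hE K ι J M n b).2 σ (em_of hσ)
  obtain ⟨t1, t2, t3, t4, -⟩ := hT K ι J π τ ψ A M c.asIdeal l hc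
  obtain ⟨u1, -⟩ := hB K ι J π τ ψ A M c l hc r w hw
  have nr : ∀ x : Gv M ι J m, Nr m (Ms.sv ι σ (vl x)) := fun x i => by
    have := e5 _ x.2.1 i
    simp only [map_div₀, map_sub, map_one, map_pow, map_ofNat, norm_div, norm_pow] at this
    have two : ‖(2 : ℂ_[2])‖ = 1 / 2 := by
      rw [show (2 : ℂ_[2]) = algebraMap ℚ_[2] ℂ_[2] ((2 : ℕ) : ℚ_[2]) by simp [map_ofNat], norm_algebraMap',
        Padic.norm_p]
      norm_num
    rwa [two, div_le_one (by positivity)] at this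
  have vm : ∀ x y : Gv M ι J m, vl (x * y) = vl x * vl y := fun _ _ => rfl
  have sm : ∀ x y : M, Ms.sv ι σ (x * y) = Ms.sv ι σ x * Ms.sv ι σ y := fun x y =>
    funext fun i => by simp [Ms.sv]
  have ad : ∀ (t : M) (a : Fin n → Gv M ι J m), ∀ᶠ B : ℕ in atTop,
      Ms.Adm K c.asIdeal fun j => t * vl (ϖ ^ B * a j) := fun t a =>
    (W.2.2 (fun j => t * vl (a j)) 1 (by simp)).mono fun B h => Or.inr fun j => by
      obtain ⟨d, -, p, q⟩ := h j
      refine ⟨d, p, fun i k => ?_⟩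
      rw [← q i k]
      simp [vl, mul_left_comm t]
  have bd : ∀ (g : M → ℤ) x, ‖ι (g x)‖ ≤ 1 := fun g x => by
    rw [map_intCast]
    exact IsUltrametricDist.norm_intCast_le_one _ _
  have ca : ∀ f g : M → ℤ, (fun x => ((f + g) x : ℂ)) = (fun x => (f x : ℂ)) + fun x => (g x : ℂ) :=
    fun f g => funext fun x => by simp
  have st : ∀ (e : Ew w ι J m) (g : M → ℤ), Ms.Tf ι π c.asIdeal l (fun x => g x) →
      Ms.Tf ι π c.asIdeal l fun x => g (e • x) := fun e g h => t4 _ _ (u1 m e) h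
  refine ⟨nr, ad, ⟨⟨⟨{g | Ms.Tf ι π c.asIdeal l fun x => g x}, fun {f g} p q => ?_⟩, ?_⟩,
    fun {g} p => ?_⟩, fun g => Iff.rfl, st, fun t f p g q => (ad t0 t).mono fun B a => ?_,
    fun t e g p => (ad t0 t).mono fun B a => ?_, fun t g p =>
      (eventually_all.2 fun i : Fin (n + 1) => ad t0 fun k => t (i.succAbove k)).mono fun B a => ?_,
    fun t g p => (ad t0 t).mono fun B a => ?_⟩
  · rw [Set.mem_ofPred_eq, ca]
    exact t1 _ _ p q
  · rw [Set.mem_ofPred_eq, show (fun x => ((0 : M → ℤ) x : ℂ)) = 0 from funext fun x => by simp]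
    exact t3
  · have := t2 _ (-1) p
    rwa [show ((-1 : ℂ) • fun x => (g x : ℂ)) = fun x => ((-g) x : ℂ) from
      funext fun x => by simp] at this
  · have v : ∀ j, V1 ι J m (vl (ϖ ^ B * t j)) := fun j => (ϖ ^ B * t j).2.1
    rw [pz, ca, L.add _ _ _ v a p q]
    exact Z.add _ _ _ 1 1 (fun _ => nr _) (L.bd _ _ 1 v a p (bd f)) (L.bd _ _ 1 v a q (bd g))
  · have v : ∀ j, V1 ι J m (vl (ϖ ^ B * t j)) := fun j => (ϖ ^ B * t j).2.1
    have q := st e⁻¹ g p
    have k := L.eqv _ _ (vl (inc w ι J m e)) v a q (inc w ι J m e).2.1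
    have z : (fun x => (g (e⁻¹ • (vl (inc w ι J m e) * x)) : ℂ)) = fun x => (g x : ℂ) :=
      funext fun x => congrArg (fun y => (g y : ℂ)) (inv_smul_smul e x)
    simp only [z] at k
    simp only [pz, mul_left_comm _ (inc w ι J m e), vm (inc w ι J m e), sm, k]
    exact Z.eqv _ _ 1 _ (fun _ => nr _) (L.bd _ _ 1 v a q (bd _)) (nr _)
  · have v : ∀ j, V1 ι J m (vl (ϖ ^ B * t j)) := fun j => (ϖ ^ B * t j).2.1
    exact Z.coc (fun i => Ms.sv ι σ (vl (ϖ ^ B * t i))) _ 1 (fun _ => nr _)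
      (fun i => L.bd _ _ 1 (fun _ => v _) (a i) p (bd g)) (L.coc _ _ v a p)
  · have v : ∀ j, V1 ι J m (vl (ϖ ^ B * t j)) := fun j => (ϖ ^ B * t j).2.1
    have q := L.bd _ _ 1 v a p (bd g)
    refine ⟨?_, (Z.bd _ _ 1 (fun _ => nr _) q).trans_eq (mul_one _)⟩
    rw [pz, Z.res _ _ 1 (fun _ => nr _) q, L.res _ _ v a p, map_intCast,
      ← Z.kin (fun j => Ms.sv ι σ (vl (t j))) _ (fun _ => nr _) (nr (ϖ ^ B))]
    simp only [vm, sm]
    rw [show (Matrix.of fun j => Ms.sv ι σ (vl (ϖ ^ B)) * Ms.sv ι σ (vl (t j))).det = _ from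
      Matrix.det_mul_row (Ms.sv ι σ (vl (ϖ ^ B))) (Matrix.of fun j => Ms.sv ι σ (vl (t j)))]
    ring

end Vale.Agent.P004C.Ld
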