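import Vale.Agent.P004C.Ld.Bd

/-!
# P004 C, the leading term: row S1
-/

set_option autoImplicit false

open Finset

noncomputable section

namespace Vale.Agent.P004C.Ld

open MvPowerSeries

variable {p : ℕ} {A : ℝ}

theorem nrm_fac (d : ℕ) : ‖(((d + 1).factorial : ℂ_[2]))⁻¹‖ ≤ 2 ^ d := by
  obtain ⟨k, u, ⟨v, rfl⟩, h⟩ := Nat.exists_eq_two_pow_mul_odd (d + 1).factorial_ne_zero
  have hk : k < d + 1 := by
    exact_mod_cast (le_emultiplicity_of_pow_dvd (Dvd.intro _ h.symm)).trans_lt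
      (Nat.emultiplicity_two_factorial_lt d.succ_ne_zero)
  have hu : ‖((2 * v + 1 : ℕ) : ℂ_[2])‖ = 1 := nrm_near (by
    have := IsUltrametricDist.norm_natCast_le_one ℂ_[2] v
    push_cast
    rw [add_sub_cancel_right, norm_mul, nrm_two]
    linarith)
  rw [h, Nat.cast_mul, norm_inv, norm_mul, hu, Nat.cast_pow, norm_pow, Nat.cast_ofNat, nrm_two]
  simpa using pow_le_pow_right₀ (by norm_num : (1 : ℝ) ≤ 2) (Nat.lt_succ_iff.1 hk)

theorem nrm_fac' (d : ℕ) : ‖((d.factorial : ℂ_[2]))⁻¹‖ ≤ 2 ^ d := by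
  cases d with
  | zero => simp
  | succ d => exact (nrm_fac d).trans (pow_le_pow_right₀ (by norm_num) d.le_succ)

theorem inverse_eq {R : Type*} [CommRing R] {a b : R} (h : a * b = 1) : Ring.inverse a = b :=
  Ring.inverse_unit (Units.mkOfMulEqOne a b h)

/-- the closed unit disc -/
def Oo : Subring ℂ_[2] where
  carrier := {x | ‖x‖ ≤ 1}
  mul_mem' ha hb := (norm_mul_le _ _).trans (mul_le_one₀ ha (norm_nonneg _) hb)
  one_mem' := norm_one.le
  add_mem' := nrm_add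
  zero_mem' := norm_zero.le.trans zero_le_one
  neg_mem' h := (norm_neg _).le.trans h

theorem Bd.unit {F : Qs p} (h : Bd 1 F) (h0 : ‖cf F 0‖ = 1) :
    IsUnit F ∧ Bd 1 (Ring.inverse F) := by
  let φ : PowerSeries (MvPowerSeries (Fin p) Oo) →+* Qs p :=
    PowerSeries.map (MvPowerSeries.map Oo.subtype)
  let G : PowerSeries (MvPowerSeries (Fin p) Oo) :=
    PowerSeries.mk fun d => (fun b => ⟨cf F (d, b), h _⟩ : MvPowerSeries (Fin p) Oo)
  have c (d b) : (coeff b (PowerSeries.coeff d G)).1 = cf F (d, b) :=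
    congrArg (fun f : MvPowerSeries (Fin p) Oo => (coeff b f).1) (PowerSeries.coeff_mk d _)
  have hG : φ G = F := cf_ext fun x => by
    simp only [cf, φ, PowerSeries.coeff_map, coeff_map]; exact c _ _
  have hu : IsUnit G := by
    rw [PowerSeries.isUnit_iff_constantCoeff, isUnit_iff_constantCoeff,
      ← PowerSeries.coeff_zero_eq_constantCoeff_apply, ← coeff_zero_eq_constantCoeff_apply]
    refine .of_mul_eq_one ⟨(cf F 0)⁻¹, (by rw [norm_inv, h0, inv_one] : ‖_‖ ≤ (1 : ℝ))⟩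
      (Subtype.ext ?_)
    rw [Subring.coe_mul, c]
    exact mul_inv_cancel₀ (norm_ne_zero_iff.1 (h0 ▸ one_ne_zero))
  obtain ⟨u, hu⟩ := hu
  have e : F = ↑(Units.map φ.toMonoidHom u) := by simp [hu, hG]
  refine ⟨e ▸ Units.isUnit _, fun x => ?_⟩
  rw [e, Ring.inverse_unit, ← map_inv]
  simp only [cf, φ, Units.coe_map, RingHom.toMonoidHom_eq_coe, MonoidHom.coe_coe,
    PowerSeries.coeff_map, coeff_map]
  exact (coeff x.2 (PowerSeries.coeff x.1 u⁻¹.1)).2

theorem sum_uu : ∑ i, (uu i : Tt p) = 1 := by simp [Fin.sum_univ_succ, uu]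

theorem lu_add (η η' : Fin (p + 1) → ℂ_[2]) : lu (η + η') = lu η + lu η' := by
  simp [lu, add_mul, sum_add_distrib]

theorem lu_smul (a : ℂ_[2]) (η : Fin (p + 1) → ℂ_[2]) : lu (a • η) = C a * lu η := by
  simp [lu, mul_sum, mul_assoc]

theorem lu_one : lu (1 : Fin (p + 1) → ℂ_[2]) = 1 := by simp [lu, sum_uu]

theorem cc_lu (η : Fin (p + 1) → ℂ_[2]) : constantCoeff (lu η) = η 0 := by
  simp [lu, Fin.sum_univ_succ, uu]

theorem Nr.mono {n m m' : ℕ} {e : Fin n → ℂ_[2]} (h : Nr m e) (k : m' ≤ m) : Nr m' e := fun i =>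
  (h i).trans (pow_le_pow_of_le_one (by norm_num) (by norm_num) k)

theorem Nr.nrm {n m : ℕ} {e : Fin n → ℂ_[2]} (h : Nr m e) (k : 0 < m) (i) : ‖e i‖ = 1 :=
  nrm_near ((h.mono k i).trans_lt (by norm_num))

variable {t : Fin (p + 1) → ℂ_[2]}

theorem lu_mul_inv (h : Nr 3 t) : lu t * (lu t)⁻¹ = 1 :=
  MvPowerSeries.mul_inv_cancel _ (by
    rw [cc_lu, ← norm_ne_zero_iff, h.nrm (by norm_num)]; exact one_ne_zero)

theorem bt_lu_one (h : Nr 3 t) : Bt 1 (lu t) := by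
  rw [show t = 1 + (t - 1) by abel, lu_add, lu_one]
  exact Bt.one.add ((bt_lu (η := t - 1) fun i => h i).mono (by norm_num))

theorem bt_lu_inv (h : Nr 3 t) : Bt 1 (lu t)⁻¹ := by
  have := ((Bd.const (bt_lu_one h)).unit (by
    simpa [cf, cc_lu] using h.nrm (by norm_num) 0)).2
  rw [inverse_eq (b := PowerSeries.C (lu t)⁻¹) (by rw [← map_mul, lu_mul_inv h, map_one])] at this
  exact this.of_const

theorem coeff_ex (η : Fin (p + 1) → ℂ_[2]) (d : ℕ) : PowerSeries.coeff d (Ex η) =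
    (-(C 8⁻¹ * lu η)) ^ d * C ((d.factorial : ℂ_[2])⁻¹) := by
  rw [Ex, PowerSeries.coeff_rescale, PowerSeries.coeff_exp, MvPowerSeries.algebraMap_apply]
  simp

theorem bd_ex {η : Fin (p + 1) → ℂ_[2]} (h : ∀ i, ‖η i‖ ≤ (1 / 2) ^ 7) : Bd 1 (Ex η) :=
  bd_iff.2 fun d => by
    rw [coeff_ex]
    refine ((((Bt.const _).mul (bt_lu h)).neg.pow d).mul ((Bt.const _).mono (nrm_fac' d))).mono ?_
    rw [← mul_pow, nrm_eight_inv]
    norm_num

theorem ex_sub_one (η : Fin (p + 1) → ℂ_[2]) : Ex η - 1 = sg * Wf η := by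
  ext1 d
  rw [map_sub, coeff_ex, sg, mul_assoc, PowerSeries.coeff_C_mul]
  cases d with
  | zero => simp
  | succ d =>
    rw [PowerSeries.coeff_succ_X_mul, Wf, PowerSeries.coeff_mk, PowerSeries.coeff_one,
      if_neg d.succ_ne_zero]
    ring

theorem ex_add (η η' : Fin (p + 1) → ℂ_[2]) : Ex (η + η') = Ex η * Ex η' := by
  rw [Ex, Ex, Ex, PowerSeries.exp_mul_exp_eq_exp_add, lu_add, mul_add, neg_add]

theorem wf_unit {m : ℕ} (hm : 7 ≤ m) (h : Nr m t) : IsUnit (Wf ((2 : ℂ_[2]) ^ m • t)) ∧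
    Bd (2 ^ m) (Ring.inverse (Wf ((2 : ℂ_[2]) ^ m • t))) := by
  have h3 := bt_lu_one (h.mono (by omega : 3 ≤ m))
  let V : Qs p := PowerSeries.mk fun d => -lu t * (-(C 8⁻¹ * (C (2 ^ m) * lu t))) ^ d *
    C (((d + 1).factorial : ℂ_[2])⁻¹)
  have hV : Bd 1 V := bd_iff.2 fun d => by
    rw [PowerSeries.coeff_mk]
    refine ((h3.neg.mul (((Bt.const _).mul ((Bt.const _).mul h3)).neg.pow d)).mul
      ((Bt.const _).mono (nrm_fac d))).mono ?_
    rw [one_mul, ← mul_pow, nrm_eight_inv, norm_pow, nrm_two]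
    have := pow_le_pow_of_le_one (by norm_num : (0 : ℝ) ≤ 1 / 2) (by norm_num) hm
    exact pow_le_one₀ (by positivity) (by linarith)
  obtain ⟨u, hu⟩ := hV.unit (by simpa [cf, V, cc_lu] using h.nrm (by omega) 0)
  have e : Wf ((2 : ℂ_[2]) ^ m • t) = V * PowerSeries.C (C (2 ^ m)) := by
    ext1 d
    simp only [Wf, V, PowerSeries.coeff_mul_C, PowerSeries.coeff_mk, lu_smul]
    ring
  have k : (PowerSeries.C (C (2 ^ m)) : Qs p) * PowerSeries.C (C (2 ^ m)⁻¹) = 1 := by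
    rw [← map_mul, ← map_mul, mul_inv_cancel₀ (by simp), map_one, map_one]
  rw [e, Ring.mul_inverse_rev, inverse_eq k]
  refine ⟨u.mul (.of_mul_eq_one _ k), ((Bd.const (Bt.const _)).mul hu).mono ?_⟩
  simp [nrm_two]

theorem se_C (e : Fin (p + 1) → ℂ_[2]) (a : ℂ_[2]) : se e (C a) = C a := (se e).commutes a

theorem se_X (e : Fin (p + 1) → ℂ_[2]) (i : Fin p) :
    se e (X i) = C (e i.succ) * X i * (lu e)⁻¹ := substAlgHom_X _ i

theorem se_uu (h : Nr 3 t) (i : Fin (p + 1)) : lu t * se t (uu i) = C (t i) * uu i := by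
  have k (j : Fin p) : lu t * se t (uu j.succ) = C (t j.succ) * uu j.succ := by
    rw [uu, Fin.cons_succ, map_mul, se_C, se_X]
    linear_combination (C 8⁻¹ * C (t j.succ) * X j) * lu_mul_inv h
  refine Fin.cases ?_ k i
  rw [show (uu 0 : Tt p) = 1 - ∑ j, uu (Fin.succ j) from rfl, map_sub, map_one, map_sum, mul_sub,
    mul_sum, sum_congr rfl fun j _ => k j, mul_one, lu, Fin.sum_univ_succ, add_sub_cancel_right]
  rfl

theorem se_lu (h : Nr 3 t) (η : Fin (p + 1) → ℂ_[2]) : lu t * se t (lu η) = lu (t * η) := by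
  rw [lu.eq_1 η, map_sum, mul_sum, lu.eq_1 (t * η)]
  refine sum_congr rfl fun i _ => ?_
  rw [map_mul, se_C, mul_left_comm, se_uu h, Pi.mul_apply, map_mul]
  ring

theorem coeff_Se (e : Fin (p + 1) → ℂ_[2]) (F : Qs p) (d : ℕ) :
    PowerSeries.coeff d (Se e F) = lu e ^ d * se e (PowerSeries.coeff d F) := by
  simp [Se]

theorem Se_ex (h : Nr 3 t) (η : Fin (p + 1) → ℂ_[2]) : Se t (Ex η) = Ex (t * η) := by
  ext1 d
  rw [coeff_Se, coeff_ex, coeff_ex, ← se_lu h, map_mul, map_pow, map_neg, map_mul, se_C, se_C,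
    ← mul_assoc, ← mul_pow]
  ring

theorem Bt.se (h : Nr 3 t) {f : Tt p} (hf : Bt A f) : Bt A (se t f) := fun b => by
  rw [Ld.se, substAlgHom_apply, coeff_subst (hasSubst_of_constantCoeff_zero fun i => by simp)]
  refine finsum_induction (fun x : ℂ_[2] => ‖x‖ ≤ A) (norm_zero.le.trans hf.nonneg)
    (fun _ _ => nrm_add) fun d => ?_
  rw [smul_eq_mul, norm_mul, ← mul_one A]
  refine mul_le_mul (hf d) ?_ (norm_nonneg _) hf.nonneg
  exact (Bt.prod fun i _ => (((Bt.const _).mul (Bt.var i)).mul (bt_lu_inv h)).pow _).mono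
    (by simp [h.nrm (by norm_num)]) b

theorem Bd.Se (h : Nr 3 t) {F : Qs p} (hF : Bd A F) : Bd A (Se t F) := bd_iff.2 fun d => by
  rw [coeff_Se]
  exact (((bt_lu_one h).pow d).mul ((hF.co d).se h)).mono (by simp)

/-- **row S1** -/
theorem s1 (p : ℕ) : S1 p where
  mul _ _ _ _ := Bd.mul
  unit _ := Bd.unit
  lu _ _ h := .const (bt_lu h)
  inv _ h := ⟨lu_mul_inv h, .const (bt_lu_one h), .const (bt_lu_inv h)⟩
  ex _ := bd_ex
  exw := ex_sub_one
  exa := ex_add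
  wf _ _ := wf_unit
  se _ h := ⟨se_lu h, Se_ex h, fun _ _ => Bd.Se h⟩

end Vale.Agent.P004C.Ld
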