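import Vale.Agent.P004C.Ld.Defs

/-!
# P004 C, the leading term: the functional on bounded series (helper27)
-/

set_option autoImplicit false
set_option linter.all false

open Finset Filter Topology TrivSqZeroExt DualNumber

noncomputable section

namespace Vale.Agent.P004C.Ld

namespace Fu

variable {p : ℕ}

/-! ### sizes -/

theorem nm_nat (n : ℕ) (h : n ≠ 0) : ‖(n : ℂ_[2])‖ = 2 ^ (-(padicValNat 2 n : ℤ)) := by
  have := (PadicComplex.norm_extends' 2 (n : ℚ_[2])).trans
    (Padic.norm_eq_zpow_neg_valuation (by exact_mod_cast h))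
  rw [map_natCast, PadicComplex.coe_natCast, Padic.valuation_natCast] at this
  simpa using this

theorem nm_fac (m : ℕ) : ‖(m.factorial : ℂ_[2])‖⁻¹ ≤ 2 ^ m := by
  rw [nm_nat _ m.factorial_ne_zero, zpow_neg, inv_inv, zpow_natCast]
  exact pow_le_pow_right₀ one_le_two (by
    have := sub_one_mul_padicValNat_factorial (p := 2) m; omega)

theorem nm_8 : ‖(8 : ℂ_[2])‖ = 1 / 8 := by
  have := (PadicComplex.norm_extends' 2 ((2 : ℕ) : ℚ_[2])).trans Padic.norm_p
  rw [map_natCast, PadicComplex.coe_natCast] at this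
  rw [show (8 : ℂ_[2]) = ((2 : ℕ) : ℂ_[2]) ^ 3 by norm_num, norm_pow, this]
  norm_num

/-- both components are at most `r` -/
def Sz (r : ℝ) (z : Dn) : Prop := ‖z.fst‖ ≤ r ∧ ‖z.snd‖ ≤ r

theorem Sz.mul {r s : ℝ} {z w : Dn} (h : Sz r z) (k : Sz s w) : Sz (r * s) (z * w) := by
  have r0 := (norm_nonneg _).trans h.1
  refine ⟨?_, ?_⟩
  · rw [fst_mul, norm_mul]
    exact mul_le_mul h.1 k.1 (norm_nonneg _) r0
  · rw [DualNumber.snd_mul]
    refine (IsUltrametricDist.norm_add_le_max _ _).trans (max_le ?_ ?_) <;> rw [norm_mul]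
    · exact mul_le_mul h.1 k.2 (norm_nonneg _) r0
    · exact mul_le_mul h.2 k.1 (norm_nonneg _) r0

theorem Sz.prod {ι : Type} (s : Finset ι) {r : ι → ℝ} {z : ι → Dn} (h : ∀ i, Sz (r i) (z i)) :
    Sz (∏ i ∈ s, r i) (∏ i ∈ s, z i) := by
  classical
  induction s using Finset.induction_on with
  | empty => simp [Sz]
  | insert a s m ih => rw [prod_insert m, prod_insert m]; exact (h a).mul ih

theorem sz_nat (a b : ℕ) : Sz 1 ((a : Dn) + (b : Dn) * eps) := by
  simp [Sz, IsUltrametricDist.norm_natCast_le_one]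

theorem sz_inv (a b : ℕ) : Sz (‖((a + 1 : ℕ) : ℂ_[2])‖⁻¹ ^ 2) (((a + 1 : ℕ) : Dn) + (b : Dn) * eps)⁻¹ := by
  have h : 1 ≤ ‖((a + 1 : ℕ) : ℂ_[2])‖⁻¹ := (one_le_inv₀ (norm_pos_iff.2 (Nat.cast_ne_zero.2
    a.succ_ne_zero))).2 (IsUltrametricDist.norm_natCast_le_one _ _)
  have k := IsUltrametricDist.norm_natCast_le_one ℂ_[2] b
  generalize a + 1 = c at h
  refine ⟨?_, ?_⟩
  · simpa using le_self_pow₀ h two_ne_zero
  · simp only [snd_inv, fst_add, fst_natCast, fst_mul, fst_eps, mul_zero, add_zero, snd_add,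
      snd_natCast, DualNumber.snd_mul, snd_eps, mul_one, zero_add, smul_eq_mul, op_smul_eq_mul,
      norm_neg, norm_mul, norm_inv]
    nlinarith [mul_le_mul_of_nonneg_left k (sq_nonneg ‖(c : ℂ_[2])‖⁻¹)]

theorem wt_le (p : ℕ) : ∃ K : ℝ, ∀ x : ℕ × (Fin p →₀ ℕ),
    ‖wt p x‖ ≤ K * ((1 / 2) ^ x.1 * ∏ i, (1 / 2) ^ x.2 i) := by
  refine ⟨‖(p + 1 : ℂ_[2])‖⁻¹ * (2 * 4 ^ p), fun x => ?_⟩
  have a := ((Sz.prod univ fun i => Sz.prod (range (x.2 i)) fun j => sz_nat (j + 1) 1).mul
    (Sz.prod (range x.1) fun j => sz_nat j (p + 1))).mul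
    (Sz.prod (range (∑ i, x.2 i + p)) fun j => sz_inv j (p + 1))
  rw [prod_pow, prod_inv_distrib, ← norm_prod, ← Nat.cast_prod, prod_range_add_one_eq_factorial] at a
  simp only [prod_const_one, one_mul, Nat.cast_add, Nat.cast_one] at a
  have b := pow_le_pow_left₀ (by positivity) (nm_fac (∑ i, x.2 i + p)) 2
  rw [wt, norm_smul, norm_def, norm_div, norm_pow, nm_8, prod_pow_eq_pow_sum]
  refine (mul_le_mul_of_nonneg_left (add_le_add (a.1.trans b) (a.2.trans b)) (by positivity)).trans ?_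
  generalize ∑ i, x.2 i = m
  have c : (1 / 8 : ℝ) ^ x.1 ≤ (1 / 2) ^ x.1 := by gcongr; norm_num
  have d : (1 / 8 : ℝ) ^ m * (2 ^ (m + p)) ^ 2 = 4 ^ p * (1 / 2) ^ m := by
    rw [← pow_mul, mul_comm _ 2, pow_mul, pow_add, ← mul_assoc, ← mul_pow, mul_comm]
    norm_num
  calc _ = ‖(p + 1 : ℂ_[2])‖⁻¹ * 2 * ((1 / 8 : ℝ) ^ m * (2 ^ (m + p)) ^ 2) * (1 / 8) ^ x.1 := by
        rw [pow_add]; ring
    _ ≤ ‖(p + 1 : ℂ_[2])‖⁻¹ * 2 * (4 ^ p * (1 / 2) ^ m) * (1 / 2) ^ x.1 := by rw [d]; gcongr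
    _ = _ := by ring

theorem sm_pi (p : ℕ) : Summable fun b : Fin p → ℕ => ∏ i, (1 / 2 : ℝ) ^ b i := by
  induction p with
  | zero => exact .of_finite
  | succ p ih =>
    refine (Fin.consEquiv fun _ => ℕ).summable_iff.1 ((summable_geometric_two.mul_of_nonneg ih
      (fun _ => by positivity) fun _ => by positivity).congr fun x => ?_)
    simp [Fin.prod_univ_succ, Fin.consEquiv, mul_comm]

theorem sm_wt (p : ℕ) : Summable fun x => ‖wt p x‖ := by
  obtain ⟨K, h⟩ := wt_le p
  exact .of_nonneg_of_le (fun _ => norm_nonneg _) h ((summable_geometric_two.mul_of_nonneg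
    (Finsupp.equivFunOnFinite.summable_iff.2 (sm_pi p)) (fun _ => by positivity)
    fun _ => prod_nonneg fun _ _ => by positivity).mul_left K)

theorem sm {I : Type} {v : I → Dn} (hv : Summable fun x => ‖v x‖) {a : I → ℂ_[2]} {C : ℝ}
    (h : ∀ x, ‖a x‖ ≤ C) : Summable fun x => a x • v x :=
  .of_norm_bounded (hv.mul_left C) fun x => by
    rw [norm_smul]; exact mul_le_mul_of_nonneg_right (h x) (norm_nonneg _)

theorem has {C : ℝ} {F : Qs p} (h : Bd C F) : HasSum (fun x => cf F x • wt p x) (Lt F) :=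
  (sm (sm_wt p) h).hasSum

/-! ### recurrences -/

theorem r1 (x : ℕ × (Fin p →₀ ℕ)) :
    wt p ((1, 0) + x) = (8 : ℂ_[2]) • (((x.1 : Dn) + ((p : Dn) + 1) * eps) * wt p x) := by
  simp only [wt, Prod.fst_add, Prod.snd_add, zero_add, add_comm 1 x.1, prod_range_succ,
    mul_smul_comm, smul_smul]
  congr 1
  · ring
  · ring

theorem r2 (i : Fin p) (x : ℕ × (Fin p →₀ ℕ)) :
    (((∑ j, x.2 j : ℕ) : Dn) + ((p : Dn) + 1) * (1 + eps)) * wt p ((0, Finsupp.single i 1) + x) =
      (8 : ℂ_[2]) • (((x.2 i : Dn) + 1 + eps) * wt p x) := by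
  have a : ∑ j, (Finsupp.single i 1 + x.2 : Fin p →₀ ℕ) j = ∑ j, x.2 j + 1 := by
    simp [sum_add_distrib, Finsupp.single_apply, add_comm]
  have b : ∀ f : ℕ → Dn, ∏ j, ∏ k ∈ range ((Finsupp.single i 1 + x.2 : Fin p →₀ ℕ) j), f k =
      (∏ j, ∏ k ∈ range (x.2 j), f k) * f (x.2 i) := fun f => by
    rw [← (prod_ite_eq univ i fun j => f (x.2 j)).trans (if_pos (mem_univ i)), ← prod_mul_distrib]
    refine prod_congr rfl fun j _ => ?_
    rw [Finsupp.add_apply, Finsupp.single_apply]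
    split_ifs
    · rw [add_comm, prod_range_succ]
    · rw [zero_add, mul_one]
  have c := TrivSqZeroExt.mul_inv_cancel
    (x := (((∑ j, x.2 j + p : ℕ) : Dn) + 1 + ((p : Dn) + 1) * eps)) (by
      generalize ∑ j, x.2 j + p = m
      simpa using Nat.cast_add_one_ne_zero (R := ℂ_[2]) m)
  simp only [wt, Prod.fst_add, Prod.snd_add, zero_add, a, b, add_right_comm _ 1 p, prod_range_succ,
    mul_smul_comm, smul_smul]
  congr 1
  · ring
  · generalize (((∑ j, x.2 j + p : ℕ) : Dn) + 1 + ((p : Dn) + 1) * eps)⁻¹ = y at c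
    rw [Nat.cast_add] at c
    linear_combination ((∏ j, ∏ k ∈ range (x.2 j), ((k : Dn) + 1 + eps)) * (x.2 i + 1 + eps) *
      (∏ j ∈ range x.1, ((j : Dn) + ((p : Dn) + 1) * eps)) *
      ∏ j ∈ range (∑ i, x.2 i + p), ((j : Dn) + 1 + ((p : Dn) + 1) * eps)⁻¹) * c

/-- the weights after multiplication by a barycentric coordinate -/
def uw : Fin (p + 1) → ℕ × (Fin p →₀ ℕ) → Dn :=
  Fin.cons (fun x => wt p x - ∑ i, (8⁻¹ : ℂ_[2]) • wt p ((0, Finsupp.single i 1) + x))
    fun i x => (8⁻¹ : ℂ_[2]) • wt p ((0, Finsupp.single i 1) + x)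

/-- the exponent of the coordinate `i` -/
def av (i : Fin (p + 1)) (j : Fin p) : ℂ_[2] := if j.succ = i then 1 else 0

theorem u1 (i : Fin (p + 1)) (x : ℕ × (Fin p →₀ ℕ)) :
    (8⁻¹ : ℂ_[2]) • uw i ((1, 0) + x) = ((x.1 : Dn) + ((p : Dn) + 1) * eps) * uw i x := by
  have a : ∀ j, wt p ((0, Finsupp.single j 1) + ((1, 0) + x)) = (8 : ℂ_[2]) •
      (((x.1 : Dn) + ((p : Dn) + 1) * eps) * wt p ((0, Finsupp.single j 1) + x)) := fun j => by
    rw [add_left_comm, r1, Prod.fst_add, zero_add]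
  have b : (8 : ℂ_[2]) ≠ 0 := by norm_num
  refine i.cases ?_ fun i => ?_
  · simp only [uw, Fin.cons_zero, a, r1, smul_sub, smul_sum, inv_smul_smul₀ b, mul_sub, mul_sum,
      mul_smul_comm]
  · simp only [uw, Fin.cons_succ, a, inv_smul_smul₀ b, mul_smul_comm]

theorem u2 (i : Fin (p + 1)) (x : ℕ × (Fin p →₀ ℕ)) :
    (((∑ j, x.2 j : ℕ) : Dn) + ((p : Dn) + 1) * (1 + eps)) * uw i x =
      (∑ j, av i j * x.2 j) • wt p x + (1 + eps) * wt p x := by
  have b : (8 : ℂ_[2]) ≠ 0 := by norm_num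
  refine i.cases ?_ fun i => ?_
  · simp only [uw, Fin.cons_zero, mul_sub, mul_sum, mul_smul_comm, r2]
    simp only [inv_smul_smul₀ b, av, Fin.succ_ne_zero, if_false, zero_mul, sum_const_zero, zero_smul, ← sum_mul, sum_add_distrib,
      Nat.cast_sum, sum_const, card_univ, Fintype.card_fin, nsmul_eq_mul]
    ring
  · simp only [uw, Fin.cons_succ, mul_smul_comm, r2, inv_smul_smul₀ b, av, Fin.succ_inj, ite_mul,
      one_mul, zero_mul, sum_ite_eq', mem_univ, if_true, Nat.cast_smul_eq_nsmul, nsmul_eq_mul]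
    ring

/-! ### shifts -/

theorem shift {v : ℕ × (Fin p →₀ ℕ) → Dn} {F G : Qs p} {y : ℕ × (Fin p →₀ ℕ)} {c : ℂ_[2]} {s : Dn}
    (h : ∀ x, cf G (y + x) = cf F x * c) (h0 : ∀ x, ¬y ≤ x → cf G x = 0) :
    HasSum (fun x => cf F x • c • v (y + x)) s ↔ HasSum (fun x => cf G x • v x) s := by
  rw [← (add_right_injective y).hasSum_iff (f := fun x => cf G x • v x) fun x m => by
    rw [h0 x fun k => m ⟨x - y, add_tsub_cancel_of_le k⟩, zero_smul]]
  simp only [Function.comp_def, h, mul_smul]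

theorem cf_add (F G : Qs p) (x : ℕ × (Fin p →₀ ℕ)) : cf (F + G) x = cf F x + cf G x := by
  simp [cf]

theorem sg1 (F : Qs p) (x : ℕ × (Fin p →₀ ℕ)) : cf (sg * F) ((1, 0) + x) = cf F x * 8⁻¹ := by
  simp only [cf, sg, Prod.fst_add, Prod.snd_add, zero_add, add_comm 1 x.1, mul_assoc,
    PowerSeries.coeff_C_mul, PowerSeries.coeff_succ_X_mul, MvPowerSeries.coeff_C_mul]
  exact mul_comm _ _

theorem sg0 (F : Qs p) (x : ℕ × (Fin p →₀ ℕ)) (h : ¬(1, 0) ≤ x) : cf (sg * F) x = 0 := by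
  have : x.1 = 0 := by_contra fun k => h ⟨Nat.one_le_iff_ne_zero.2 k, zero_le⟩
  simp [cf, sg, this]

theorem bd_sg {C : ℝ} {F : Qs p} (h : Bd C F) : Bd (C * 8) (sg * F) := fun x => by
  by_cases k : (1, 0) ≤ x
  · rw [← add_tsub_cancel_of_le k, sg1, norm_mul, norm_inv, nm_8, one_div, inv_inv]
    exact mul_le_mul_of_nonneg_right (h _) (by norm_num)
  · rw [sg0 F x k, norm_zero]
    exact mul_nonneg ((norm_nonneg _).trans (h 0)) (by norm_num)

theorem hu {C : ℝ} {F : Qs p} (h : Bd C F) (i : Fin (p + 1)) : ∃ s,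
    HasSum (fun x => cf F x • uw i x) s ∧
      HasSum (fun x => cf (PowerSeries.C (uu i) * F) x • wt p x) s := by
  have a : ∀ i : Fin p, ∃ s, HasSum (fun x => cf F x • uw i.succ x) s ∧
      HasSum (fun x => cf (PowerSeries.C (uu i.succ) * F) x • wt p x) s := fun i => by
    have k := (sm (((sm_wt p).comp_injective (add_right_injective
      ((0, Finsupp.single i 1) : ℕ × (Fin p →₀ ℕ)))).mul_left ‖(8⁻¹ : ℂ_[2])‖ |>.congr
      (g := fun x => ‖uw i.succ x‖) fun x => (norm_smul _ _).symm) h).hasSum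
    refine ⟨_, k, (shift (fun x => ?_) fun x m => ?_).1 k⟩ <;>
      simp only [cf, uu, Fin.cons_succ, PowerSeries.coeff_C_mul, mul_assoc,
        MvPowerSeries.coeff_C_mul, MvPowerSeries.X_def]
    · rw [Prod.snd_add, MvPowerSeries.coeff_add_monomial_mul, Prod.fst_add, zero_add, one_mul,
        mul_comm]
    · rw [MvPowerSeries.coeff_monomial_mul, if_neg fun k => m ⟨zero_le, k⟩, mul_zero]
  refine i.cases ?_ a
  choose s s1 s2 using a
  refine ⟨Lt F - ∑ i, s i, ?_, ?_⟩
  · simpa only [uw, Fin.cons_zero, Fin.cons_succ, smul_sub, smul_sum] using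
      (has h).sub (hasSum_sum fun i (_ : i ∈ univ) => s1 i)
  · simpa only [uu, Fin.cons_zero, Fin.cons_succ, cf, map_sub, map_sum, map_one, sub_mul, sum_mul,
      one_mul, sub_smul, sum_smul] using (has h).sub (hasSum_sum fun i (_ : i ∈ univ) => s2 i)

/-! ### derivations -/

/-- Euler operators -/
def eu (a : Fin p → ℂ_[2]) : Derivation ℂ_[2] (Tt p) (Tt p) := Derivation.mk'
  { toFun := fun f b => (∑ j, a j * b j) * MvPowerSeries.coeff b f
    map_add' := fun f g => funext fun b => mul_add _ _ _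
    map_smul' := fun c f => funext fun b => mul_left_comm _ _ _ }
  fun f g => MvPowerSeries.ext fun b => by
    change (∑ j, a j * b j) * MvPowerSeries.coeff b (f * g) = _
    rw [smul_eq_mul, smul_eq_mul, mul_comm g, map_add, MvPowerSeries.coeff_mul,
      MvPowerSeries.coeff_mul, MvPowerSeries.coeff_mul, mul_sum, ← sum_add_distrib]
    refine sum_congr rfl fun x m => ?_
    change _ = _ * ((∑ j, a j * x.2 j) * _) + (∑ j, a j * x.1 j) * _ * _
    simp only [← mem_antidiagonal.1 m, Finsupp.add_apply, Nat.cast_add, mul_add, sum_add_distrib]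
    ring

theorem cf_eu (a : Fin p → ℂ_[2]) (f : Tt p) (b : Fin p →₀ ℕ) :
    MvPowerSeries.coeff b (eu a f) = (∑ j, a j * b j) * MvPowerSeries.coeff b f := rfl

theorem eu_C (δ : Derivation ℂ_[2] (Tt p) (Tt p)) (c : ℂ_[2]) : δ (MvPowerSeries.C c) = 0 :=
  δ.map_algebraMap c

theorem eu_X (a : Fin p → ℂ_[2]) (i : Fin p) :
    eu a (MvPowerSeries.X i) = MvPowerSeries.C (a i) * MvPowerSeries.X i :=
  MvPowerSeries.ext fun b => by
    rw [cf_eu, MvPowerSeries.coeff_C_mul, MvPowerSeries.coeff_X]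
    split_ifs with h
    · simp [h, Finsupp.single_apply]
    · rw [mul_zero, mul_zero]

theorem eu_lu (a : Fin p → ℂ_[2]) (η : Fin (p + 1) → ℂ_[2]) : eu a (lu η) =
    ∑ j, MvPowerSeries.C (a j) * (MvPowerSeries.C (η j.succ) - MvPowerSeries.C (η 0)) *
      uu j.succ := by
  simp only [lu, Fin.sum_univ_succ, uu, Fin.cons_zero, Fin.cons_succ, map_add, map_sum, map_sub,
    Derivation.leibniz, eu_C, eu_X, smul_zero, add_zero, Derivation.map_one_eq_zero, zero_sub,
    smul_eq_mul, mul_neg, mul_sum, ← sum_neg_distrib, mul_zero, ← sum_add_distrib]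
  exact sum_congr rfl fun j _ => by ring

/-- the derivation of the barycentric coordinates -/
def dd (i : Fin (p + 1)) : Derivation ℂ_[2] (Tt p) (Tt p) := eu (av i) - uu i • eu 1

theorem dd_lu (i : Fin (p + 1)) (η : Fin (p + 1) → ℂ_[2]) :
    dd i (lu η) = uu i * (MvPowerSeries.C (η i) - lu η) := by
  have a : eu 1 (lu η) = lu η - MvPowerSeries.C (η 0) := by
    simp only [eu_lu, Pi.one_apply, map_one, one_mul]
    simp only [lu, Fin.sum_univ_succ, uu, Fin.cons_zero, Fin.cons_succ, sub_mul, sum_sub_distrib,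
      mul_sub, mul_sum]
    ring
  have b : eu (av i) (lu η) = (MvPowerSeries.C (η i) - MvPowerSeries.C (η 0)) * uu i := by
    rw [eu_lu]
    refine i.cases ?_ fun i => ?_
    · simp [av, Fin.succ_ne_zero]
    · simp [av, apply_ite MvPowerSeries.C]
  rw [dd, Derivation.sub_apply, Derivation.smul_apply, a, b, smul_eq_mul]
  ring

/-- a derivation of the coefficients plus a multiple of the radial Euler operator -/
def cw (δ : Derivation ℂ_[2] (Tt p) (Tt p)) (c : Tt p) : Derivation ℂ_[2] (Qs p) (Qs p) :=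
  Derivation.mk'
  { toFun := fun F => PowerSeries.mk fun d =>
      δ (PowerSeries.coeff d F) + d * c * PowerSeries.coeff d F
    map_add' := fun f g => PowerSeries.ext fun d => by
      simp only [PowerSeries.coeff_mk, map_add]; ring
    map_smul' := fun c f => PowerSeries.ext fun d => by
      simp only [PowerSeries.coeff_mk, PowerSeries.coeff_smul, RingHom.id_apply, smul_add,
        Derivation.map_smul, mul_smul_comm] }
  fun f g => PowerSeries.ext fun d => by
    simp only [Derivation.coe_mk', LinearMap.coe_mk, AddHom.coe_mk, smul_eq_mul]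
    rw [mul_comm g]
    simp only [PowerSeries.coeff_mk, map_add, PowerSeries.coeff_mul, map_sum, mul_sum,
      ← sum_add_distrib, Derivation.leibniz, smul_eq_mul]
    refine sum_congr rfl fun x m => ?_
    rw [← mem_antidiagonal.1 m, Nat.cast_add]
    ring

theorem cf_cw (δ : Derivation ℂ_[2] (Tt p) (Tt p)) (c : Tt p) (F : Qs p) (d : ℕ) :
    PowerSeries.coeff d (cw δ c F) =
      δ (PowerSeries.coeff d F) + d * c * PowerSeries.coeff d F :=
  PowerSeries.coeff_mk d fun d => δ (PowerSeries.coeff d F) + d * c * PowerSeries.coeff d F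

theorem cw_C (δ : Derivation ℂ_[2] (Tt p) (Tt p)) (c a : Tt p) :
    cw δ c (PowerSeries.C a) = PowerSeries.C (δ a) := PowerSeries.ext fun d => by
  rw [cf_cw, PowerSeries.coeff_C, PowerSeries.coeff_C]
  split_ifs with h <;> simp [h]

theorem cw_X (δ : Derivation ℂ_[2] (Tt p) (Tt p)) (c : Tt p) :
    cw δ c PowerSeries.X = PowerSeries.C c * PowerSeries.X := PowerSeries.ext fun d => by
  rw [cf_cw, PowerSeries.coeff_C_mul, PowerSeries.coeff_X]
  split_ifs with h <;> simp [h]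

theorem cw_exp (δ : Derivation ℂ_[2] (Tt p) (Tt p)) (c a : Tt p) :
    cw δ c (PowerSeries.rescale a (PowerSeries.exp (Tt p))) = PowerSeries.C (δ a + c * a) *
      (PowerSeries.X * PowerSeries.rescale a (PowerSeries.exp (Tt p))) := PowerSeries.ext fun d => by
  have z : ∀ q : ℚ, δ (algebraMap ℚ (Tt p) q) = 0 := fun q => by
    rw [IsScalarTower.algebraMap_apply ℚ ℂ_[2] (Tt p), δ.map_algebraMap]
  rw [cf_cw, PowerSeries.coeff_C_mul]
  obtain _ | d := d
  · simp
  · have k : ((d + 1 : ℕ) : Tt p) * algebraMap ℚ (Tt p) (1 / (d + 1).factorial) =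
        algebraMap ℚ (Tt p) (1 / d.factorial) := by
      rw [← map_natCast (algebraMap ℚ (Tt p)), ← map_mul, Nat.factorial_succ, Nat.cast_mul]
      congr 1
      field_simp
    simp only [PowerSeries.coeff_succ_X_mul, PowerSeries.coeff_rescale, PowerSeries.coeff_exp,
      Derivation.leibniz, z, Derivation.leibniz_pow, smul_eq_mul, nsmul_eq_mul, ← k,
      Nat.add_sub_cancel]
    ring

theorem kil {C : ℝ} {F : Qs p} (h : Bd C F) (i : Fin (p + 1)) :
    Lt (cw (dd i) (uu i) F) + (1 + eps) * Lt F =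
      Lt (sg * PowerSeries.C (uu i) * F) + ((p : Dn) + 1) * Lt (PowerSeries.C (uu i) * F) := by
  have e1 : ∀ x, cf (cw (eu (av i)) 0 F) x = (∑ j, av i j * x.2 j) * cf F x := fun x => by
    simp only [cf, cf_cw, mul_zero, zero_mul, add_zero, cf_eu]
  have e2 : ∀ x, cf (cw (-eu 1) 1 F) x = ((x.1 : ℂ_[2]) - (∑ j, x.2 j : ℕ)) * cf F x := fun x => by
    simp only [cf, cf_cw, mul_one, Derivation.neg_apply, map_add, map_neg, cf_eu, Pi.one_apply,
      one_mul, ← nsmul_eq_mul, map_nsmul, Nat.cast_sum, sub_mul]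
    rw [neg_add_eq_sub]
  have e3 : cw (dd i) (uu i) F = cw (eu (av i)) 0 F + PowerSeries.C (uu i) * cw (-eu 1) 1 F :=
    PowerSeries.ext fun d => by
      simp only [map_add, PowerSeries.coeff_C_mul, cf_cw, dd, Derivation.sub_apply,
        Derivation.smul_apply, Derivation.neg_apply, smul_eq_mul]
      ring
  have n1 : ∀ {c : ℂ_[2]} x, ‖c‖ ≤ 1 → ‖c * cf F x‖ ≤ C := fun x k => by
    rw [norm_mul]
    exact (mul_le_of_le_one_left (norm_nonneg _) k).trans (h x)
  have b1 : Bd C (cw (eu (av i)) 0 F) := fun x => by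
    rw [e1]
    refine n1 x (IsUltrametricDist.norm_sum_le_of_forall_le_of_nonneg zero_le_one fun j _ => ?_)
    rw [av]
    split_ifs <;> simp [IsUltrametricDist.norm_natCast_le_one]
  have b2 : Bd C (cw (-eu 1) 1 F) := fun x => by
    rw [e2]
    exact n1 x (by exact_mod_cast IsUltrametricDist.norm_intCast_le_one ℂ_[2] (x.1 - (∑ j, x.2 j : ℕ)))
  obtain ⟨s, s1, s2⟩ := hu h i
  obtain ⟨t, t1, t2⟩ := hu b2 i
  obtain ⟨w, w1, w2⟩ := hu (bd_sg h) i
  have := (has b1).add t2
  simp only [← add_smul, ← cf_add, ← e3] at this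
  rw [mul_comm sg, mul_assoc, Lt, Lt, Lt, Lt, this.tsum_eq, w2.tsum_eq, s2.tsum_eq]
  refine (((has b1).add t1).add ((has h).mul_left _)).unique
    ((((shift (sg1 F) (sg0 F)).2 w1).add (s1.mul_left _)).congr_fun fun x => ?_)
  have a := u2 i x
  rw [u1, e1, e2]
  simp only [Algebra.smul_def, map_mul, map_sub, map_natCast] at a ⊢
  linear_combination -algebraMap ℂ_[2] Dn (cf F x) * a

end Fu

open Fu

theorem s2 (p : ℕ) : S2 p where
  has _ _ := Fu.has
  nrm := by
    refine ⟨∑' x, ‖wt p x‖, tsum_nonneg fun _ => norm_nonneg _, fun C F h => ?_⟩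
    have : ‖Lt F‖ ≤ (∑' x, ‖wt p x‖) * C := (has h).norm_le_of_bounded
      ((sm_wt p).hasSum.mul_right C) fun x => by
        rw [norm_smul, mul_comm]
        exact mul_le_mul_of_nonneg_left (h x) (norm_nonneg _)
    rw [norm_def] at this
    exact ⟨(le_add_of_nonneg_right (norm_nonneg _)).trans this,
      (le_add_of_nonneg_left (norm_nonneg _)).trans this⟩
  dom ι C G F h k := by
    refine (tendsto_tsum_of_dominated_convergence (f := fun (s : Finset ι) x =>
      (∑ i ∈ s, cf (G i) x) • wt p x) ((sm_wt p).mul_left (max C 0))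
      (fun x => Tendsto.smul_const (k x) _) (.of_forall fun s x => ?_)).congr fun s => ?_
    · rw [norm_smul]
      exact mul_le_mul_of_nonneg_right (IsUltrametricDist.norm_sum_le_of_forall_le_of_nonneg
        (le_max_right _ _) fun i _ => (h i x).trans (le_max_left _ _)) (norm_nonneg _)
    · simpa only [sum_smul] using (hasSum_sum fun i (_ : i ∈ s) => has (h i)).tsum_eq
  fst C F h := by
    have b : Bd C (PowerSeries.C (PowerSeries.coeff 0 F) : Qs p) := fun x => by
      rw [cf, PowerSeries.coeff_C]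
      split_ifs
      · exact h (0, x.2)
      · exact (by simp : _ = ‖(0 : ℂ_[2])‖).trans_le (norm_zero.trans_le
          ((norm_nonneg _).trans (h 0)))
    refine HasSum.unique (hasSum_fst (R := ℂ_[2]) (M := ℂ_[2]) (has h))
      (HasSum.congr_fun (hasSum_fst (R := ℂ_[2]) (M := ℂ_[2]) (has b)) fun x => ?_)
    obtain ⟨_ | d, b⟩ := x
    · simp [cf]
    · simp [cf, wt, prod_range_succ', PowerSeries.coeff_C]
  one := by
    have a : Lt (1 : Qs p) = wt p 0 := by
      rw [Lt, tsum_eq_single 0 fun x m => ?_]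
      · simp [cf]
      · rw [cf, PowerSeries.coeff_one]
        split_ifs with k
        · rw [MvPowerSeries.coeff_one, if_neg fun k' : x.2 = 0 => m (Prod.ext k k'), zero_smul]
        · rw [map_zero, zero_smul]
    have b : Lt ((sg : Qs p) ^ (p + 1)) = (8⁻¹ : ℂ_[2]) ^ (p + 1) • wt p (p + 1, 0) := by
      rw [Lt, sg, mul_pow, ← map_pow, ← map_pow, tsum_eq_single (p + 1, 0) fun x m => ?_]
      · simp [cf, -map_pow]
      · rw [cf, PowerSeries.coeff_C_mul, PowerSeries.coeff_X_pow]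
        split_ifs with k
        · rw [mul_one, MvPowerSeries.coeff_C, if_neg fun k' => m (Prod.ext k k'), zero_smul]
        · rw [mul_zero, map_zero, zero_smul]
    have c : (p + 1 : ℂ_[2]) ≠ 0 := Nat.cast_add_one_ne_zero p
    refine ⟨?_, ?_⟩
    · have := map_prod (fstHom ℂ_[2] ℂ_[2] ℂ_[2]) (fun j : ℕ => ((j : Dn) + 1 + ((p : Dn) + 1) * eps)⁻¹)
        (range p)
      simp only [fstHom_apply] at this
      rw [Nat.factorial_succ, mul_comm]
      simp [a, wt, this, ← prod_range_add_one_eq_factorial]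
    · have : (∏ j ∈ range p, (((j + 1 : ℕ) : Dn) + ((p : Dn) + 1) * eps)) *
          ∏ j ∈ range p, ((j : Dn) + 1 + ((p : Dn) + 1) * eps)⁻¹ = 1 := by
        rw [← prod_mul_distrib]
        exact prod_eq_one fun j _ => by
          rw [Nat.cast_succ]
          exact TrivSqZeroExt.mul_inv_cancel (by simpa using Nat.cast_add_one_ne_zero (R := ℂ_[2]) j)
      simp only [b, wt, Finsupp.coe_zero, Pi.zero_apply, sum_const_zero, add_zero, zero_add,
        range_zero, prod_empty, prod_const_one, one_mul, prod_range_succ', mul_right_comm _ _ (∏ j ∈ range p, _⁻¹),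
        this, smul_smul, Nat.cast_zero]
      ext <;> simp
      field_simp
  kil := ⟨fun i => cw (dd i) (uu i), fun i => ⟨by
      rw [sg, Derivation.leibniz, cw_C, cw_X, eu_C, map_zero, smul_zero, add_zero, smul_eq_mul]
      ring, fun η => by rw [cw_C, dd_lu], fun η => by
      rw [Ex, cw_exp, map_neg, Derivation.leibniz, eu_C, dd_lu, Algebra.smul_def (η i), sg]
      rw [PowerSeries.algebraMap_apply, MvPowerSeries.algebraMap_apply, Algebra.algebraMap_self_apply]
      simp only [smul_eq_mul, map_add, map_neg, map_mul, map_sub, mul_zero, map_zero]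
      ring, fun C F h => kil h i⟩⟩

end Vale.Agent.P004C.Ld
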