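import Vale.Agent.P004C.Ld.St3
import Vale.Agent.P004C.As.Sm

/-!
# P004 C, the leading term: the row SUM
-/

set_option autoImplicit false
set_option linter.unusedSectionVars false

open NumberField Module IsDedekindDomain Finset Filter
open scoped Classical

noncomputable section

namespace Vale.Agent.P004C.Ld

open An As

namespace Su

variable {K : Type} [Field K] [NumberField K] {ι : ℂ →+* ℂ_[2]} {J : K →+* ℂ}
  {M : Type} [Field M] [NumberField M] [Algebra K M]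

theorem fd_iff (m : ℕ) (y : M) : As.Fd ι J m y ↔ Ms.Fd ι J m y := by
  refine ⟨fun h x ⟨s, a, b⟩ => ?_, fun h r => n_two ▸ h r (Vi_of ι J r)⟩
  have := h ⟨_, b⟩
  change ‖ι (J (Algebra.trace K M (algebraMap K M s * x * y)))‖ ≤ _ at this
  rwa [mul_assoc, ← Algebra.smul_def, map_smul, smul_eq_mul, map_mul, map_mul, norm_mul, a,
    one_mul, n_two] at this

/-- the additive character -/
def ac {π : 𝓞 K} {τ : ℕ → K} {ψ : K → ℂ} (h : Ms.Ar ι J π τ ψ) : AddChar K ℂ where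
  toFun := ψ
  map_zero_eq_one' := (h.ker 0).2 (by simp)
  map_add_eq_mul' := h.add

/-- the smoothing, on the ideals prime to `W` -/
theorem zz_eq {r A l : ℕ} {t : 𝓞 M} {W : Fin (r + 1) → Ideal (𝓞 M)}
    {Φ : Ideal (𝓞 M) → ZMod (2 ^ A)} {φ : Fin (r + 1) → M → ZMod (2 ^ A)} (ax : Aux t A W Φ φ)
    {a : Ideal (𝓞 M) → ℂ} (ha : ∀ I I', a (I * I') = a I * a I') (hs : Summable fun I => ‖a I‖)
    {c : Ideal (𝓞 M)} (c0 : c ≠ ⊥) (c1 : ∀ j, c ⊔ W j = ⊤) (i : ℕ) :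
    (Summable fun I => ‖xi c l I * (a I * ((Φ I).val.choose i : ℂ))‖) ∧ zz W Φ a c l i =
      ∑' I, if ∀ j, I ⊔ W j = ⊤ then xi c l I * (a I * ((Φ I).val.choose i : ℂ)) else 0 := by
  have s1 : Summable fun I => ‖a I * ((Φ I).val.choose i : ℂ)‖ :=
    (hs.mul_right (((2 ^ A).choose i : ℕ) : ℝ)).of_nonneg_of_le (fun _ => norm_nonneg _) fun I => by
      rw [norm_mul, Complex.norm_natCast]
      exact mul_le_mul_of_nonneg_left (Nat.cast_le.2 (Nat.choose_le_choose i (ZMod.val_lt _).le))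
        (norm_nonneg _)
  refine ⟨(s1.mul_left (1 + l : ℝ)).of_nonneg_of_le (fun _ => norm_nonneg _) fun I => ?_, ?_⟩
  · rw [norm_mul]
    refine mul_le_mul_of_nonneg_right ?_ (norm_nonneg _)
    unfold xi
    split_ifs
    · simpa using norm_sub_le (1 : ℂ) l
    · simp
  have s2 : Summable fun I => if ∀ j, I ⊔ W j = ⊤ then a I * ((Φ I).val.choose i : ℂ) else 0 :=
    s1.of_norm_bounded fun I => by split_ifs <;> simp [-norm_mul, -Complex.norm_mul]
  obtain ⟨s3, e⟩ := smooth' (l := l) c0 _ s2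
  simp only [mul_ite, mul_zero] at e
  rw [e, ← tsum_mul_left, ← s2.tsum_sub (s3.mul_left _)]
  refine tsum_congr fun I => ?_
  by_cases h : ∀ j, I ⊔ W j = ⊤
  · have I0 : I ≠ ⊥ := fun e => (ax.max 0).ne_top (by simpa [e] using h 0)
    rw [if_pos h, if_pos h, if_pos fun j => (Ideal.mul_sup_eq_of_coprime_left (c1 j)).trans (h j),
      ha, ax.add _ _ c0 I0 c1 h]
    ring
  · rw [if_neg h, if_neg h, if_neg fun k => h fun j =>
      (Ideal.mul_sup_eq_of_coprime_left (c1 j)).symm.trans (k j)]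
    ring

end Su

open Su

/-- **SUM** -/
theorem sum_row (hC : CNT) (hK : KV) (hF : FOV) (hP : PCS) (hN : FND) : SUM := by
  intro K _ _ ι J Ω B π τ ψ ar M _ _ _ m hm
  obtain ⟨Y, Y', y1, y2, y3, y4⟩ := hF K ι J Ω B M m (by omega)
  refine ⟨Y, Y', y2, y1.1, y3, ?_⟩
  intro t0 c l p r A h' e w Φ φ R lam a gn sm ax rp h0 he la ha π' h u d Rho D fr dm S S' hS i
  obtain ⟨a1, a2, a3, -⟩ := hK K ι J Ω B M h' e lam a h0 he la ha
  set k := 2 * h' * 2 ^ e with hk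
  obtain ⟨β, b1, b2, b3⟩ := hC K ι J Ω B M m r A l c w Φ φ R (by omega) sm ax rp
  obtain ⟨σ, sg⟩ := ex_sg (M := M) J rfl
  have pcs := (hP K ι J M m r A p w φ ax.loc (((hN K ι J Ω B M _ σ sg m hm).2.2 r A _ w Φ φ
    (dvd_mul_right _ _) ax).2.1)).2.2.2.2 π' h u d Rho fr |>.2 ℂ
  have cl : (2 * l : 𝓞 M) ∈ c.asIdeal :=
    c.asIdeal.mul_mem_left _ (sm.2.2.1 ▸ c.asIdeal.absNorm_mem)
  obtain ⟨s1, s2⟩ := zz_eq (l := l) ax a1 a3 c.ne_bot (fun j => c.isMaximal.coprime_of_ne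
    (w j).isMaximal fun e => ax.cop j (e ▸ cl)) i
  have := fd K M
  let N : M →*₀ ℂ :=
    { toFun := fun x => (J (Algebra.norm K x))⁻¹ ^ k
      map_zero' := by
        rw [Algebra.norm_zero, map_zero, inv_zero, zero_pow (by positivity)]
      map_one' := by simp
      map_mul' := fun x y => by simp [mul_pow, mul_comm] }
  have w0 : ∀ j, a (w j).asIdeal ≠ 0 := fun j => by
    obtain ⟨v, hv, v0⟩ := Submodule.exists_mem_ne_zero_of_ne_bot (w j).ne_bot
    obtain ⟨C, hC⟩ := Ideal.dvd_span_singleton.2 hv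
    exact left_ne_zero_of_mul ((a1 _ C).symm.trans_ne (hC ▸ (a2 v).trans_ne
      ((map_ne_zero N).2 (RingOfIntegers.coe_ne_zero_iff.2 v0))))
  have ee : ∀ x : M, ∑ y ∈ Y, Ms.EE ι J ψ m (t0 * y) x + ∑ y ∈ Y', Ms.EE ι J ψ m (t0 * y) x =
      if Vi ι J x then 2 ^ (m * finrank K M) else 0 := fun x => by
    by_cases v : Vi ι J (2 ^ m * x)
    · simp only [Ms.EE, if_pos v]
      exact y4 (ac ar) t0 ar.ker (fun x => by
        rw [fd_iff, gn.2, mul_div_cancel_left₀ _ gn.1]) x v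
    · rw [if_neg fun n => v (Vi_mul (Vi_of ι J (2 ^ m : 𝓞 M)) n)]
      simp [Ms.EE, v]
  have H := (b3 Y _ _ y1 (fun n => dm.1 n.1) (fr.dom D dm) s1).mul_left (2 ^ (m * finrank K M))
  rw [← s2, mul_left_comm] at H
  rw [← sum_coe_sort R]
  refine (H.prod_fiberwise fun I => ?_).unique (hasSum_fintype _)
  have H1 := hasSum_sum fun z hz => ((hasSum_sum (hS I I.2 z hz).1).add
    (hasSum_sum (hS I I.2 z hz).2)).mul_left
      (((Φ I - z.2.1).val.choose i : ℂ) * (a I / ∏ j, a (w j).asIdeal ^ z.1 j))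
  have e1 : ∀ x : D, ∑ z ∈ ix A h Rho,
      ((Φ I - z.2.1).val.choose i : ℂ) * (a I / ∏ j, a (w j).asIdeal ^ z.1 j) *
      (∑ y ∈ Y, gz w ι J c l φ I z x * Ms.EE ι J ψ m (t0 * y) x / J (Algebra.norm K (x : M)) ^ k +
      ∑ y ∈ Y', gz w ι J c l φ I z x * Ms.EE ι J ψ m (t0 * y) x / J (Algebra.norm K (x : M)) ^ k) =
      (if Bx w h x ∧ ∃ ρ ∈ Rho, (w 0).valuation M (x / ρ - 1) < 1 then
        ((Φ I - ∑ j, φ j x).val.choose i : ℂ) * (a I / ∏ j, a (w j).asIdeal ^ (od (w j) x).toNat)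
        else 0) * (bs w ι J c l I x * (if Vi ι J (x : M) then 2 ^ (m * finrank K M) else 0) *
          N x) := fun x => by
    rw [← (pcs (fun v g => ((Φ I - g).val.choose i : ℂ) * (a I / ∏ j, a (w j).asIdeal ^ v j)) x).2,
      sum_mul, ← ee]
    refine sum_congr rfl fun z _ => ?_
    simp only [← sum_div, ← mul_sum, gz, Int.cast_mul, N, MonoidWithZeroHom.coe_mk,
      ZeroHom.coe_mk, inv_pow]
    ring
  simp only [e1] at H1
  refine ((Set.inclusion_injective (Set.sep_subset D _)).hasSum_iff fun x n => ?_).2 H1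
    |>.congr_fun fun x => ?_
  · rw [if_neg fun k => n ⟨⟨x, x.2, k⟩, rfl⟩, zero_mul]
  obtain ⟨x, x1, x2⟩ := x
  change 2 ^ _ * ite (In w I x) _ _ = ite (Bx w h x ∧ _) _ _ * (bs w ι J c l I x * ite _ _ _ * N x)
  rw [if_pos x2]
  by_cases n : In w I x
  · obtain ⟨c1, c2, c3⟩ := b1 I I.2 x x2.1.1 n
    obtain ⟨n1, n2⟩ := (b2 I I.2 x).1 n
    have c4 := c3 a N a1 a2
    have c5 : ∀ j, a (w j).asIdeal ^ od (w j) x = a (w j).asIdeal ^ (od (w j) x).toNat := fun j => by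
      rw [← zpow_natCast, Int.toNat_of_nonneg (x2.1.2 j).1]
    simp only [c5] at c4
    rw [if_pos n, if_pos n2, c1, bs, if_pos n1, xi, if_congr c2 rfl rfl,
      eq_div_of_mul_eq (prod_ne_zero_iff.2 fun j _ => pow_ne_zero _ (w0 j)) c4]
    push_cast
    ring
  · rw [if_neg n]
    by_cases n2 : Vi ι J x
    · simp [bs, show ¬ Iv w ι J I x from fun n1 => n ((b2 I I.2 x).2 ⟨n1, n2⟩)]
    · simp [n2]

end Vale.Agent.P004C.Ld
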