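import Vale.Agent.P004C.Ld.St3
import Vale.Agent.P004C.Ms.Tfc

/-!
# P004 C, the leading term: test functions (row TFB)
-/

set_option autoImplicit false
set_option linter.unusedSectionVars false

open NumberField Module IsDedekindDomain Finset Filter
open scoped Classical

noncomputable section

namespace Vale.Agent.P004C.Ld

open Al.Gx Ms.Tc

namespace Tb

variable {K : Type} [Field K] [NumberField K] {ι : ℂ →+* ℂ_[2]} {J : K →+* ℂ}
  {M : Type} [Field M] [NumberField M] [Algebra K M] {π : 𝓞 K} {τ : ℕ → K} {ψ : K → ℂ}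
  {l r : ℕ} {w : Fin (r + 1) → Pl M} {x y : M}

theorem v_le (P : Pl M) (h : IsIntegral ℤ x) : P.valuation M x ≤ 1 :=
  P.valuation_le_one (K := M) ⟨x, h⟩

theorem v_one {P : Pl M} {a : 𝓞 M} (h : a ∉ P.asIdeal) : P.valuation M (a : M) = 1 :=
  (P.valuation_eq_one_iff_notMem (K := M)).2 h

theorem v_pow {P : Pl M} {a : 𝓞 M} (h : a ∈ P.asIdeal) (n : ℕ) :
    P.valuation M ((a : M) ^ n) ≤ WithZero.exp (-n : ℤ) := by
  have := (P.intValuation_le_pow_iff_mem (a ^ n) n).2 (Ideal.pow_mem_pow h n)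
  rw [← P.valuation_of_algebraMap (K := M)] at this
  exact (map_pow (algebraMap (𝓞 M) M) a n) ▸ this

/-- integral at the primes which do not contain `s` -/
theorem ex_pow (s : 𝓞 M) (h : ∀ P : Pl M, s ∉ P.asIdeal → P.valuation M y ≤ 1) :
    ∃ a : ℕ, IsIntegral ℤ ((s : M) ^ a * y) := by
  let d : Ideal (𝓞 M) :=
    { carrier := {a | IsIntegral ℤ ((a : M) * y)}
      add_mem' := fun {a b} ha hb => by simpa [add_mul] using IsIntegral.add ha hb
      zero_mem' := by simpa using isIntegral_zero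
      smul_mem' := fun a b hb => by simpa [mul_assoc] using a.isIntegral_coe.mul hb }
  obtain ⟨D, D0, hD⟩ := ex_den fun _ : Unit => y
  have m : (D : 𝓞 M) ∈ d := hD ()
  have : s ∈ d.radical := by
    rw [Ideal.radical_eq_sInf, Submodule.mem_sInf]
    rintro Q ⟨a, b⟩
    by_contra k
    obtain ⟨n, e, f⟩ := HeightOneSpectrum.exists_primeCompl_mul_eq_of_integer
      (⟨Q, b, fun z => D0 (by simpa [z] using a m)⟩ : Pl M) y (h _ k)
    refine e.2 (a (?_ : IsIntegral ℤ (((e : 𝓞 M) : M) * y)))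
    rw [mul_comm]
    exact f ▸ n.isIntegral_coe
  obtain ⟨a, ha⟩ := this
  have hb : IsIntegral ℤ (algebraMap (𝓞 M) M (s ^ a) * y) := ha
  rw [map_pow] at hb
  exact ⟨a, hb⟩

/-- integral away from `π` -/
theorem ow_iff : Ms.Ow π y ↔
    ∀ P : Pl M, algebraMap (𝓞 K) (𝓞 M) π ∉ P.asIdeal → P.valuation M y ≤ 1 := by
  refine ⟨fun ⟨a, h⟩ P m => ?_, fun h => ex_pow (algebraMap (𝓞 K) (𝓞 M) π) h⟩
  have := v_le P h
  rwa [map_mul, map_pow, ← coe_s, v_one m, one_pow, one_mul] at this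

theorem av_iff (A : Ms.Ar ι J π τ ψ) (P : Pl M) :
    Av ι J P.asIdeal ↔ algebraMap (𝓞 K) (𝓞 M) π ∈ P.asIdeal := by
  refine ⟨fun h => by_contra fun k => h.2 (pv_of fun Q a b c => k ?_),
    fun h => ⟨P.isMaximal, fun ⟨s, a, b⟩ => ?_⟩⟩
  · rw [P.isMaximal.eq_of_le a.ne_top b]
    exact c.ge (mem_vv.2 A.p1)
  · obtain ⟨p, q, e⟩ := (A.cop s a).map (algebraMap (𝓞 K) (𝓞 M))
    exact P.isPrime.ne_top ((Ideal.eq_top_iff_one _).2
      (e ▸ P.asIdeal.add_mem (P.asIdeal.mul_mem_left _ h) (P.asIdeal.mul_mem_left _ b)))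

theorem pi_odd (A : Ms.Ar ι J π τ ψ) {P : Pl M} (h : (2 : 𝓞 M) ∉ P.asIdeal) :
    algebraMap (𝓞 K) (𝓞 M) π ∉ P.asIdeal := fun m => ((av_iff A P).2 m).2
  (pv_two (by_contra fun k => h (P.isMaximal.eq_of_le k le_sup_left ▸
    Ideal.mem_sup_right (Ideal.mem_span_singleton_self _))))

/-- an integer prime to `l` in an ideal prime to `l` -/
theorem ex_nat (hl : l.Prime) {I : Ideal (𝓞 M)} (h0 : I ≠ ⊥)
    (h : I ⊔ Ideal.span {(l : 𝓞 M)} = ⊤) : ∃ m : ℕ, m.Coprime l ∧ (m : 𝓞 M) ∈ I := by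
  obtain ⟨k, m, hm, e⟩ := Nat.exists_eq_pow_mul_and_not_dvd
    (mt Ideal.absNorm_eq_zero_iff.1 h0) l hl.ne_one
  refine ⟨m, ((Nat.Prime.coprime_iff_not_dvd hl).2 hm).symm, ?_⟩
  have k1 := Ideal.absNorm_mem I
  rw [e, Nat.cast_mul, Nat.cast_pow] at k1
  have k2 := Ideal.sup_pow_eq_top (n := k) h
  rw [Ideal.span_singleton_pow, Ideal.eq_top_iff_one, Submodule.mem_sup] at k2
  obtain ⟨a, ha, b, hb, s⟩ := k2
  obtain ⟨c, rfl⟩ := Ideal.mem_span_singleton'.1 hb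
  have : (m : 𝓞 M) = a * m + c * (l ^ k * m) := by rw [← mul_assoc, ← add_mul, s, one_mul]
  rw [this]
  exact I.add_mem (I.mul_mem_right _ ha) (I.mul_mem_left _ k1)

theorem ex_all (hl : l.Prime) (h : ∀ i, (2 * l : 𝓞 M) ∉ (w i).asIdeal) :
    ∃ n : ℕ, n.Coprime l ∧ ∀ i, (n : 𝓞 M) ∈ (w i).asIdeal := by
  choose m h1 h2 using fun i => ex_nat hl (w i).ne_bot (by_contra fun k => h i
    ((w i).asIdeal.mul_mem_left _ ((w i).isMaximal.eq_of_le k le_sup_left ▸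
      Ideal.mem_sup_right (Ideal.mem_span_singleton_self _))))
  refine ⟨∏ i, m i, Nat.Coprime.prod_left fun i _ => h1 i, fun i => ?_⟩
  rw [Nat.cast_prod]
  exact Ideal.prod_mem _ (mem_univ i) (h2 i)

theorem ul_of (hl : l.Prime) (h : ∀ i, (2 * l : 𝓞 M) ∉ (w i).asIdeal) {e : M} (e0 : e ≠ 0)
    (he : ∀ P : Pl M, (∀ i, P ≠ w i) → P.valuation M e = 1) : Ms.Ul l e := by
  obtain ⟨n, h1, h2⟩ := ex_all hl h
  have k : ∀ P : Pl M, (n : 𝓞 M) ∉ P.asIdeal → P.valuation M e = 1 := fun P m =>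
    he P fun i s => m (s ▸ h2 i)
  obtain ⟨a, ha⟩ := ex_pow (y := e) n fun P m => (k P m).le
  obtain ⟨b, hb⟩ := ex_pow (y := e⁻¹) n fun P m => by rw [map_inv₀, k P m, inv_one]
  refine ⟨e0, n ^ (a + b), Nat.Coprime.pow_left _ h1, ?_, ?_⟩
  · have := ((int_nat n).pow b).mul ha
    rwa [← mul_assoc, show ((n : 𝓞 M) : M) = n from rfl, ← pow_add, add_comm, ← Nat.cast_pow]
      at this
  · have := ((int_nat n).pow a).mul hb
    rwa [← mul_assoc, show ((n : 𝓞 M) : M) = n from rfl, ← pow_add, ← Nat.cast_pow,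
      ← div_eq_mul_inv] at this

theorem iv_add (A : Ms.Ar ι J π τ ψ) {I : Ideal (𝓞 M)} (h : Iv w ι J I x) (k : Ms.Ow π y) :
    Iv w ι J I (x + y) := fun P a b z hz => by
  rw [add_mul]
  refine (Valuation.map_add _ _ _).trans (max_le (h P a b z hz) ?_)
  rw [map_mul]
  exact mul_le_one' (ow_iff.1 k P (mt (av_iff A P).2 a)) (v_le P z.isIntegral_coe)

theorem tf_bs (A : Ms.Ar ι J π τ ψ) {c : Pl M} (h : Sm c.asIdeal l)
    (hw : ∀ i, (2 * l : 𝓞 M) ∉ (w i).asIdeal) {I : Ideal (𝓞 M)} {G : M → ℤ} (h0 : I ≠ ⊥)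
    (hI : I ⊔ Ideal.span {(2 * l : 𝓞 M)} = ⊤) (hG : Aw w G)
    (hB : ∀ z : ℤ, ‖ι z‖ ≤ 1) :
    Ms.Tf ι π c.asIdeal l fun x => ((bs w ι J c l I x * G x : ℤ) : ℂ) := by
  obtain ⟨n, n1, n2⟩ := ex_all h.1 hw
  obtain ⟨m, m1, m2⟩ := ex_nat h.1 h0 (top_unique (hI ▸ sup_le_sup_left
    (Ideal.span_singleton_le_span_singleton.2 (dvd_mul_left _ _)) I))
  obtain ⟨N, g1, g2⟩ := hG
  have cop : (m * n ^ N).Coprime l := Nat.Coprime.mul_left m1 (Nat.Coprime.pow_left _ n1)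
  have vn : ∀ i, (w i).valuation M ((m * n ^ N : ℕ) : M) ≤ WithZero.exp (-N : ℤ) := fun i => by
    rw [Nat.cast_mul, Nat.cast_pow, map_mul]
    exact (mul_le_mul' (v_le _ (int_nat m)) (v_pow (n2 i) N)).trans (one_mul _).le
  have sup : ∀ x, Iv w ι J I x → G x ≠ 0 → Ms.Ow π (((m * n ^ N : ℕ) : M) * x) :=
    fun x a b => ow_iff.2 fun P k => by
      by_cases e : ∀ i, P ≠ w i
      · rw [Nat.cast_mul, Nat.cast_pow, mul_right_comm, mul_comm (m : M), map_mul]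
        exact mul_le_one' (a P (mt (av_iff A P).1 k) e m m2) (v_le P ((int_nat n).pow N))
      · obtain ⟨i, rfl⟩ := by simpa using e
        rw [map_mul]
        refine (mul_le_mul' (vn i) (g1 x b i)).trans ?_
        rw [← WithZero.exp_add, neg_add_cancel, WithZero.exp_zero]
  have key := tf_sm (ι := ι) h (pi_not A h) (Φ := fun x => if Iv w ι J I x then (G x : ℂ) else 0)
    (B := 1) cop (fun x => by split_ifs; exacts [hB _, by simp]) (fun x hx => by
      split_ifs at hx with k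
      exacts [sup x k (by simpa using hx), (hx rfl).elim]) fun x o ho => by
      have p := ow_mul (ow_int (int_nat (m * n ^ N))) ho
      rw [g2 x _ fun i => ?_]
      · refine if_congr ⟨fun k => ?_, fun k => iv_add A k p⟩ rfl rfl
        simpa only [add_neg_cancel_right] using iv_add A k (ow_neg p)
      · rw [map_mul]
        exact (mul_le_mul' (vn i) (ow_iff.1 ho _ (pi_odd A fun t =>
          hw i ((w i).asIdeal.mul_mem_right _ t)))).trans (mul_one _).le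
  refine (congrArg (Ms.Tf ι π c.asIdeal l) (funext fun x => ?_)).mpr key
  rw [bs]
  by_cases a : Iv w ι J I x
  swap
  · simp [a]
  by_cases b : G x = 0
  · simp [b]
  obtain ⟨k, hk⟩ := sup x a b
  have e : Ms.Tc.Pc π c.asIdeal (((m * n ^ N : ℕ) : M) * x) ↔ c.valuation M x < 1 := by
    refine (pc_iff h (pi_not A h) (a := k) (w := ⟨_, hk⟩) rfl).trans
      ((c.valuation_lt_one_iff_mem (K := M) _).symm.trans ?_)
    change c.valuation M (algebraMap K M π ^ k * (((m * n ^ N : ℕ) : M) * x)) < 1 ↔ _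
    rw [map_mul, map_mul, map_pow, ← coe_s, v_one (pi_not A h), one_pow, one_mul,
      show ((m * n ^ N : ℕ) : M) = ((m * n ^ N : ℕ) : 𝓞 M) from rfl, v_one (sm_nat h cop), one_mul]
  rw [if_pos a, if_pos a]
  by_cases d : c.valuation M x < 1
  · rw [if_pos d, if_pos (e.2 d)]
    push_cast
    ring
  · rw [if_neg d, if_neg (mt e.1 d)]
    push_cast
    ring

end Tb

open Tb in
/-- row TFB -/
theorem tfb : TFB := fun _ _ _ ι _ _ _ _ A _ _ _ _ _ _ h _ _ hw =>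
  ⟨fun _ e => ul_of h.1 hw (Units.ne_zero _) e.2.2,
    fun i e => hw i (Ideal.mul_mem_left _ _ (e ▸ sm_mem h)),
    fun _ _ h0 hI hG => tf_bs A h hw h0 hI hG fun z => by
      rw [map_intCast]; exact IsUltrametricDist.norm_intCast_le_one _ z⟩

end Vale.Agent.P004C.Ld
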