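import Vale.Agent.P004C.An.Ch

/-!
# P004 C, the leading term: functionals on polynomials, series, and the rows of the series block
-/

set_option autoImplicit false

open Finset Filter Topology

noncomputable section

namespace Vale.Agent.P004C.Ld

open An

/-! ### functionals on polynomials -/

section fn

open MvPolynomial

abbrev Py (n : ℕ) : Type := MvPolynomial (Fin n) ℂ_[2]

abbrev Fn (n : ℕ) : Type := Py n →ₗ[ℂ_[2]] ℂ_[2]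

abbrev Dn : Type := DualNumber ℂ_[2]

variable {n : ℕ}

/-- `e ≡ 1` modulo `2 ^ m` -/
def Nr (m : ℕ) (e : Fin n → ℂ_[2]) : Prop := ∀ i, ‖e i - 1‖ ≤ (1 / 2) ^ m

/-- bounded functionals on the disc `1 + 2 ^ m O` -/
def Bn (m : ℕ) (C : ℝ) (ν : Fn n) : Prop :=
  ∀ b : Fin n → ℕ, ‖ν (∏ i, (X i - 1) ^ b i)‖ ≤ C * (1 / 2) ^ (m * ∑ i, b i)

/-- translation -/
def sh (a : Fin n → ℂ_[2]) : Py n →ₐ[ℂ_[2]] Py n := aeval fun i => X i + C (a i)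

/-- dilation -/
def dl (e : Fin n → ℂ_[2]) : Py n →ₐ[ℂ_[2]] Py n := aeval fun i => C (e i) * X i

/-- difference operator -/
def df (a : Fin n → ℂ_[2]) : Module.End ℂ_[2] (Py n) := (sh a).toLinearMap - 1

/-- the product of the difference operators of the vertices -/
def dp {q : ℕ} (m : ℕ) (t : Fin q → Fin n → ℂ_[2]) : Module.End ℂ_[2] (Py n) :=
  (List.ofFn fun j => df ((2 : ℂ_[2]) ^ m • t j)).prod

/-- the logarithm -/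
def lg (x : ℂ_[2]) : ℂ_[2] := limUnder atTop fun a : ℕ => (x ^ 2 ^ a - 1) / 2 ^ a

end fn

/-- row LG -/
def LG : Prop := ∀ x : ℂ_[2], ‖x - 1‖ ≤ 1 / 4 →
  Tendsto (fun a : ℕ => (x ^ 2 ^ a - 1) / 2 ^ a) atTop (𝓝 (lg x)) ∧
  (∀ a : ℕ, ‖x ^ 2 ^ a - 1‖ ≤ ‖x - 1‖ * (1 / 2) ^ a) ∧ ‖lg x - (x - 1)‖ ≤ 2 * ‖x - 1‖ ^ 2 ∧
  ∀ y : ℂ_[2], ‖y - 1‖ ≤ 1 / 4 → lg (x * y) = lg x + lg y

/-- what the series block exports -/
structure Pz {n : ℕ} (m : ℕ) (C0 : ℝ) (Ps : (Fin n → Fin n → ℂ_[2]) → Fn n → Dn)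
    (κ : (Fin n → Fin n → ℂ_[2]) → ℂ_[2]) (iv : Fn n → ℂ_[2]) : Prop where
  add : ∀ t ν ν' C C', (∀ j, Nr m (t j)) → Bn m C ν → Bn m C' ν' →
    Ps t (ν + ν') = Ps t ν + Ps t ν'
  smul : ∀ t ν C (a : ℂ_[2]), (∀ j, Nr m (t j)) → Bn m C ν → Ps t (a • ν) = a • Ps t ν
  coc : ∀ (t : Fin (n + 1) → Fin n → ℂ_[2]) (ν : Fin (n + 1) → Fn n) (C : ℝ), (∀ j, Nr m (t j)) →
    (∀ i, Bn m C (ν i)) →
    ∑ i : Fin (n + 1), (-1 : ℤ) ^ (i : ℕ) • ν i ∘ₗ df ((2 : ℂ_[2]) ^ m • t i) = 0 →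
    ∑ i : Fin (n + 1), (-1 : ℤ) ^ (i : ℕ) • Ps (fun j => t (i.succAbove j)) (ν i) = 0
  eqv : ∀ t ν C e, (∀ j, Nr m (t j)) → Bn m C ν → Nr m e →
    Ps (fun j => e * t j) ((∏ i, e i) • ν ∘ₗ (dl e).toLinearMap) =
      (1 - TrivSqZeroExt.inr (∑ i, lg (e i))) * Ps t ν
  res : ∀ t ν C, (∀ j, Nr m (t j)) → Bn m C ν → (Ps t ν).fst = ν 1 * κ t
  bd : ∀ t ν C, (∀ j, Nr m (t j)) → Bn m C ν → ‖(Ps t ν).snd‖ ≤ C0 * C
  hon : ∀ t μ C, (∀ j, Nr m (t j)) → Bn m C μ → Ps t (μ ∘ₗ dp m t) = TrivSqZeroExt.inr (iv μ)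
  mom : ∀ μ C (k : ℕ), Bn m C μ → 0 < k →
    ‖μ (∏ i, MvPolynomial.X i ^ (k - 1)) - iv μ‖ ≤ ‖(k : ℂ_[2])‖ * C
  kin : ∀ t e, (∀ j, Nr m (t j)) → Nr m e → κ (fun j => e * t j) * ∏ i, e i = κ t

/-- the residue on the cycle is the regulator -/
def Om {p : ℕ} (m : ℕ) (κ : (Fin (p + 1) → Fin (p + 1) → ℂ_[2]) → ℂ_[2]) : Prop :=
  ∃ η : ℂ_[2], ‖η‖ = 1 ∧ ∀ (G : Type) [CommGroup G] (s : G →* (Fin (p + 1) → ℂ_[2]))
    (e : Fin p → G), (∀ g, Nr m (s g)) →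
    ((p : ℂ_[2]) + 1) * 2 ^ (m * (p + 1)) * co (fun a : Fin (p + 1) → G =>
      (Matrix.of fun j => s (a j)).det * κ fun j => s (a j)) (cyc (List.ofFn e)) =
    η * (Matrix.of (Fin.cons 1 fun j i => lg (s (e j) i) :
      Fin (p + 1) → Fin (p + 1) → ℂ_[2])).det

/-- **export of the series block** -/
def PS : Prop := ∀ p m : ℕ, 7 ≤ m → ∃ (C0 : ℝ) (Ps : _) (κ : _) (iv : Fn (p + 1) → ℂ_[2]),
  Pz m C0 Ps κ iv ∧ Om m κ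

/-! ### series -/

section ser

open MvPowerSeries

abbrev Tt (p : ℕ) : Type := MvPowerSeries (Fin p) ℂ_[2]

abbrev Qs (p : ℕ) : Type := PowerSeries (Tt p)

variable {p : ℕ}

/-- barycentric coordinates -/
def uu : Fin (p + 1) → Tt p := Fin.cons (1 - ∑ i, C 8⁻¹ * X i) fun i => C 8⁻¹ * X i

/-- the linear form of a vector -/
def lu (η : Fin (p + 1) → ℂ_[2]) : Tt p := ∑ i, C (η i) * uu i

/-- the radial variable -/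
def sg : Qs p := PowerSeries.C (C 8⁻¹) * PowerSeries.X

/-- `exp (- sg * lu η)` -/
def Ex (η : Fin (p + 1) → ℂ_[2]) : Qs p :=
  PowerSeries.rescale (-(C 8⁻¹ * lu η)) (PowerSeries.exp (Tt p))

/-- `(Ex η - 1) / sg` -/
def Wf (η : Fin (p + 1) → ℂ_[2]) : Qs p := PowerSeries.mk fun d =>
  -lu η * (-(C 8⁻¹ * lu η)) ^ d * C (((d + 1).factorial : ℂ_[2])⁻¹)

/-- coefficients -/
def cf (F : Qs p) (x : ℕ × (Fin p →₀ ℕ)) : ℂ_[2] := coeff x.2 (PowerSeries.coeff x.1 F)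

/-- bounded series -/
def Bd (C : ℝ) (F : Qs p) : Prop := ∀ x, ‖cf F x‖ ≤ C

/-- the value of the functional on a monomial -/
def wt (p : ℕ) (x : ℕ × (Fin p →₀ ℕ)) : Dn :=
  ((8 : ℂ_[2]) ^ (x.1 + ∑ i, x.2 i) / (p + 1)) •
    ((∏ i, ∏ j ∈ range (x.2 i), ((j : Dn) + 1 + DualNumber.eps)) *
      (∏ j ∈ range x.1, ((j : Dn) + ((p : Dn) + 1) * DualNumber.eps)) *
      ∏ j ∈ range (∑ i, x.2 i + p), ((j : Dn) + 1 + ((p : Dn) + 1) * DualNumber.eps)⁻¹)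

/-- the functional -/
def Lt (F : Qs p) : Dn := ∑' x, cf F x • wt p x

/-- the action of the torus on the barycentric coordinates -/
def se (e : Fin (p + 1) → ℂ_[2]) : Tt p →ₐ[ℂ_[2]] Tt p :=
  substAlgHom (a := fun i => C (e i.succ) * X i * (lu e)⁻¹)
    (hasSubst_of_constantCoeff_zero fun i => by simp)

/-- the action of the torus on the series -/
def Se (e : Fin (p + 1) → ℂ_[2]) : Qs p →+* Qs p :=
  (PowerSeries.rescale (lu e)).comp (PowerSeries.map (se e).toRingHom)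

/-- the automorphy factor -/
def ge (e : Fin (p + 1) → ℂ_[2]) : Qs p := Ex (e - 1) * PowerSeries.C ((lu e)⁻¹ ^ (p + 1))

/-- extension of scalars -/
def nT (ν : Fn (p + 1)) : MvPolynomial (Fin (p + 1)) (Tt p) →ₗ[Tt p] Tt p :=
  (MvPolynomial.basisMonomials _ _).constr (Tt p) fun b => C (ν (MvPolynomial.monomial b 1))

/-- the Laplace transform -/
def Gm (ν : Fn (p + 1)) : Qs p := PowerSeries.mk fun d => nT ν (PowerSeries.coeff d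
  (PowerSeries.rescale (-∑ i, MvPolynomial.C (C 8⁻¹ * uu i) * (MvPolynomial.X i - 1))
    (PowerSeries.exp (MvPolynomial (Fin (p + 1)) (Tt p)))))

/-- the regularised integral -/
def Ps (m : ℕ) (t : Fin (p + 1) → Fin (p + 1) → ℂ_[2]) (ν : Fn (p + 1)) : Dn :=
  Lt (Gm ν * ∏ j, Ring.inverse (Wf ((2 : ℂ_[2]) ^ m • t j)))

/-- the residue -/
def kp (t : Fin (p + 1) → Fin (p + 1) → ℂ_[2]) : ℂ_[2] :=
  (Lt (PowerSeries.C (∏ j, (lu (t j))⁻¹))).fst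

/-- row S1: bounded series -/
structure S1 (p : ℕ) : Prop where
  mul : ∀ (C C' : ℝ) (F G : Qs p), Bd C F → Bd C' G → Bd (C * C') (F * G)
  unit : ∀ F : Qs p, Bd 1 F → ‖cf F 0‖ = 1 → IsUnit F ∧ Bd 1 (Ring.inverse F)
  lu : ∀ (C : ℝ) (η : Fin (p + 1) → ℂ_[2]), (∀ i, ‖η i‖ ≤ C) → Bd (8 * C) (PowerSeries.C (lu η))
  inv : ∀ t : Fin (p + 1) → ℂ_[2], Nr 3 t → Ld.lu t * (Ld.lu t)⁻¹ = 1 ∧
    Bd 1 (PowerSeries.C (Ld.lu t)) ∧ Bd 1 (PowerSeries.C (Ld.lu t)⁻¹)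
  ex : ∀ η : Fin (p + 1) → ℂ_[2], (∀ i, ‖η i‖ ≤ (1 / 2) ^ 7) → Bd 1 (Ex η)
  exw : ∀ η : Fin (p + 1) → ℂ_[2], Ex η - 1 = sg * Wf η
  exa : ∀ η η' : Fin (p + 1) → ℂ_[2], Ex (η + η') = Ex η * Ex η'
  wf : ∀ (m : ℕ) (t : Fin (p + 1) → ℂ_[2]), 7 ≤ m → Nr m t → IsUnit (Wf ((2 : ℂ_[2]) ^ m • t)) ∧
    Bd (2 ^ m) (Ring.inverse (Wf ((2 : ℂ_[2]) ^ m • t)))
  se : ∀ (e : Fin (p + 1) → ℂ_[2]), Nr 3 e → (∀ η, Ld.lu e * se e (Ld.lu η) = Ld.lu (e * η)) ∧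
    (∀ η, Se e (Ex η) = Ex (e * η)) ∧ ∀ C F, Bd C F → Bd C (Se e F)

/-- row S2: the functional -/
structure S2 (p : ℕ) : Prop where
  has : ∀ (C : ℝ) (F : Qs p), Bd C F → HasSum (fun x => cf F x • wt p x) (Lt F)
  nrm : ∃ C0 : ℝ, 0 ≤ C0 ∧ ∀ (C : ℝ) (F : Qs p), Bd C F → ‖(Lt F).fst‖ ≤ C0 * C ∧
    ‖(Lt F).snd‖ ≤ C0 * C
  dom : ∀ (ι : Type) (C : ℝ) (G : ι → Qs p) (F : Qs p), (∀ i, Bd C (G i)) →
    (∀ x, HasSum (fun i => cf (G i) x) (cf F x)) → HasSum (fun i => Lt (G i)) (Lt F)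
  fst : ∀ (C : ℝ) (F : Qs p), Bd C F →
    (Lt F).fst = (Lt (PowerSeries.C (PowerSeries.coeff 0 F))).fst
  one : (Lt (1 : Qs p)).fst = ((p + 1).factorial : ℂ_[2])⁻¹ ∧
    Lt ((sg : Qs p) ^ (p + 1)) = DualNumber.eps
  kil : ∃ D : Fin (p + 1) → Derivation ℂ_[2] (Qs p) (Qs p), ∀ i,
    D i sg = sg * PowerSeries.C (uu i) ∧
    (∀ η, D i (PowerSeries.C (lu η)) = PowerSeries.C (uu i * (C (η i) - lu η))) ∧
    (∀ η, D i (Ex η) = -(η i • (sg * PowerSeries.C (uu i) * Ex η))) ∧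
    ∀ C F, Bd C F → Lt (D i F) + (1 + DualNumber.eps) * Lt F =
      Lt (sg * PowerSeries.C (uu i) * F) + ((p : Dn) + 1) * Lt (PowerSeries.C (uu i) * F)

/-- row INV: invariance under the torus -/
def INV (p : ℕ) : Prop := ∀ (e : Fin (p + 1) → ℂ_[2]) (C : ℝ) (F : Qs p), Nr 7 e → Bd C F →
  (∏ i, e i) • Lt (ge e * Se e F) = (1 - TrivSqZeroExt.inr (∑ i, lg (e i))) * Lt F

/-- row GAM: the Laplace transform -/
structure GAM (p : ℕ) : Prop where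
  add : ∀ ν ν' : Fn (p + 1), Gm (ν + ν') = Gm ν + Gm ν'
  smul : ∀ (a : ℂ_[2]) (ν : Fn (p + 1)), Gm (a • ν) = a • Gm ν
  bd : ∀ (m : ℕ) (C : ℝ) (ν : Fn (p + 1)), 7 ≤ m → Bn m C ν → Bd C (Gm ν)
  zero : ∀ ν : Fn (p + 1), PowerSeries.coeff 0 (Gm ν) = C (ν 1)
  sh : ∀ (ν : Fn (p + 1)) a, Gm (ν ∘ₗ (sh a).toLinearMap) = Ex a * Gm ν
  dl : ∀ (ν : Fn (p + 1)) e, Nr 3 e → Gm (ν ∘ₗ (dl e).toLinearMap) = Ex (e - 1) * Se e (Gm ν)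

/-- row MOM: honest measures -/
def MOM (p : ℕ) : Prop := ∀ (m : ℕ) (C : ℝ) (μ : Fn (p + 1)) (k : ℕ), 7 ≤ m → Bn m C μ → 0 < k →
  (Lt (sg ^ (p + 1) * Gm μ)).fst = 0 ∧
  ‖μ (∏ i, MvPolynomial.X i ^ (k - 1)) - (Lt (sg ^ (p + 1) * Gm μ)).snd‖ ≤ ‖(k : ℂ_[2])‖ * C

/-- row OM -/
def OM (p : ℕ) : Prop := ∀ m, 7 ≤ m → Om (p := p) m fun t => ((-2 ^ m) ^ (p + 1))⁻¹ * kp t

end ser

end Vale.Agent.P004C.Ld
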