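import Vale.Agent.P004C.Ld.St3

/-!
# P004 C, the leading term: values on the discs
-/

set_option autoImplicit false
set_option linter.unusedSectionVars false

open NumberField Module IsDedekindDomain Finset Filter
open scoped Classical

noncomputable section

namespace Vale.Agent.P004C.Ld

open An As Al.Gx

namespace Vy

theorem ev_sp {V : Type} {n : ℕ} {S : Set V} {Q : ℕ → Ch V → Prop}
    (h : ∀ a : Fin n → V, (∀ j, a j ∈ S) → ∀ᶠ B in atTop, Q B (FreeAbelianGroup.of (List.ofFn a)))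
    (h0 : ∀ B, Q B 0) (ha : ∀ B a b, Q B a → Q B b → Q B (a + b)) (hn : ∀ B a, Q B a → Q B (-a))
    {c : Ch V} (hc : c ∈ sp (Vx S n)) : ∀ᶠ B in atTop, Q B c := by
  refine AddSubgroup.closure_induction (p := fun c _ => ∀ᶠ B in atTop, Q B c) ?_
    (.of_forall h0) (fun a b _ _ x y => (x.and y).mono fun B z => ha B a b z.1 z.2)
    (fun a _ x => x.mono fun B => hn B a) hc
  rintro _ ⟨L, k, rfl⟩
  obtain ⟨a, rfl⟩ := ex_ofFn k.1
  exact h a fun j => k.2 _ (List.mem_ofFn.2 ⟨j, rfl⟩)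

/-- regularised sums of a cocycle with an estimate -/
theorem ev_reg {V X N : Type} [AddCommGroup X] [AddCommGroup N] {n : ℕ} {S : Set V} (Φ : X → ℂ)
    (F : ℕ → X → (Fin n → V) → ℂ) (G : ℕ → (Fin n → V) → N) (P : AddSubgroup (N × ℂ))
    (h : ∀ a : Fin n → V, (∀ j, a j ∈ S) → ∀ᶠ B in atTop, ∃ s,
      Reg (fun x => Φ x * F B x a) s ∧ (G B a, s) ∈ P) {c : Ch V} (hc : c ∈ sp (Vx S n)) {s : ℂ}
    (hs : ∀ᶠ B in atTop, Reg (fun x => Φ x * co (F B x) c) s) :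
    ∀ᶠ B in atTop, (co (G B) c, s) ∈ P := by
  have := ev_sp (Q := fun B c => ∃ s, Reg (fun x => Φ x * co (F B x) c) s ∧ (co (G B) c, s) ∈ P)
    (fun a k => by simpa only [co_ofFn] using h a k)
    (fun B => ⟨0, Reg.zero.congr (fun _ => by simp) rfl, by rw [map_zero]; exact zero_mem P⟩)
    (fun B a b ⟨s, x, y⟩ ⟨s', x', y'⟩ => ⟨s + s', (x.add x').congr
      (fun _ => by rw [map_add, mul_add]) rfl, by rw [map_add]; exact add_mem y y'⟩)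
    (fun B a ⟨s, x, y⟩ => ⟨-s, x.neg.congr (fun _ => by rw [map_neg, mul_neg]) rfl,
      by rw [map_neg]; exact neg_mem y⟩) hc
  exact (this.and hs).mono fun B ⟨⟨s', x, y⟩, z⟩ => z.uniq x ▸ y

/-- a ball as a subgroup -/
def bl {N : Type} [AddCommGroup N] (f : N →+ ℂ_[2]) {r : ℝ} (hr : 0 ≤ r) : AddSubgroup N where
  carrier := {z | ‖f z‖ ≤ r}
  zero_mem' := by simpa using hr
  add_mem' a b := by
    simpa using (IsUltrametricDist.norm_add_le_max _ _).trans (max_le a b)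
  neg_mem' a := by simpa using a

variable {K : Type} [Field K] [NumberField K] {ι : ℂ →+* ℂ_[2]} {J : K →+* ℂ}
  {M : Type} [Field M] [NumberField M] [Algebra K M] {n m : ℕ}

theorem nr {σ : Fin n → M →+* ℂ} (h : Sg J σ) {x : M} (hx : V1 ι J m x) :
    Ld.Nr m (Ms.sv ι σ x) := fun i => by
  obtain ⟨s, a, b⟩ := hx
  have := nm_int (ι.comp (σ i)) b
  simp only [RingHom.comp_apply, map_mul, h.ext, norm_mul, a, one_mul, map_div₀, map_sub, map_one,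
    map_pow, map_ofNat, norm_div, norm_pow, nm_two] at this
  exact (div_le_one (by positivity)).1 this

theorem adm {c P : Pl M} {l : ℕ} {ϖ : Gv M ι J m} (h : Pw ι J n c P l ϖ) (t : M)
    (a : Fin n → Gv M ι J m) :
    ∀ᶠ B : ℕ in atTop, Ms.Adm K c.asIdeal fun j => t * vl (ϖ ^ B * a j) :=
  (h.2.2 (fun j => t * vl (a j)) 1 (Nat.coprime_one_left l)).mono fun B k => .inr fun j => by
    obtain ⟨d, -, x, y⟩ := k j
    refine ⟨d, x, fun i e => (congrArg _ ?_).trans (y i e)⟩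
    simp only [vl, Subgroup.coe_mul, Subgroup.coe_pow, Units.val_mul, Units.val_pow_eq_pow_val]
    ring

theorem bd (g : M → ℤ) (x : M) : ‖ι (g x)‖ ≤ 1 := by
  rw [map_intCast]
  exact IsUltrametricDist.norm_intCast_le_one _ _

theorem cy_sp {r p : ℕ} {w : Fin (r + 1) → Pl M} {π : Fin (r + 1) → Ew w ι J m}
    {h : Fin (r + 1) → ℕ} {u : Fin p → Ew w ι J m} {d : Fin p → ℕ} {Rho : Finset M}
    (hF : Fr w ι J m π h u d Rho) (s : Gv M ι J m) :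
    cy u d s ∈ sp (Vx {a | ∃ e ∈ Uw w ι J m, a = s * inc w ι J m e} (p + 1)) := by
  have := cyc_sp ((Uw w ι J m).map (inc w ι J m)).toSubmonoid
    (L := List.ofFn fun k => inc w ι J m (u k ^ d k)) fun e he => by
      obtain ⟨k, rfl⟩ := List.mem_ofFn.1 he
      exact ⟨_, hF.mem k, rfl⟩
  rw [List.length_ofFn] at this
  exact mp_sp (by rintro _ ⟨e, x, rfl⟩; exact ⟨e, x, rfl⟩) this

end Vy

open Vy

/-- **row VLY** -/
theorem vly (hI : IPW) : VLY := by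
  intro K _ _ ι J Ω hB π τ ψ ω h M _ _ _ p b σ hσ c l hc m r A w Φ φ hm hA π' hh u d Rho D ϖ k hF hD
    hϖ hk
  obtain ⟨η, hη, H⟩ := hI K ι J Ω hB π τ ψ h.toAr M p σ hσ c l hc m r A w Φ φ hm hA π' hh u d Rho D
    ϖ k hF hD hϖ hk
  refine ⟨η, hη, fun C0 Ps κ iv t0 nu I hz ht hL I0 I1 z hz' => ?_⟩
  obtain ⟨hT, s, hG, H⟩ := H t0 I ht.1 I0 I1 z hz'
  obtain ⟨S, hS, H⟩ := H t0 ((ht.2 t0).2 (by rw [div_self ht.1]; exact one_mem (Ov ι J M)))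
  let f : Dn × ℂ →+ ℂ_[2] := (TrivSqZeroExt.sndHom ℂ_[2] ℂ_[2]).toAddMonoidHom.coprod
    ((AddMonoidHom.mulLeft (-nm ι J b σ ω m k t0)).comp ι.toAddMonoidHom)
  let f' : Dn × ℂ →+ ℂ_[2] :=
    (TrivSqZeroExt.fstHom ℂ_[2] ℂ_[2] ℂ_[2]).toAddMonoidHom.comp (AddMonoidHom.fst _ _)
  have mem : ∀ z : Dn × ℂ, z ∈ f'.ker ⊓ bl f (norm_nonneg (k : ℂ_[2])) ↔
      z.1.fst = 0 ∧ ‖z.1.snd - nm ι J b σ ω m k t0 * ι z.2‖ ≤ ‖(k : ℂ_[2])‖ := fun z => by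
    rw [sub_eq_add_neg, ← neg_mul]
    rfl
  refine ⟨S, s, hS, (ev_reg _ _ (fun B t => pz ι σ Ps nu ϖ B t (gz w ι J c l φ I z))
    (f'.ker ⊓ bl f (norm_nonneg (k : ℂ_[2]))) (fun a ha => ?_) (cy_sp hF s) H).mono fun B => (mem _).1⟩
  refine (adm hϖ t0 a).mono fun B hA => ?_
  have hv : ∀ j, V1 ι J m (vl (ϖ ^ B * a j)) := fun j => (ϖ ^ B * a j).2.1
  obtain ⟨μ, h1, h2, h3⟩ := hL.hon _ _ 1 hv hA hT (bd _) (hG B a ha)
  obtain ⟨v, h4, h5⟩ := h3 k (by omega)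
  refine ⟨v, h4, (mem _).2 ?_⟩
  have e : μ (∏ i, MvPolynomial.X i ^ (k - 1)) = nm ι J b σ ω m k t0 * ι v := by
    have n0 : ι (J (Algebra.norm K t0)) ≠ 0 := by
      have := fd K M
      simpa using ht.1
    have o0 : ι ω ≠ 0 := by simpa using h.o0
    rw [nm, div_mul_eq_mul_div, ← h5, eq_div_iff (by simp [n0, o0])]
    ring
  simp only [pz, h2, hz.hon _ μ 1 (fun j => nr hσ (hv j)) h1, TrivSqZeroExt.fst_inr,
    TrivSqZeroExt.snd_inr, true_and]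
  rw [← e, norm_sub_rev]
  simpa using hz.mom μ 1 k h1 (by omega)

theorem Vy.fd_zero {K : Type} [Field K] [NumberField K] {ι : ℂ →+* ℂ_[2]} {J : K →+* ℂ}
    {M : Type} [Field M] [NumberField M] [Algebra K M] (m : ℕ) : Ms.Fd ι J m (0 : M) :=
  fun x _ => by simp

/-- **row VLZ** -/
theorem Vy.vlz0 (hI : IPW) (hA : ADM) (hM : Ms.MSR) : VLZ := by
  intro K _ _ ι J Ω hB π τ ψ ω h M _ _ _ p b hb c l hc m r A w Φ φ hm hX π' hh u d Rho D k hF hD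
    hk I I0 I1 z hz y δ hy hδ
  have rk : finrank K M = p + 1 := by simpa using finrank_eq_card_basis b
  obtain ⟨σ, hσ⟩ := ex_sg J rk
  obtain ⟨ϖ, hϖ⟩ := hA K ι J M (p + 1) rk c (w 0) l m hc
    (fun e => hX.cop 0 (Ideal.mul_mem_left _ _ e)) (by omega)
  obtain ⟨η, hη, H⟩ := hI K ι J Ω hB π τ ψ h.toAr M p σ hσ c l hc m r A w Φ φ hm hX π' hh u d Rho D
    ϖ k hF hD hϖ hk
  obtain ⟨hT, s, hG, H⟩ := H 1 I one_ne_zero I0 I1 z hz
  obtain ⟨S, hS, H⟩ := H y hy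
  have d0 : 0 ≤ δ / √(dv ι J b) :=
    div_nonneg ((norm_nonneg _).trans (hδ y (by rw [sub_self]; exact fd_zero m))) (Real.sqrt_nonneg _)
  let f : ℂ × ℂ →+ ℂ_[2] := ((AddMonoidHom.mulLeft (((k - 1).factorial : ℂ_[2]) ^ (p + 1) /
    (ι ω ^ ((p + 1) * k) * 2 ^ (m * (p + 1))))).comp ι.toAddMonoidHom).comp (AddMonoidHom.snd _ _)
  have mem : ∀ z : ℂ × ℂ, z ∈ bl f d0 ↔ ‖((k - 1).factorial : ℂ_[2]) ^ (p + 1) * ι z.2 /
      (ι ω ^ ((p + 1) * k) * 2 ^ (m * (p + 1)))‖ ≤ δ / √(dv ι J b) := fun z => by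
    rw [← div_mul_eq_mul_div]
    rfl
  obtain ⟨B, k1⟩ := (ev_reg _ _ (fun _ _ => (0 : ℂ)) (bl f d0) (fun a ha =>
    (adm hϖ 1 a).mono fun B hA => by
      obtain ⟨v, h1, h2⟩ := hM K ι J Ω π τ ψ ω h M (p + 1) b hb σ (em_of hσ) c.asIdeal l hc _ _ 1 hT
        hA (hG B a ha) (bd _) m y hy
      refine ⟨v k, h1 k (by omega), (mem _).2 ?_⟩
      simpa using h2 {k} 1 δ (by simp; omega) (by simpa using hδ)) (cy_sp hF s) H).exists
  refine ⟨S, hS, le_of_eq_of_le ?_ ((mem _).1 k1)⟩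
  rcases hη with rfl | rfl <;> simp

end Vale.Agent.P004C.Ld
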