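import Vale.Agent.P004C.Ld.Fin
import Vale.Agent.P004C.Ld.Piy
import Vale.Agent.P004C.Ld.Ser
import Vale.Agent.P004C.Ld.Tau
import Vale.Agent.P004C.Ld.Loc
import Vale.Agent.P004C.Ld.Adm
import Vale.Agent.P004C.Ld.Dsc
import Vale.Agent.P004C.Ld.Pcs
import Vale.Agent.P004C.Ld.Tfb
import Vale.Agent.P004C.Ld.Pga
import Vale.Agent.P004C.Ld.Vly
import Vale.Agent.P004C.Ld.Vlz
import Vale.Agent.P004C.Ld.Ipw
import Vale.Agent.P004C.Ld.Ipm
import Vale.Agent.P004C.Ld.Goo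
import Vale.Agent.P004C.Ld.Frm
import Vale.Agent.P004C.Ld.Sum
import Vale.Agent.P004C.Ld.Cnt
import Vale.Agent.P004C.Ld.Kv
import Vale.Agent.P004C.Ld.Fov
import Vale.Agent.P004C.As.Val
import Vale.Agent.P004C.Ms.All
import Vale.Agent.P004C.Ms.Tfc

/-!
# P004 C, the leading term without hypothesis
-/

namespace Vale.Agent.P004C.Ld

theorem x_ipw : IPW := ipw ipm pcs tfb goo fnd loc

theorem x_piy : PIY := piy ps_all lg_row tau loc fnd adm dsc pcs tfb (pga Ms.emb Ms.tfc tfb)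
  (vly x_ipw)
  Ms.x_lms Ms.emb Ms.dif

/-- **the leading term** -/
theorem lead : LEAD := fin Ms.x_bas Ms.emb Ms.dif x_piy (vlz x_ipw adm Ms.x_msr)
  (sum_row (cnt As.val) kv (fov As.val) pcs fnd) frm (coo lg_row) kv

end Vale.Agent.P004C.Ld
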