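import Vale.Agent.P004C.Ld.St2
import Mathlib.RingTheory.DedekindDomain.Factorization

/-!
# P004 C, the leading term: orders of ideals and of elements
-/

set_option autoImplicit false
set_option linter.unusedSectionVars false

open NumberField IsDedekindDomain Finset Filter FractionalIdeal
open scoped Classical nonZeroDivisors

noncomputable section

namespace Vale.Agent.P004C.Ld.Cn

open As Al.Gx

variable {M : Type} [Field M] [NumberField M] {P : Pl M} {I I' : Ideal (𝓞 M)} {x y : M}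

/-- the order of an ideal -/
def cn (P : Pl M) (I : Ideal (𝓞 M)) : ℤ := count M P (I : FractionalIdeal (𝓞 M)⁰ M)

theorem cn_mul (h : I ≠ ⊥) (h' : I' ≠ ⊥) : cn P (I * I') = cn P I + cn P I' := by
  rw [cn, coeIdeal_mul, count_mul M P (coeIdeal_ne_zero.2 h) (coeIdeal_ne_zero.2 h'), cn, cn]

theorem cn_nn (P : Pl M) (I : Ideal (𝓞 M)) : 0 ≤ cn P I := count_coe_nonneg M P I

theorem cn_ext (h : I ≠ ⊥) (h' : I' ≠ ⊥) (e : ∀ P, cn P I = cn P I') : I = I' :=
  coeIdeal_injective (K := M) (by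
    beta_reduce
    rw [← finprod_heightOneSpectrum_factorization' M (coeIdeal_ne_zero.2 h),
      ← finprod_heightOneSpectrum_factorization' M (coeIdeal_ne_zero.2 h')]
    exact finprod_congr fun P => congrArg _ (e P))

theorem cn_mono (h : I ≠ ⊥) (e : I ≤ I') : cn P I' ≤ cn P I :=
  count_mono M P (coeIdeal_ne_zero.2 h) ((coeIdeal_le_coeIdeal M).2 e)

theorem cn_pow (Q : Pl M) (n : ℕ) : cn P (Q.asIdeal ^ n) = if Q = P then (n : ℤ) else 0 := by
  rw [cn, coeIdeal_pow, count_pow, count_maximal, mul_ite, mul_one, mul_zero]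

theorem prod_ne {κ : Type} (s : Finset κ) (f : κ → Pl M) (e : κ → ℕ) :
    ∏ i ∈ s, (f i).asIdeal ^ e i ≠ ⊥ := prod_ne_zero_iff.2 fun i _ => pow_ne_zero _ (f i).ne_bot

theorem cn_prod {κ : Type} (s : Finset κ) (f : κ → Pl M) (e : κ → ℕ) :
    cn P (∏ i ∈ s, (f i).asIdeal ^ e i) = ∑ i ∈ s, if f i = P then (e i : ℤ) else 0 := by
  induction s using Finset.induction with
  | empty => rw [prod_empty, sum_empty, cn, Ideal.one_eq_top, coeIdeal_top, count_one]
  | insert i s hi ih =>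
    rw [prod_insert hi, sum_insert hi, cn_mul (pow_ne_zero _ (f i).ne_bot) (prod_ne s f e), ih,
      cn_pow]

theorem sp_ne {y : 𝓞 M} (h : y ≠ 0) : Ideal.span {y} ≠ ⊥ := mt Ideal.span_singleton_eq_bot.1 h

theorem cn_span {y : 𝓞 M} (h : y ≠ 0) : cn P (Ideal.span {y}) = od P y := by
  rw [cn, count_coe M P (sp_ne h), od, P.valuation_of_algebraMap, P.intValuation_if_neg h,
    WithZero.log_exp, neg_neg]

theorem le_pow (h : I ≠ ⊥) (n : ℕ) : I ≤ P.asIdeal ^ n ↔ n ≤ cn P I := by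
  rw [cn, count_coe M P h, Nat.cast_le, ← Ideal.dvd_iff_le,
    ← Associates.prime_pow_dvd_iff_le (Associates.mk_ne_zero.2 h) P.associates_irreducible,
    ← Associates.mk_pow, Associates.mk_le_mk_iff_dvd]

theorem cn_zero (h : I ≠ ⊥) : cn P I = 0 ↔ ¬ I ≤ P.asIdeal := by
  have := le_pow (P := P) h 1
  have := cn_nn P I
  rw [pow_one] at *
  rw [‹I ≤ _ ↔ _›]
  omega

theorem val_ne (h : x ≠ 0) : P.valuation M x ≠ 0 := (Valuation.ne_zero_iff _).2 h

theorem od_mul (hx : x ≠ 0) (hy : y ≠ 0) : od P (x * y) = od P x + od P y := by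
  rw [od, map_mul, WithZero.log_mul (val_ne hx) (val_ne hy), neg_add, od, od]

theorem od_inv (x : M) : od P x⁻¹ = -od P x := by rw [od, map_inv₀, WithZero.log_inv, od]

theorem od_div (hx : x ≠ 0) (hy : y ≠ 0) : od P (x / y) = od P x - od P y := by
  rw [div_eq_mul_inv, od_mul hx (inv_ne_zero hy), od_inv, sub_eq_add_neg]

theorem od_nn (h : x ≠ 0) : 0 ≤ od P x ↔ P.valuation M x ≤ 1 := by
  rw [od, neg_nonneg, WithZero.log_le_iff_le_exp (val_ne h), WithZero.exp_zero]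

theorem od_pos (h : x ≠ 0) : 0 < od P x ↔ P.valuation M x < 1 := by
  rw [od, neg_pos, WithZero.log_lt_iff_lt_exp (val_ne h), WithZero.exp_zero]

theorem od_zero (h : x ≠ 0) : od P x = 0 ↔ P.valuation M x = 1 := by
  rw [od, neg_eq_zero, ← WithZero.exp_inj, WithZero.exp_log (val_ne h), WithZero.exp_zero]

theorem coe_ne {y : 𝓞 M} (h : y ≠ 0) : (y : M) ≠ 0 := RingOfIntegers.coe_ne_zero_iff.2 h

theorem le_iff (h : I ≠ ⊥) (hx : x ≠ 0) :
    (∀ y ∈ I, P.valuation M (x * (y : 𝓞 M)) ≤ 1) ↔ 0 ≤ od P x + cn P I := by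
  refine ⟨fun k => ?_, fun k y hy => ?_⟩
  · obtain ⟨y, hy, n⟩ := SetLike.not_le_iff_exists.1 (mt (le_pow (P := P) h ((cn P I).toNat + 1)).1
      (by omega))
    have y0 : y ≠ 0 := fun e => n (e ▸ zero_mem _)
    rw [← Ideal.span_singleton_le_iff_mem, le_pow (sp_ne y0), cn_span y0] at n
    have := (od_nn (mul_ne_zero hx (coe_ne y0))).2 (k y hy)
    have := cn_nn P I
    rw [od_mul hx (coe_ne y0)] at *
    omega
  · rcases eq_or_ne y 0 with rfl | y0
    · simp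
    have := cn_mono (P := P) (sp_ne y0) ((Ideal.span_singleton_le_iff_mem _).2 hy)
    rw [← od_nn (mul_ne_zero hx (coe_ne y0)), od_mul hx (coe_ne y0), ← cn_span y0]
    omega

theorem ex_div (hx : x ≠ 0) : ∃ y z : 𝓞 M, y ≠ 0 ∧ z ≠ 0 ∧ x * z = y := by
  obtain ⟨y, z, hz, e⟩ := IsFractionRing.div_surjective (A := 𝓞 M) x
  have z0 := nonZeroDivisors.ne_zero hz
  exact ⟨y, z, fun k => hx (by rw [← e, k, map_zero, zero_div]), z0, by
    rw [← e]; exact div_mul_cancel₀ _ (coe_ne z0)⟩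

/-- the part of `x I` outside a set of places -/
theorem strip (S : Pl M → Prop) (h : I ≠ ⊥) (hx : x ≠ 0)
    (k : ∀ P, ¬ S P → 0 ≤ od P x + cn P I) :
    ∃ B : Ideal (𝓞 M), B ≠ ⊥ ∧ ∀ P, cn P B = if S P then 0 else od P x + cn P I := by
  obtain ⟨y, z, y0, z0, e⟩ := ex_div hx
  have f : {P : Pl M | ¬ (cn P (Ideal.span {y} * I) = 0 ∧ cn P (Ideal.span {z}) = 0)}.Finite :=
    (finite_factors _).and (finite_factors _)
  refine ⟨_, prod_ne f.toFinset id fun P => if S P then 0 else (od P x + cn P I).toNat,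
    fun P => ?_⟩
  rw [cn_prod]
  simp only [id, sum_ite_eq', Set.Finite.mem_toFinset, Set.mem_ofPred_eq]
  have := k P
  rw [cn_mul (sp_ne y0) h, cn_span y0, cn_span z0, ← e, od_mul hx (coe_ne z0)]
  by_cases a : S P
  · simp [a]
  have := this a
  simp only [a, if_false]
  split_ifs <;> omega

theorem sup_iff (h : I ≠ ⊥) : I ⊔ I' = ⊤ ↔ ∀ P : Pl M, I' ≤ P.asIdeal → cn P I = 0 := by
  refine ⟨fun e P a => (cn_zero h).2 fun b => P.isPrime.ne_top (top_unique (e ▸ sup_le b a)),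
    fun k => by_contra fun n => ?_⟩
  obtain ⟨Q, a, b⟩ := Ideal.exists_le_maximal _ n
  exact (cn_zero h).1 (k ⟨Q, a.isPrime, fun e => h (le_bot_iff.1 (e ▸ le_sup_left.trans b))⟩
    (le_sup_right.trans b)) (le_sup_left.trans b)

theorem sup_pl (h : I ≠ ⊥) : I ⊔ P.asIdeal = ⊤ ↔ cn P I = 0 :=
  (sup_iff h).trans ⟨fun k => k P le_rfl, fun k Q e => by
    rwa [← HeightOneSpectrum.ext (P.isMaximal.eq_of_le Q.isPrime.ne_top e)]⟩

variable {r : ℕ} {w : Fin (r + 1) → Pl M}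

theorem cn_w (hw : Function.Injective w) (e : Fin (r + 1) → ℕ) (i : Fin (r + 1)) :
    cn (w i) (∏ j, (w j).asIdeal ^ e j) = e i := by
  simp only [cn_prod, hw.eq_iff, sum_ite_eq', mem_univ, if_true]

theorem cn_w' (e : Fin (r + 1) → ℕ) (h : ∀ i, P ≠ w i) : cn P (∏ j, (w j).asIdeal ^ e j) = 0 := by
  simp only [cn_prod, fun i => (h i).symm, if_false, sum_const_zero]

/-- the factorisation of an element -/
theorem split (hw : Function.Injective w) {y : 𝓞 M} (y0 : y ≠ 0) : ∃ (B : Ideal (𝓞 M))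
    (e : Fin (r + 1) → ℕ), B ≠ ⊥ ∧ (∀ i, cn (w i) B = 0) ∧ (∀ i, od (w i) y = e i) ∧
    (∀ P, (∀ i, P ≠ w i) → cn P B = od P y) ∧ Ideal.span {y} = B * ∏ i, (w i).asIdeal ^ e i := by
  obtain ⟨B, a, b⟩ := strip (fun P => ∃ i, P = w i) (sp_ne y0) one_ne_zero fun P _ => by
    simpa [od] using cn_nn P _
  have c : ∀ P, (∀ i, P ≠ w i) → cn P B = od P y := fun P h => by
    rw [b, if_neg (not_exists.2 h), cn_span y0]; simp [od]
  have d : ∀ i, od (w i) y = (od (w i) y).toNat := fun i =>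
    (Int.toNat_of_nonneg (cn_span y0 ▸ cn_nn _ _)).symm
  refine ⟨B, _, a, fun i => (b _).trans (if_pos ⟨i, rfl⟩), d, c,
    cn_ext (sp_ne y0) (mul_ne_zero a (prod_ne _ _ _)) fun P => ?_⟩
  rw [cn_mul a (prod_ne _ _ _), cn_span y0]
  by_cases h : ∃ i, P = w i
  · obtain ⟨i, rfl⟩ := h
    rw [cn_w hw, b, if_pos ⟨i, rfl⟩, zero_add, ← d]
  · rw [cn_w' _ (not_exists.1 h), c P (not_exists.1 h), add_zero]

variable {K : Type} [Field K] [NumberField K] {ι : ℂ →+* ℂ_[2]} {J : K →+* ℂ} [Algebra K M] {m : ℕ}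

theorem ev_iff (hw : Function.Injective w) (h : I ≠ ⊥) (h' : I' ≠ ⊥) (hx : x ≠ 0) :
    Ev ι J (fun i => (w i).asIdeal) m I I' x ↔
      V1 ι J m x ∧ ∀ P, (∀ i, P ≠ w i) → cn P I = od P x + cn P I' := by
  refine and_congr_right' ⟨fun ⟨y, z, e, e', y0, z0, a, b⟩ P k => ?_, fun k => ?_⟩
  · have := congrArg (cn P) b
    rw [cn_mul (mul_ne_zero (sp_ne z0) h) (prod_ne _ _ _), cn_mul (sp_ne z0) h,
      cn_mul (mul_ne_zero (sp_ne y0) h') (prod_ne _ _ _), cn_mul (sp_ne y0) h', cn_w' _ k,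
      cn_w' _ k, cn_span y0, cn_span z0, ← a, od_mul hx (coe_ne z0)] at this
    omega
  · obtain ⟨y, z, y0, z0, a⟩ := ex_div hx
    have n := mul_ne_zero (sp_ne z0) h
    have n' := mul_ne_zero (sp_ne y0) h'
    refine ⟨y, z, fun i => (cn (w i) (Ideal.span {y} * I')).toNat,
      fun i => (cn (w i) (Ideal.span {z} * I)).toNat, y0, z0, a,
      cn_ext (mul_ne_zero n (prod_ne _ _ _)) (mul_ne_zero n' (prod_ne _ _ _)) fun P => ?_⟩
    rw [cn_mul n (prod_ne _ _ _), cn_mul n' (prod_ne _ _ _)]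
    by_cases b : ∃ i, P = w i
    · obtain ⟨i, rfl⟩ := b
      rw [cn_w hw, cn_w hw, Int.toNat_of_nonneg (cn_nn _ _), Int.toNat_of_nonneg (cn_nn _ _),
        add_comm]
    · rw [cn_w' _ (not_exists.1 b), cn_w' _ (not_exists.1 b), cn_mul (sp_ne z0) h,
        cn_mul (sp_ne y0) h', cn_span y0, cn_span z0, ← a, od_mul hx (coe_ne z0),
        k P (not_exists.1 b)]
      ring

theorem av_of {Q : Ideal (𝓞 M)} (a : Q.IsPrime)
    (c : Q.comap (algebraMap (𝓞 K) (𝓞 M)) = vv ι J) : ∃ P : Pl M, P.asIdeal = Q ∧ Av ι J Q :=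
  have n : Q ≠ ⊥ := fun e => two_ne_zero (Ideal.mem_bot.1 (e.le
    (map_ofNat (algebraMap (𝓞 K) (𝓞 M)) 2 ▸ c.ge two_vv)))
  ⟨⟨Q, a, n⟩, rfl, a.isMaximal n, fun ⟨_, h1, h2⟩ => not_vv.2 h1 (c.le h2)⟩

theorem two_av (h : Av ι J P.asIdeal) : 2 ∈ P.asIdeal := by_contra fun n =>
  h.2 (pv_two (P.isMaximal.out.2 _ (left_lt_sup.2 (mt (Ideal.span_singleton_le_iff_mem _).1 n))))

/-- integrality above `v` by valuations -/
theorem vi_iff : Vi ι J x ↔ ∀ P : Pl M, Av ι J P.asIdeal → P.valuation M x ≤ 1 := by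
  refine ⟨fun ⟨s, a, b⟩ P h => ?_, fun k => ?_⟩
  · have := P.valuation_le_one (K := M) ⟨_, b⟩
    change P.valuation M (algebraMap (𝓞 K) (𝓞 M) s * x) ≤ 1 at this
    rwa [map_mul, (P.valuation_eq_one_iff_notMem (K := M)).2 fun e => h.2 ⟨s, a, e⟩, one_mul] at this
  · obtain ⟨s, a, b⟩ := pv_of (ι := ι) (J := J) (f := ((Submodule.span (𝓞 M) {1}).comap
      (LinearMap.toSpanSingleton (𝓞 M) M x))) fun Q a b c => by
        obtain ⟨P, rfl, d⟩ := av_of a c
        obtain ⟨n, ⟨e, he⟩, f⟩ := P.exists_primeCompl_mul_eq_of_integer x (k P d)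
        exact he (b (Submodule.mem_span_singleton.2 ⟨n, by
          rw [LinearMap.toSpanSingleton_apply, Algebra.smul_def, Algebra.smul_def, mul_one, ← f,
            mul_comm]⟩))
    obtain ⟨n, c⟩ := Submodule.mem_span_singleton.1 b
    rw [LinearMap.toSpanSingleton_apply, Algebra.smul_def, Algebra.smul_def, mul_one] at c
    exact ⟨s, a, (c ▸ n.isIntegral_coe :)⟩

end Vale.Agent.P004C.Ld.Cn
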