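import Vale.Agent.P004C.Ld.St1

/-!
# P004 C, the leading term: Koszul cochains and cup products
-/

set_option autoImplicit false

open Finset

noncomputable section

namespace Vale.Agent.P004C.Ld.Cu

open An

section alt

variable {G B B' : Type*} [AddCommGroup B] [AddCommGroup B']

/-- the alternating sum over the elements of a list -/
def alt : (G → List G → B) → List G → B
  | _, [] => 0
  | F, x :: L => F x L - alt (fun y L' => F y (x :: L')) L

theorem alt_add (F F' : G → List G → B) (L : List G) :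
    alt (fun x M => F x M + F' x M) L = alt F L + alt F' L := by
  induction L generalizing F F' with
  | nil => simp [alt]
  | cons a L ih =>
    simp only [alt, ih]
    abel

theorem map_alt (φ : B →+ B') (F : G → List G → B) (L : List G) :
    φ (alt F L) = alt (fun x M => φ (F x M)) L := by
  induction L generalizing F with
  | nil => simp [alt]
  | cons a L ih => simp only [alt, ih, map_sub]

theorem alt_neg (F : G → List G → B) (L : List G) : alt (fun x M => -F x M) L = -alt F L :=
  (map_alt (-AddMonoidHom.id B) F L).symm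

theorem alt_sub (F F' : G → List G → B) (L : List G) :
    alt (fun x M => F x M - F' x M) L = alt F L - alt F' L := by
  simp only [sub_eq_add_neg, alt_add, alt_neg]

theorem alt_mem (S : AddSubgroup B) {F : G → List G → B} {L : List G}
    (h : ∀ x ∈ L, ∀ M, M.length + 1 = L.length → F x M ∈ S) : alt F L ∈ S := by
  induction L generalizing F with
  | nil => exact zero_mem _
  | cons a L ih =>
    exact sub_mem (h a (by simp) L rfl) (ih fun x m M e => h x (by simp [m]) _ (by simp [e]))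

theorem alt_zero {F : G → List G → B} {L : List G} (h : ∀ x ∈ L, ∀ M, F x M = 0) : alt F L = 0 :=
  alt_mem ⊥ fun x m M _ => h x m M

theorem alt_alt {H : G → G → List G → B} (h : ∀ x y M, H x y M = H y x M) (L : List G) :
    alt (fun x M => alt (H x) M) L = 0 := by
  induction L generalizing H with
  | nil => rfl
  | cons a L ih =>
    simp only [alt, alt_sub, ih (H := fun y z M => H y z (a :: M)) fun _ _ _ => h _ _ _, sub_zero]
    rw [sub_eq_zero]
    exact congrArg (alt · L) (funext₂ (h a))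

theorem alt_ofFn {n : ℕ} (F : G → List G → B) (a : Fin (n + 1) → G) : alt F (List.ofFn a) =
    ∑ i : Fin (n + 1), (-1 : ℤ) ^ (i : ℕ) • F (a i) (List.ofFn fun j => a (i.succAbove j)) := by
  induction n generalizing F with
  | zero => simp [alt]
  | succ n ih =>
    rw [List.ofFn_succ, alt, ih, Fin.sum_univ_succ (n := n + 1), sub_eq_add_neg, ← sum_neg_distrib]
    simp [pow_succ, List.ofFn_succ]

theorem bd_cyc [CommGroup G] (e : G) (L : List G) :
    bd (cyc (e :: L)) = alt (fun y M => tr y (cyc M) - cyc M) (e :: L) := by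
  induction L generalizing e with
  | nil => simp [cyc, bd_P, alt, ← cn_of, bd_cn]
  | cons a L ih =>
    rw [cyc, bd_P, ih, map_alt]
    conv_rhs => rw [alt]
    simp only [cyc, map_sub, tr_P]

end alt

variable {G R X N : Type} [CommGroup G] [CommRing R] [MulAction G X] [AddCommGroup N]

theorem tw_mul (κ χ : G → R) (x : G) (f g : X → R) :
    tw (κ * χ) x (f * g) = tw κ x f * tw χ x g :=
  funext fun _ => mul_mul_mul_comm _ _ _ _

theorem tw_tw (κ : G → R) (x y : G) (f : X → R) : tw κ x (tw κ y f) = tw κ y (tw κ x f) :=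
  funext fun z => by simp only [tw, smul_smul, mul_comm x⁻¹, mul_left_comm (κ x)]

/-- the twisted action is additive -/
def th (κ : G → R) (x : G) : (X → R) →+ (X → R) :=
  .mk' (tw κ x) fun _ _ => funext fun _ => mul_add _ _ _

/-- cochains -/
abbrev Co (G R X N : Type) [CommRing R] [AddCommGroup N] : Type := List G → (X → R) →+ N

/-- the differential -/
def dd (κ : G → R) (Θ : Co G R X N) : Co G R X N := alt fun x L => (Θ L).comp (th κ x) - Θ L

/-- the cup product -/
def cup (Θ : Co G R X N) (κ : G → R) (c : G → X → R) : Co G R X N :=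
  alt fun x L => (Θ L).comp ((AddMonoidHom.mulRight (c x)).comp (th κ x))

variable (Θ : Co G R X N)

theorem dd_apply (κ : G → R) (M : List G) (f : X → R) :
    dd κ Θ M f = alt (fun x L => Θ L (tw κ x f) - Θ L f) M :=
  map_alt (AddMonoidHom.eval (M := X → R) (N := N) f) _ M

theorem cup_apply (κ : G → R) (c : G → X → R) (M : List G) (f : X → R) :
    cup Θ κ c M f = alt (fun x L => Θ L (tw κ x f * c x)) M :=
  map_alt (AddMonoidHom.eval (M := X → R) (N := N) f) _ M

theorem dd_cup (κ : G → R) {χ : G → R} {c : G → X → R}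
    (h : ∀ x y, c x + tw χ x (c y) = c y + tw χ y (c x)) (M : List G) (f : X → R) :
    dd κ (cup Θ κ c) M f = -cup (dd (κ * χ) Θ) κ c M f := by
  simp only [dd_apply, cup_apply, eq_neg_iff_add_eq_zero, ← alt_sub, ← alt_add]
  refine alt_alt (fun x y L => ?_) M
  have := congrArg (fun g => Θ L (tw κ x (tw κ y f) * g)) (h x y)
  simp only [mul_add, map_add] at this
  simp only [tw_mul, tw_tw κ y x]
  linear_combination (norm := abel) -this

/-- the iterated cup product -/
def T : ∀ {n : ℕ}, (Fin n → G → R) → (Fin n → G → X → R) → (G → R) → Co G R X N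
  | 0, _, _, _ => Θ
  | _ + 1, χ, c, κ => cup (T (Fin.tail χ) (Fin.tail c) (κ * χ 0)) κ (c 0)

/-- products with a stable group of functions -/
theorem st_mul {κ χ : G → R} {A : Set (X → R)} {L : AddSubgroup (X → R)}
    (hA : ∀ f ∈ A, ∀ x, tw κ x f ∈ A) (hL : ∀ x, ∀ f ∈ L, tw χ x f ∈ L) :
    ∀ f ∈ Set.image2 (· * ·) A L, ∀ x, tw (κ * χ) x f ∈ Set.image2 (· * ·) A L := by
  rintro _ ⟨f, a, g, b, rfl⟩ x
  exact ⟨_, hA f a x, _, hL x g b, (tw_mul _ _ _ _ _).symm⟩

/-- **the two iterated cup products are cohomologous** -/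
theorem main {n : ℕ} {χ : Fin n → G → R} {c c' : Fin n → G → X → R} {b : Fin n → X → R}
    {L : Fin n → AddSubgroup (X → R)} (κ : G → R) {A : Set (X → R)}
    (hL : ∀ i x, ∀ f ∈ L i, tw (χ i) x f ∈ L i) (hc : ∀ i x, c i x ∈ L i) (hb : ∀ i, b i ∈ L i)
    (hs : ∀ i x, c i x - c' i x = tw (χ i) x (b i) - b i)
    (hy : ∀ i x y, c i x + tw (χ i) x (c i y) = c i y + tw (χ i) y (c i x))
    (hA : ∀ f ∈ A, ∀ x, tw κ x f ∈ A)
    (h : ∀ f ∈ A, ∀ g : Fin n → X → R, (∀ i, g i ∈ L i) → ∀ M,
      dd (κ * ∏ i, χ i) Θ M (f * ∏ i, g i) = 0) :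
    (∀ f ∈ A, ∀ M, dd κ (T Θ χ c κ) M f = 0) ∧
      ∃ Ξ : Co G R X N, ∀ f ∈ A, ∀ M, T Θ χ c κ M f - T Θ χ c' κ M f = dd κ Ξ M f := by
  induction n generalizing κ A with
  | zero => exact ⟨fun f a M => by simpa [T] using h f a 1 (by simp) M, 0, by
      simp [T, dd_apply, alt_zero]⟩
  | succ n ih =>
    obtain ⟨h1, Ξ, h2⟩ := ih (χ := Fin.tail χ) (c := Fin.tail c) (c' := Fin.tail c') (κ * χ 0)
      (fun i => hL i.succ) (fun i => hc i.succ) (fun i => hb i.succ) (fun i => hs i.succ)
      (fun i => hy i.succ) (st_mul hA (hL 0)) (by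
        rintro _ ⟨f, a, g0, k, rfl⟩ g hg M
        simpa [Fin.prod_univ_succ, mul_assoc, Fin.tail] using
          h f a (Fin.cons g0 g) (Fin.cases k hg) M)
    have e : ∀ x, c' 0 x = c 0 x - (tw (χ 0) x (b 0) - b 0) := fun x => by
      rw [← hs, sub_sub_cancel]
    refine ⟨fun f a M => ?_, -(fun M => (T Θ (Fin.tail χ) (Fin.tail c) (κ * χ 0) M).comp
      (AddMonoidHom.mulRight (b 0))) - cup Ξ κ (c' 0), fun f a M => ?_⟩
    · rw [T, dd_cup _ _ (hy 0), cup_apply, neg_eq_zero]
      exact alt_zero fun x _ M => h1 _ ⟨_, hA f a x, _, hc 0 x, rfl⟩ M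
    · have k1 := h1 _ ⟨f, a, _, hb 0, rfl⟩ M
      have k2 := dd_cup Ξ κ (χ := χ 0) (c := c' 0) (fun x y => by
        have := hy 0 x y
        have t := tw_tw (χ 0) x y (b 0)
        simp only [e, show tw (χ 0) = fun x f => th (χ 0) x f from rfl, map_sub] at this t ⊢
        linear_combination this - t) M f
      have k3 : ∀ x M, dd (κ * χ 0) Ξ M (tw κ x f * c' 0 x) = _ := fun x M => (h2 _ ⟨_, hA f a x, _,
        e x ▸ sub_mem (hc 0 x) (sub_mem (hL 0 x _ (hb 0)) (hb 0)), rfl⟩ M).symm
      rw [cup_apply] at k2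
      simp only [k3] at k2
      simp only [T, dd_apply, cup_apply, alt_sub, alt_neg, Pi.sub_apply, Pi.neg_apply, tw_mul,
        AddMonoidHom.sub_apply, AddMonoidHom.neg_apply, AddMonoidHom.comp_apply,
        AddMonoidHom.mulRight_apply] at k1 k2 ⊢
      have k4 : ∀ x M, T Θ (Fin.tail χ) (Fin.tail c) (κ * χ 0) M (tw κ x f * c' 0 x) = _ :=
        fun x M => by rw [e, mul_sub, mul_sub, map_sub, map_sub]
      simp only [k4, alt_sub] at k2
      linear_combination (norm := abel) k1 + k2

/-- triangular evaluation -/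
theorem tri {n : ℕ} {χ : Fin n → G → R} {c : Fin n → G → X → R} {π : Fin n → G} {M : List G}
    (hy : ∀ i x y, c i x + tw (χ i) x (c i y) = c i y + tw (χ i) y (c i x))
    (h1 : ∀ i j, i < j → c i (π j) = 0) (h2 : ∀ i, ∀ x ∈ M, c i x = 0) {κ : G → R} {f : X → R}
    (hf : ∀ x ∈ List.ofFn π ++ M, tw κ x f = f) :
    T Θ χ c κ (List.ofFn π ++ M) f = Θ M (f * ∏ i, c i (π i)) := by
  induction n generalizing κ f with
  | zero => simp [T]
  | succ n ih =>
    have z : ∀ x ∈ (List.ofFn fun i => π i.succ) ++ M, c 0 x = 0 := fun x m => by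
      obtain m | m := List.mem_append.1 m
      · obtain ⟨j, rfl⟩ := List.mem_ofFn.1 m
        exact h1 _ _ j.succ_pos
      · exact h2 0 x m
    rw [List.ofFn_succ, List.cons_append] at hf ⊢
    rw [T, cup_apply, alt, alt_zero fun x m M => by rw [z x m, mul_zero, map_zero], sub_zero,
      hf _ (by simp), Fin.prod_univ_succ, ← mul_assoc]
    refine ih (fun i => hy i.succ) (fun i j k => h1 _ _ (Fin.succ_lt_succ_iff.2 k))
      (fun i => h2 i.succ) fun x m => ?_
    have := hy 0 x (π 0)
    rw [z x m, zero_add, show tw (χ 0) (π 0) (0 : X → R) = 0 from map_zero (th _ _),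
      add_zero] at this
    rw [tw_mul, hf x (List.mem_cons_of_mem _ m), this]

/-- congruences -/
theorem err (Θ' : Co G R X N) (S : AddSubgroup N) {n p : ℕ} {χ : Fin n → G → R}
    {c : Fin n → G → X → R} {L : Fin n → AddSubgroup (X → R)} (κ : G → R) {A : Set (X → R)}
    (hL : ∀ i x, ∀ f ∈ L i, tw (χ i) x f ∈ L i) (hc : ∀ i x, c i x ∈ L i)
    (hA : ∀ f ∈ A, ∀ x, tw κ x f ∈ A)
    (h : ∀ f ∈ A, ∀ g : Fin n → X → R, (∀ i, g i ∈ L i) → ∀ M, M.length = p →
      Θ M (f * ∏ i, g i) - Θ' M (f * ∏ i, g i) ∈ S) :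
    ∀ f ∈ A, ∀ M, M.length = n + p → T Θ χ c κ M f - T Θ' χ c κ M f ∈ S := by
  induction n generalizing κ A with
  | zero => exact fun f a M e => by simpa [T] using h f a 1 (by simp) M (by omega)
  | succ n ih =>
    intro f a M e
    rw [T, T, cup_apply, cup_apply, ← alt_sub]
    refine alt_mem _ fun x _ M' e' => ih (κ * χ 0) (fun i => hL i.succ) (fun i => hc i.succ)
      (st_mul hA (hL 0)) ?_ _ ⟨_, hA f a x, _, hc 0 x, rfl⟩ _ (by omega)
    rintro _ ⟨f, a, g0, k, rfl⟩ g hg M
    simpa [Fin.prod_univ_succ, mul_assoc] using h f a (Fin.cons g0 g) (Fin.cases k hg) M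

end Vale.Agent.P004C.Ld.Cu
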