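import Vale.Agent.P004C.Ld.Gam

/-!
# P004 C, the leading term: the export of the series block
-/

set_option autoImplicit false

open Finset Filter Topology

noncomputable section

namespace Vale.Agent.P004C.Ld

namespace Pp

open MvPowerSeries Ga

variable {p m : ℕ}

theorem lt_smul (a : ℂ_[2]) (F : Qs p) : Lt (a • F) = a • Lt F := by
  simp only [Lt, cf_smul, mul_smul]
  exact tsum_const_smul'' a

theorem lt_add (h : S2 p) {c c' : ℝ} {F G : Qs p} (hF : Bd c F) (hG : Bd c' G) :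
    Lt (F + G) = Lt F + Lt G := by
  have := ((h.has _ _ hF).add (h.has _ _ hG)).tsum_eq
  rw [← this, Lt]
  simp only [cf_add, add_smul]

theorem lt_sum (h : S2 p) {ι : Type} {c : ℝ} (hc : 0 ≤ c) (s : Finset ι) {F : ι → Qs p}
    (hF : ∀ i, Bd c (F i)) : Lt (∑ i ∈ s, F i) = ∑ i ∈ s, Lt (F i) := by
  classical
  induction s using Finset.induction_on with
  | empty => simpa using lt_smul (p := p) 0 0
  | insert j s hj ih =>
    rw [sum_insert hj, sum_insert hj, lt_add h (hF j) (b_sum hc s fun i _ => hF i), ih]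

theorem sg_cancel {F G : Qs p} (h : sg * F = sg * G) : F = G := by
  have e : ∀ H : Qs p, PowerSeries.C (C 8) * (sg * H) = PowerSeries.X * H := fun H => by
    rw [sg, ← mul_assoc, ← mul_assoc, ← map_mul, ← map_mul, mul_inv_cancel₀ (by norm_num), map_one,
      map_one, one_mul]
  exact PowerSeries.X_mul_cancel (by rw [← e, ← e, h])

theorem inv_eq {R : Type} [CommRing R] {a b : R} (h : a * b = 1) : Ring.inverse a = b :=
  left_inv_eq_right_inv (Ring.inverse_mul_cancel a (IsUnit.of_mul_eq_one b h)) h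

/-- the product of the inverses -/
def W (m : ℕ) (t : Fin (p + 1) → Fin (p + 1) → ℂ_[2]) : Qs p :=
  ∏ j, Ring.inverse (Wf ((2 : ℂ_[2]) ^ m • t j))

theorem ps_eq (t) (ν : Fn (p + 1)) : Ps m t ν = Lt (Gm ν * W m t) := rfl

theorem w_bd (h : S1 p) (hm : 7 ≤ m) {t : Fin (p + 1) → Fin (p + 1) → ℂ_[2]}
    (ht : ∀ j, Nr m (t j)) : Bd ((2 ^ m) ^ (p + 1)) (W m t) := by
  simpa [W] using b_prod h univ fun j _ => (h.wf m (t j) hm (ht j)).2

theorem gm_df (h : S1 p) (g : GAM p) (ν : Fn (p + 1)) (a : Fin (p + 1) → ℂ_[2]) :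
    Gm (ν ∘ₗ df a) = sg * Wf a * Gm ν := by
  have e : ν ∘ₗ df a = ν ∘ₗ (sh a).toLinearMap + (-1 : ℂ_[2]) • ν := by
    refine LinearMap.ext fun q => ?_
    simp [df, sub_eq_add_neg]
  rw [e, g.add, g.smul, g.sh, ← h.exw, neg_one_smul]
  ring

theorem gm_list (h : S1 p) (g : GAM p) (L : List (Fin (p + 1) → ℂ_[2])) (ν : Fn (p + 1)) :
    Gm (ν ∘ₗ (L.map df).prod) = (L.map fun a => sg * Wf a).prod * Gm ν := by
  induction L generalizing ν with
  | nil => simp [Module.End.one_eq_id]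
  | cons a L ih =>
    rw [List.map_cons, List.map_cons, List.prod_cons, List.prod_cons, Module.End.mul_eq_comp,
      ← LinearMap.comp_assoc, ih, gm_df h g]
    ring

/-- the transform as an additive map -/
def gmA (g : GAM p) : Fn (p + 1) →+ Qs p := AddMonoidHom.mk' Gm g.add

theorem wf_mul (h : S1 p) {e : Fin (p + 1) → ℂ_[2]} (he : Nr 3 e) (a : Fin (p + 1) → ℂ_[2]) :
    Wf (e * a) = PowerSeries.C (lu e) * Se e (Wf a) := by
  have e1 : Se e sg = sg * PowerSeries.C (lu e) := by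
    have e2 : ∀ y : Tt p, PowerSeries.rescale (lu e) (PowerSeries.C y) = PowerSeries.C y :=
      fun y => PowerSeries.ext fun d => by
        rw [PowerSeries.coeff_rescale, PowerSeries.coeff_C]
        split_ifs with k <;> simp [k]
    rw [Se, sg, RingHom.comp_apply, map_mul, PowerSeries.map_C, PowerSeries.map_X, map_mul, e2,
      PowerSeries.rescale_X, show (se e).toRingHom (C 8⁻¹) = C 8⁻¹ from (se e).commutes _]
    ring
  refine sg_cancel ?_
  rw [← h.exw, ← (h.se e he).2.1, ← mul_assoc, ← e1, ← map_mul, ← h.exw, map_sub, map_one]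

theorem w_mul (h : S1 p) (hm : 7 ≤ m) {t : Fin (p + 1) → Fin (p + 1) → ℂ_[2]}
    (ht : ∀ j, Nr m (t j)) {e : Fin (p + 1) → ℂ_[2]} (he : Nr m e) :
    W m (fun j => e * t j) = PowerSeries.C ((lu e)⁻¹ ^ (p + 1)) * Se e (W m t) := by
  have h3 := nr_mono he (show 3 ≤ m by omega)
  rw [W, W, map_prod, map_pow, ← Fin.prod_const (p + 1), ← prod_mul_distrib]
  refine prod_congr rfl fun j _ => ?_
  refine inv_eq ?_
  rw [← mul_smul_comm, wf_mul h h3, mul_mul_mul_comm, ← map_mul, ← map_mul, (h.inv e h3).1,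
    Ring.mul_inverse_cancel _ (h.wf m _ hm (ht j)).1, map_one, map_one, one_mul]

theorem w_zero (h : S1 p) (hm : 7 ≤ m) {t : Fin (p + 1) → Fin (p + 1) → ℂ_[2]}
    (ht : ∀ j, Nr m (t j)) : PowerSeries.constantCoeff (W m t) =
      C ((-2 ^ m : ℂ_[2]) ^ (p + 1))⁻¹ * ∏ j, (lu (t j))⁻¹ := by
  rw [W, map_prod, ← inv_pow, map_pow, ← Fin.prod_const (p + 1), ← prod_mul_distrib]
  refine prod_congr rfl fun j _ => ?_
  have e1 := congrArg PowerSeries.constantCoeff
    (Ring.inverse_mul_cancel _ (h.wf m _ hm (ht j)).1)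
  rw [map_mul, map_one] at e1
  refine left_inv_eq_right_inv e1 ?_
  have e2 : PowerSeries.constantCoeff (Wf ((2 : ℂ_[2]) ^ m • t j)) = C (-2 ^ m) * lu (t j) := by
    rw [← PowerSeries.coeff_zero_eq_constantCoeff_apply, Wf, PowerSeries.coeff_mk]
    simp [lu, mul_sum, mul_assoc]
  rw [e2, mul_mul_mul_comm, ← map_mul, (h.inv _ (nr_mono (ht j) (by omega))).1,
    mul_inv_cancel₀ (by simp), map_one, one_mul]

theorem res0 (h : S1 p) (h2 : S2 p) (hm : 7 ≤ m) {t : Fin (p + 1) → Fin (p + 1) → ℂ_[2]}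
    (ht : ∀ j, Nr m (t j)) {c : ℝ} {G : Qs p} (hG : Bd c G) {a : ℂ_[2]}
    (ha : PowerSeries.coeff 0 G = C a) :
    (Lt (G * W m t)).fst = a * (((-2 ^ m) ^ (p + 1))⁻¹ * kp t) := by
  have e : ∀ (b : ℂ_[2]) (y : Tt p), PowerSeries.C (C b * y) = b • (PowerSeries.C y : Qs p) :=
    fun b y => PowerSeries.ext fun d => by
      rw [PowerSeries.coeff_smul, PowerSeries.coeff_C, PowerSeries.coeff_C]
      split_ifs <;> simp [smul_eq_C_mul]
  rw [h2.fst _ _ (h.mul _ _ _ _ hG (w_bd h hm ht)), PowerSeries.coeff_zero_eq_constantCoeff_apply,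
    map_mul, w_zero h hm ht, ← PowerSeries.coeff_zero_eq_constantCoeff_apply, ha, e, e, lt_smul,
    lt_smul, TrivSqZeroExt.fst_smul, TrivSqZeroExt.fst_smul, smul_eq_mul, smul_eq_mul, kp]

theorem ge_mul (h : S1 p) (hm : 7 ≤ m) {t : Fin (p + 1) → Fin (p + 1) → ℂ_[2]}
    (ht : ∀ j, Nr m (t j)) {e : Fin (p + 1) → ℂ_[2]} (he : Nr m e) (G : Qs p) :
    Ex (e - 1) * Se e G * W m (fun j => e * t j) = ge e * Se e (G * W m t) := by
  rw [w_mul h hm ht he, ge, map_mul]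
  ring

theorem pz (h : S1 p) (h2 : S2 p) (hI : INV p) (g : GAM p) (hM : MOM p) (hm : 7 ≤ m) {C0 : ℝ}
    (h0 : ∀ (c : ℝ) (F : Qs p), Bd c F → ‖(Lt F).snd‖ ≤ C0 * c) :
    Pz m (C0 * (2 ^ m) ^ (p + 1)) (Ps m) (fun t => ((-2 ^ m) ^ (p + 1))⁻¹ * kp t)
      fun μ : Fn (p + 1) => (Lt (sg ^ (p + 1) * Gm μ)).snd where
  add t ν ν' c c' ht k k' := by
    rw [ps_eq, g.add, add_mul, lt_add h2 (h.mul _ _ _ _ (g.bd m _ _ hm k) (w_bd h hm ht))
      (h.mul _ _ _ _ (g.bd m _ _ hm k') (w_bd h hm ht)), ps_eq, ps_eq]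
  smul t ν c a _ _ := by rw [ps_eq, g.smul, smul_mul_assoc, lt_smul, ps_eq]
  coc t ν c ht hν e := by
    have e1 : ∑ i : Fin (p + 2), (-1 : ℤ) ^ (i : ℕ) • (Wf ((2 : ℂ_[2]) ^ m • t i) * Gm (ν i)) = 0 := by
      have e2 := congrArg (gmA g) e
      rw [map_sum, map_zero] at e2
      refine sg_cancel ?_
      rw [mul_zero, ← e2, mul_sum]
      refine sum_congr rfl fun i _ => ?_
      rw [map_zsmul, mul_smul_comm, ← mul_assoc, ← gm_df h g]
      rfl
    have e3 : ∑ i : Fin (p + 2), ((-1 : ℂ_[2]) ^ (i : ℕ)) •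
        (Gm (ν i) * W m fun j => t (i.succAbove j)) = 0 := by
      rw [← zero_mul (∏ j, Ring.inverse (Wf ((2 : ℂ_[2]) ^ m • t j))), ← e1, sum_mul]
      refine sum_congr rfl fun i _ => ?_
      rw [← Int.cast_smul_eq_zsmul ℂ_[2], smul_mul_assoc, Fin.prod_univ_succAbove _ i,
        mul_mul_mul_comm, mul_mul_mul_comm, mul_comm (Wf _), mul_assoc (Gm _),
        Ring.mul_inverse_cancel_left _ _ (h.wf m _ hm (ht i)).1]
      simp [W]
    have e4 := congrArg Lt e3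
    rw [lt_sum h2 (c := c * (2 ^ m) ^ (p + 1)) (by have := b_nn (g.bd m _ _ hm (hν 0)); positivity)
      _ fun i => by simpa using b_smul ((-1) ^ (i : ℕ)) (h.mul _ _ _ _ (g.bd m _ _ hm (hν i))
        (w_bd h hm fun j => ht (i.succAbove j))), ← zero_smul ℂ_[2] (0 : Qs p), lt_smul,
      zero_smul] at e4
    rw [← e4]
    refine sum_congr rfl fun i _ => ?_
    rw [lt_smul, ps_eq, ← Int.cast_smul_eq_zsmul ℂ_[2]]
    simp
  eqv t ν c e ht hν he := by
    rw [ps_eq, g.smul, g.dl _ _ (nr_mono he (by omega)), smul_mul_assoc, lt_smul,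
      ge_mul h hm ht he, ps_eq]
    exact hI e _ _ (nr_mono he hm) (h.mul _ _ _ _ (g.bd m _ _ hm hν) (w_bd h hm ht))
  res t ν c ht hν := res0 h h2 hm ht (g.bd m _ _ hm hν) (g.zero ν)
  bd t ν c ht hν :=
    (h0 _ _ (h.mul _ _ _ _ (g.bd m _ _ hm hν) (w_bd h hm ht))).trans (le_of_eq (by ring))
  hon t μ c ht hμ := by
    have e := gm_list h g (List.ofFn fun j => (2 : ℂ_[2]) ^ m • t j) μ
    rw [List.map_ofFn, List.map_ofFn, List.prod_ofFn (f := _ ∘ _)] at e
    have e2 : Gm (μ ∘ₗ dp m t) * W m t = sg ^ (p + 1) * Gm μ := by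
      rw [show Gm (μ ∘ₗ dp m t) = _ from e, mul_right_comm, W, ← prod_mul_distrib,
        ← Fin.prod_const (p + 1)]
      refine congrArg (· * _) (prod_congr rfl fun j _ => ?_)
      exact Ring.mul_inverse_cancel_right _ _ (h.wf m _ hm (ht j)).1
    rw [ps_eq, e2]
    exact TrivSqZeroExt.ext (hM m c μ 1 hm hμ one_pos).1 rfl
  mom μ c k hμ hk := (hM m c μ k hm hμ hk).2
  kin t e ht he := by
    have e1 := congrArg TrivSqZeroExt.fst (hI e _ _ (nr_mono he hm) (w_bd h hm ht))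
    have e2 := ge_mul h hm ht he 1
    rw [map_one, mul_one, one_mul] at e2
    have e3 := res0 h h2 hm ht b_one (a := 1) (by simp)
    rw [one_mul, one_mul] at e3
    rw [← e2, TrivSqZeroExt.fst_smul, res0 h h2 hm (fun j => nr_mul he (ht j))
      (h.ex (e - 1) (nr_mono he hm)) (a := 1) (by simp [Ex]), TrivSqZeroExt.fst_mul, e3] at e1
    simpa [mul_comm] using e1

end Pp

/-- **the series block** -/
theorem ps (h : ∀ p, S1 p ∧ S2 p ∧ INV p ∧ GAM p ∧ MOM p ∧ OM p) : PS := fun p m hm => by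
  obtain ⟨h1, h2, h3, h4, h5, h6⟩ := h p
  obtain ⟨C0, -, h0⟩ := h2.nrm
  exact ⟨_, _, _, _, Pp.pz h1 h2 h3 h4 h5 hm fun c F k => (h0 c F k).2, h6 m hm⟩

end Vale.Agent.P004C.Ld
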