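import Vale.Agent.P004C.Ld.St2
import Vale.Agent.P004C.Al.Gbx

/-!
# P004 C, the leading term: row RHO (residue classes modulo a group of units)
-/

set_option autoImplicit false

open NumberField IsDedekindDomain WithZero
open scoped Classical

noncomputable section

namespace Vale.Agent.P004C.Ld

namespace Rh

variable {M : Type} [Field M] [NumberField M] (P : Pl M)

theorem val_od {x : M} (h : x ≠ 0) : P.valuation M x = exp (-od P x) := by
  rw [od, neg_neg, exp_log ((Valuation.ne_zero_iff _).2 h)]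

theorem val_one {x : M} (h : P.valuation M (x - 1) < 1) : P.valuation M x = 1 :=
  ((P.valuation M).map_eq_of_sub_lt (by rwa [map_one])).trans (map_one _)

/-- the principal units -/
def U1 : Subgroup Mˣ where
  carrier := {x | P.valuation M ((x : M) - 1) < 1}
  one_mem' := by simp
  mul_mem' {x y} a b := by
    change P.valuation M (x * y - 1) < 1
    rw [show (x : M) * y - 1 = x * (y - 1) + (x - 1) by ring]
    exact Valuation.map_add_lt _ (by rwa [map_mul, val_one P a, one_mul]) a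
  inv_mem' {x} a := by
    change P.valuation M ((x⁻¹ : Mˣ) - 1) < 1
    rw [show ((x⁻¹ : Mˣ) : M) - 1 = -((x : M)⁻¹ * (x - 1)) by simp [mul_sub], Valuation.map_neg,
      map_mul, map_inv₀, val_one P a, inv_one, one_mul]
    exact a

theorem ex_F (h : ℕ) : ∃ F : Mˣ → 𝓞 M ⧸ P.asIdeal ^ h, ∀ a b : Mˣ, 0 ≤ od P a → 0 ≤ od P b →
    od P (b : M) < h → F a = F b → a / b ∈ U1 P := by
  have k : ∀ a : Mˣ, ∃ z : 𝓞 M, 0 ≤ od P a → P.valuation M (z - a) ≤ exp (-(h : ℤ)) := fun a => by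
    by_cases e : 0 ≤ od P a
    · obtain ⟨z, hz⟩ := P.exists_valuation_sub_lt_of_integer (x := (a : M))
        (by rw [val_od P a.ne_zero, ← exp_zero, exp_le_exp]; omega)
        (Units.mk0 (exp (-(h : ℤ))) exp_ne_zero)
      exact ⟨z, fun _ => hz.le⟩
    · exact ⟨0, fun e' => absurd e' e⟩
  choose z hz using k
  refine ⟨fun a => Ideal.Quotient.mk _ (z a), fun a b ha hb hh e => ?_⟩
  have e1 := (P.intValuation_le_pow_iff_mem _ h).2 (Ideal.Quotient.eq.1 e)
  rw [← P.valuation_of_algebraMap (K := M)] at e1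
  change P.valuation M (algebraMap (𝓞 M) M _) ≤ _ at e1
  rw [map_sub] at e1
  have e2 : P.valuation M ((a : M) - b) ≤ exp (-(h : ℤ)) := by
    rw [show (a : M) - b = (z a - z b) - (z a - a) + (z b - b) by ring]
    exact Valuation.map_add_le _ (Valuation.map_sub_le _ e1 (hz a ha)) (hz b hb)
  change P.valuation M ((a / b : Mˣ) - 1) < 1
  rw [show ((a / b : Mˣ) : M) - 1 = (a - b) / b by simp [sub_div], map_div₀,
    div_lt_one₀ (zero_lt_iff.2 ((Valuation.ne_zero_iff _).2 b.ne_zero)), val_od P b.ne_zero]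
  exact e2.trans_lt (exp_lt_exp.2 (by omega))

end Rh

open Rh

/-- **row RHO** -/
theorem rho : RHO := by
  intro M _ _ P T _ u U h _ hu hx
  have := Ideal.finiteQuotientOfFreeOfNeBot _ (pow_ne_zero h P.ne_bot)
  obtain ⟨F, hF⟩ := ex_F P h
  obtain ⟨R, h1, h2⟩ := Al.Gx.rep_of (p := fun y : Mˣ => 0 ≤ od P y ∧ od P (y : M) < h)
    (r := fun a b => a / b ∈ U ⊔ U1 P) (fun a => by simp)
    (fun a b e => by simpa using inv_mem e) (fun a b c _ e e' => by simpa using mul_mem e e') F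
    fun a b ha hb e => Subgroup.mem_sup_right (hF a b ha.1 hb.1 hb.2 e)
  have q : ∀ (y b : Mˣ) a, P.valuation M ((u a)⁻¹ • (y : M) / b - 1) < 1 ↔
      (u a)⁻¹ * (y / b) ∈ U1 P := fun y b a => by
    rw [show (u a)⁻¹ • (y : M) / b = ((u a)⁻¹ * (y / b) : Mˣ) by
      simp [Units.smul_def, mul_div_assoc]]
    rfl
  refine ⟨R.image Units.val, fun ρ m => ?_, fun y y0 y1 y2 => ?_⟩
  · obtain ⟨b, hb, rfl⟩ := Finset.mem_image.1 m
    exact ⟨b.ne_zero, h1 b hb⟩
  lift y to Mˣ using y0.isUnit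
  obtain ⟨b, ⟨hb, e⟩, uq⟩ := h2 y ⟨y1, y2⟩
  obtain ⟨x, xU, w, w1, e2⟩ := Subgroup.mem_sup.1 e
  obtain ⟨a, ha, ua⟩ := hx x xU
  have q2 : ∀ a, (u a)⁻¹ * (y / b) ∈ U1 P ↔ (u a)⁻¹ * x ∈ U1 P := fun a => by
    rw [← e2, ← mul_assoc, Subgroup.mul_mem_cancel_right _ w1]
  refine ⟨(b, a), ⟨Finset.mem_image_of_mem _ hb, (q y b a).2 ((q2 a).2 ha)⟩, ?_⟩
  rintro ⟨_, a'⟩ ⟨m, e'⟩
  obtain ⟨b', hb', rfl⟩ := Finset.mem_image.1 m
  have e3 := (q y b' a').1 e'
  obtain rfl := uq b' ⟨hb', by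
    simpa using mul_mem (Subgroup.mem_sup_left (T := U1 P) (hu a')) (Subgroup.mem_sup_right e3)⟩
  rw [ua a' ((q2 a').1 e3)]

end Vale.Agent.P004C.Ld
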