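import Vale.Agent.P004C.Ld.Defs

/-!
# P004 C, the leading term: the algebraic rows
-/

set_option autoImplicit false

open Finset

noncomputable section

namespace Vale.Agent.P004C.Ld

open An

/-- the twisted action on functions -/
def tw {G R X : Type} [Group G] [CommRing R] [MulAction G X] (κ : G → R) (x : G) (f : X → R) :
    X → R := fun y => κ x * f (x⁻¹ • y)

/-- local data at one auxiliary prime -/
structure Lw {G R X : Type} [CommGroup G] [CommRing R] [MulAction G X] (x0 : X) (K : Set R)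
    (χ : G →* R) (c c' : G → X → R) (b : X → R) (L L' : AddSubgroup (X → R)) : Prop where
  le : L' ≤ L
  st : ∀ (κ : G → R) (x : G), κ x ∈ K → (∀ f ∈ L, tw κ x f ∈ L) ∧ ∀ f ∈ L', tw κ x f ∈ L'
  cm : ∀ x, c x ∈ L ∧ c' x ∈ L'
  bm : b ∈ L
  sub : ∀ x, c x - c' x = tw χ x b - b
  sym : ∀ x y, c x + tw χ x (c y) = c y + tw χ y (c x)
  val : ∀ x, c' x x0 = 1 - χ x

/-- row CUP: the cup product with the local cocycles -/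
def CUP : Prop := ∀ (p r : ℕ) (q : Fin (p + 1) ⊕ Fin r ≃ Fin (r + 1) ⊕ Fin p), ∃ s : ℤ,
  (s = 1 ∨ s = -1) ∧ ∀ (G R X N : Type) [CommGroup G] [CommRing R] [MulAction G X]
    [AddCommGroup N] [Module R N] (x0 : X) (K : Submonoid R) (φ : X → R)
    (χ : Fin (r + 1) → G →* R) (c c' : Fin (r + 1) → G → X → R) (b : Fin (r + 1) → X → R)
    (L L' : Fin (r + 1) → AddSubgroup (X → R)) (π : Fin (r + 1) → G) (u : Fin p → G)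
    (Ψ : Ch G →+ (X → R) →+ N) (N0 : AddSubgroup N) (lo : G → Fin (p + 1) → R) (e : R) (n0 : N),
    (∀ g : G, g • x0 = x0) → (∀ (g : G) y, φ (g • y) = φ y) → (∀ i x, χ i x ∈ K) →
    (∀ i, Lw x0 K (χ i) (c i) (c' i) (b i) (L i) (L' i)) →
    (∀ i j, i < j → c i (π j) = 0) → (∀ i j, c i (u j) = 0) →
    (∀ z (g : Fin (r + 1) → X → R), (∀ i, g i ∈ L i) → Ψ (bd z) (φ * ∏ i, g i) = 0 ∧
      ∀ x, Ψ (tr x z) (φ * ∏ i, g i) = Ψ z (tw (fun y => ∏ i, χ i y) x (φ * ∏ i, g i))) →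
    (∀ x, ∏ i, χ i x = 1 - e * ∑ i, lo x i) →
    (∀ (v : Fin p → G) (g : Fin (r + 1) → X → R), (∀ i, g i ∈ L' i) →
      Ψ (cyc (List.ofFn v)) (φ * ∏ i, g i) - ((φ * ∏ i, g i) x0 * (Matrix.of
        (Fin.cons 1 fun j => lo (v j) : Fin (p + 1) → Fin (p + 1) → R)).det) • n0 ∈ N0) →
    Ψ (cyc (List.ofFn u)) (φ * ∏ i, c i (π i)) - (s * (p + 1) * e * φ x0 *
      (Matrix.of fun j j' => Sum.elim (lo (Sum.elim π u (q j))) (fun i : Fin r =>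
        (∏ i' ∈ Iic i, χ i'.castSucc (Sum.elim π u (q j))) *
          (1 - χ i.succ (Sum.elim π u (q j)))) j').det) • n0 ∈ N0

/-- row TRF: transfer to a subgroup of finite index and change of the base vertex -/
def TRF : Prop := ∀ (p : ℕ) (G X R N : Type) [CommGroup G] [MulAction G X] [AddCommGroup R]
  [AddCommGroup N] (Ψ : Ch G →+ (X → R) →+ N) (A : AddSubgroup (X → R)) (u : Fin p → G)
  (d : Fin p → ℕ) (f : X → R) (s : G), (∀ z, ∀ g ∈ A, Ψ (bd z) g = 0) →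
  (∀ j, ∀ g ∈ A, (fun y => g ((u j)⁻¹ • y)) ∈ A ∧
    ∀ z, Ψ (tr (u j) z) g = Ψ z fun y => g ((u j)⁻¹ • y)) → f ∈ A →
  (∀ j y, f (u j ^ d j • y) = f y) →
  Ψ (cyc (List.ofFn u)) (∑ a ∈ Fintype.piFinset fun j => range (d j),
    fun y => f ((∏ j, u j ^ a j)⁻¹ • y)) = Ψ (tr s (cyc (List.ofFn fun j => u j ^ d j))) f

/-- row ADP: adapted bases -/
def ADP : Prop := ∀ (p r : ℕ) (q : Fin (p + 1) ⊕ Fin r ≃ Fin (r + 1) ⊕ Fin p) (E : Type)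
  [CommGroup E] (γ : Fin (p + 1) ⊕ Fin r → E) (o : E → Fin (r + 1) → ℤ) (U : Subgroup E) (d0 : ℕ),
  (∀ x, ∃! a : Fin (p + 1) ⊕ Fin r → ℤ, x = ∏ j, γ j ^ a j) → (∀ x y, o (x * y) = o x + o y) →
  (∀ i, ∃ (x : E) (N : ℤ), N ≠ 0 ∧ o x = Pi.single i N) → (∀ x ∈ U, o x = 0) → 0 < d0 →
  (∀ x, o x = 0 → x ^ d0 ∈ U) →
  ∃ (π : Fin (r + 1) → E) (h : Fin (r + 1) → ℕ) (u : Fin p → E) (d : Fin p → ℕ)
    (P : Matrix (Fin (p + 1) ⊕ Fin r) (Fin (p + 1) ⊕ Fin r) ℤ),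
    (∀ i, 0 < h i ∧ o (π i) i = h i ∧ ∀ j, i < j → o (π j) i = 0) ∧ (∀ j, 0 < d j ∧ o (u j) = 0) ∧
    (∀ x ∈ U, ∃! a : Fin p → ℤ, x = ∏ j, (u j ^ d j) ^ a j) ∧ (∀ j, u j ^ d j ∈ U) ∧
    (∀ x, o x = 0 → ∃! a : Fin p → ℕ, (∀ j, a j < d j) ∧ (∏ j, u j ^ a j)⁻¹ * x ∈ U) ∧
    (∀ v : Fin (r + 1) → ℤ, (∃ x, ∀ i, 0 ≤ (v + o x) i ∧ (v + o x) i < h i) ∧ ∀ x,
      (∀ i, 0 ≤ v i ∧ v i < h i) → (∀ i, 0 ≤ (v + o x) i ∧ (v + o x) i < h i) → o x = 0) ∧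
    (P.det = 1 ∨ P.det = -1) ∧ ∀ j, Sum.elim π u (q j) = ∏ i, γ i ^ P j i

/-- row EXT: extension of scalars for functionals on functions -/
def EXT : Prop := ∀ (X R : Type) [CommRing R] [Algebra ℚ R] (A : AddSubgroup (X → ℤ))
  (ψ : (X → ℤ) → R), (∀ f ∈ A, ∀ g ∈ A, ψ (f + g) = ψ f + ψ g) →
  ∃ Ψ : (X → R) →+ R, ∀ g ∈ A, ∀ a : R, Ψ (fun x => a * g x) = a * ψ g

/-- the group ring -/
abbrev Gr (A : ℕ) : Type := AddMonoidAlgebra ℂ_[2] (ZMod (2 ^ A))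

/-- group elements -/
def gr {A : ℕ} (g : ZMod (2 ^ A)) : Gr A := AddMonoidAlgebra.single g 1

/-- row TAU: coefficients of `T ^ i` -/
def TAU : Prop := ∀ A : ℕ, ∃ (S0 : Subring (Gr A)) (J : Ideal S0) (τ : ℕ → Gr A →ₗ[ℂ_[2]] ℂ_[2]),
  (∀ i g, τ i (gr g) = (g.val.choose i : ℂ_[2])) ∧ (∀ a : ℂ_[2], ‖a‖ ≤ 1 → algebraMap _ _ a ∈ S0) ∧
  (∀ g, ∃ h : gr g ∈ S0, (⟨gr g, h⟩ : S0) - 1 ∈ J) ∧
  (∀ (i j : ℕ) (z : S0), i < j → z ∈ J ^ j → ‖τ i z‖ ≤ 2 ^ i * (1 / 2) ^ A) ∧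
  ∀ (n r : ℕ) (x : Fin n ⊕ Fin r → Fin n → ℂ_[2]) (g f : Fin n ⊕ Fin r → Fin r → ZMod (2 ^ A))
    (g0 : ZMod (2 ^ A)) (i : ℕ), (∀ j k, ‖x j k‖ ≤ 1) → i ≤ r →
    ‖τ i (gr g0 * (Matrix.of fun j j' => Sum.elim (fun k => algebraMap _ _ (x j k))
        (fun k => gr (g j k) * (1 - gr (-f j k))) j').det) -
      if i = r then (Matrix.of fun j j' => Sum.elim (x j) (fun k => ((f j k).val : ℂ_[2])) j').det
      else 0‖ ≤ 2 ^ r * (1 / 2) ^ A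

end Vale.Agent.P004C.Ld
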