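import Vale.Agent.P004C.Ld.Rho
import Vale.Agent.P004C.As.Emb
import Vale.Agent.P004C.Ms.St

/-!
# P004 C, the leading term: the rows of the assembly
-/

set_option autoImplicit false
set_option linter.unusedSectionVars false

open NumberField Module IsDedekindDomain Finset Filter
open scoped Classical

noncomputable section

namespace Vale.Agent.P004C.Ld

open An As

/-! ### the abstract descent -/

/-- combinations of integral functions with coefficients in `T` -/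
def Lx {X R : Type} [CommRing R] (S : Set (X → ℤ)) (T : Set R) : AddSubgroup (X → R) :=
  .closure {f | ∃ a ∈ T, ∃ g, g ∈ S ∧ f = fun x => a * g x}

/-- germs of regularised cocycles -/
structure Pg {E G X : Type} [CommGroup E] [CommGroup G] [MulAction E X] {n : ℕ} (j : E →* G)
    (x0 : X) (T : AddSubgroup (X → ℤ)) (l : E → ℂ_[2]) (om : (Fin n → G) → ℂ_[2]) (C : ℝ)
    (ψ : ℕ → (Fin n → G) → (X → ℤ) → Dn) : Prop where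
  st : ∀ e : E, ∀ g ∈ T, (fun y => g (e • y)) ∈ T
  add : ∀ t, ∀ f ∈ T, ∀ g ∈ T, ∀ᶠ B in atTop, ψ B t (f + g) = ψ B t f + ψ B t g
  eqv : ∀ t (e : E), ∀ g ∈ T, ∀ᶠ B in atTop, ψ B (fun i => j e * t i) g =
    (1 - TrivSqZeroExt.inr (l e)) * ψ B t fun y => g (e⁻¹ • y)
  coc : ∀ t : Fin (n + 1) → G, ∀ g ∈ T, ∀ᶠ B in atTop,
    ∑ i : Fin (n + 1), (-1 : ℤ) ^ (i : ℕ) • ψ B (fun k => t (i.succAbove k)) g = 0
  res : ∀ t, ∀ g ∈ T, ∀ᶠ B in atTop, (ψ B t g).fst = g x0 * om t ∧ ‖(ψ B t g).snd‖ ≤ C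

/-- row DSC: the descent -/
def DSC : Prop := ∀ (p r : ℕ) (q : Fin (p + 1) ⊕ Fin r ≃ Fin (r + 1) ⊕ Fin p), ∃ s : ℤ,
  (s = 1 ∨ s = -1) ∧ ∀ (A : ℕ) (S0 : Subring (Gr A)) (J : Ideal S0) (τ : Gr A →ₗ[ℂ_[2]] ℂ_[2])
    (E G X : Type) [CommGroup E] [CommGroup G] [MulAction E X] [MulAction G X] (j : E →* G) (x0 : X)
    (T : AddSubgroup (X → ℤ)) (lo : E → Fin (p + 1) → ℂ_[2]) (om : (Fin (p + 1) → G) → ℂ_[2])
    (n0 : ℂ_[2]) (C δ : ℝ) (ψ : ℕ → (Fin (p + 1) → G) → (X → ℤ) → Dn) (φ : X → ℤ)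
    (S : Fin (r + 1) → Set (X → ℤ)) (χ : Fin (r + 1) → E →* DualNumber (Gr A))
    (c c' : Fin (r + 1) → E → X → DualNumber (Gr A)) (b : Fin (r + 1) → X → DualNumber (Gr A))
    (π : Fin (r + 1) → E) (u : Fin p → E) (d : Fin p → ℕ) (Q : Type) (F : Finset Q)
    (a : Q → DualNumber (Gr A)) (g : Q → X → ℤ) (s' : Q → G) (V : Q → ℂ_[2]),
    Pg j x0 T (fun e => ∑ i, lo e i) om C ψ → (∀ (e : E) (y : X), j e • y = e • y) →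
    (∀ e : E, e • x0 = x0) → (∀ (e : E) y, φ (e • y) = φ y) →
    (∀ v : Fin p → E, co om (cyc (List.ofFn fun k => j (v k))) = n0 * (Matrix.of
      (Fin.cons 1 fun k => lo (v k) : Fin (p + 1) → Fin (p + 1) → ℂ_[2])).det) →
    (∀ f : Fin (r + 1) → X → ℤ, (∀ i, f i ∈ S i) → φ * ∏ i, f i ∈ T) →
    (∀ i x, (χ i x).fst ∈ S0) →
    (∀ i, Lw x0 {z | z.fst ∈ S0} (χ i) (c i) (c' i) (b i) (Lx (S i) Set.univ)
      (Lx (S i) {z | ∃ y ∈ J, z.fst = (y : S0)})) →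
    (∀ i k, i < k → c i (π k) = 0) → (∀ i k, c i (u k) = 0) →
    (∀ x, ∏ i, χ i x = 1 - TrivSqZeroExt.inr (algebraMap ℂ_[2] (Gr A) (∑ i, lo x i))) →
    (∀ k, ∑ i, lo (u k) i = 0) → 0 ≤ δ → (∀ z : S0, z ∈ J ^ (r + 1) → ‖τ z‖ * C ≤ δ) →
    (∀ y, φ y * ∏ i, c i (π i) y = ∑ z ∈ F, a z *
      ∑ e ∈ Fintype.piFinset fun k => range (d k), (g z ((∏ k, u k ^ e k)⁻¹ • y) : ℤ)) →
    (∀ z ∈ F, g z ∈ T ∧ (∀ k y, g z (u k ^ d k • y) = g z y) ∧ ‖τ (a z).fst‖ ≤ 1 ∧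
      ∀ᶠ B in atTop, (co (fun t => ψ B t (g z))
          (tr (s' z) (cyc (List.ofFn fun k => j (u k ^ d k))))).fst = 0 ∧
        ‖(co (fun t => ψ B t (g z))
          (tr (s' z) (cyc (List.ofFn fun k => j (u k ^ d k))))).snd - V z‖ ≤ δ) →
    ‖∑ z ∈ F, τ (a z).fst * V z - s * (p + 1) * n0 * φ x0 * τ (Matrix.of fun k k' => Sum.elim
      (fun i => algebraMap ℂ_[2] (Gr A) (lo (Sum.elim π u (q k)) i)) (fun i : Fin r =>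
        (∏ i' ∈ Iic i, (χ i'.castSucc (Sum.elim π u (q k))).fst) *
          (1 - (χ i.succ (Sum.elim π u (q k))).fst)) k').det‖ ≤ δ

/-! ### number field words -/

section

variable {M : Type} [Field M] [NumberField M]

theorem od_mul (P : Pl M) {x y : M} (hx : x ≠ 0) (hy : y ≠ 0) : od P (x * y) = od P x + od P y := by
  rw [od, od, od, map_mul, WithZero.log_mul ((Valuation.ne_zero_iff _).2 hx)
    ((Valuation.ne_zero_iff _).2 hy), neg_add]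

theorem od_inv (P : Pl M) (x : M) : od P x⁻¹ = -od P x := by
  rw [od, od, map_inv₀, WithZero.log_inv]

theorem od_one (P : Pl M) : od P 1 = 0 := by simp [od]

variable {r : ℕ} (w : Fin (r + 1) → Pl M)

/-- jointly locally constant with compact support at `w` -/
def Aw (G : M → ℤ) : Prop := ∃ N : ℕ,
  (∀ x, G x ≠ 0 → ∀ i, (w i).valuation M x ≤ WithZero.exp (N : ℤ)) ∧
  ∀ x z, (∀ i, (w i).valuation M z ≤ WithZero.exp (-N : ℤ)) → G (x + z) = G x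

/-- the labels of the pieces: orders, value of the character, residue class -/
abbrev Pc (M : Type) (r A : ℕ) : Type := (Fin (r + 1) → ℕ) × ZMod (2 ^ A) × M

/-- a piece -/
def pc {A : ℕ} (φ : Fin (r + 1) → M → ZMod (2 ^ A)) (z : Pc M r A) (x : M) : ℤ :=
  if x ≠ 0 ∧ (∀ i, od (w i) x = z.1 i) ∧ ∑ i, φ i x = z.2.1 ∧
    (w 0).valuation M (x / z.2.2 - 1) < 1 then 1 else 0

/-- the labels which occur -/
def ix (A : ℕ) (h : Fin (r + 1) → ℕ) (Rho : Finset M) : Finset (Pc M r A) :=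
  (Fintype.piFinset fun i => range (h i)) ×ˢ univ ×ˢ Rho

/-- the box -/
def Bx (h : Fin (r + 1) → ℕ) (x : M) : Prop := x ≠ 0 ∧ ∀ i, 0 ≤ od (w i) x ∧ od (w i) x < h i

variable {K : Type} [Field K] [NumberField K] (ι : ℂ →+* ℂ_[2]) (J : K →+* ℂ) [Algebra K M]

/-- the smoothed piece -/
def gz (c : Pl M) (l : ℕ) {A : ℕ} (φ : Fin (r + 1) → M → ZMod (2 ^ A)) (I : Ideal (𝓞 M))
    (z : Pc M r A) (x : M) : ℤ := bs w ι J c l I x * pc w φ z x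

/-- the units which are `1` modulo `v ^ m` and `w 0` -/
def Uw (m : ℕ) : Subgroup (Ew w ι J m) where
  carrier := {x | (∀ i, od (w i) ((x : Mˣ) : M) = 0) ∧ (x : Mˣ) ∈ Rh.U1 (w 0)}
  one_mem' := ⟨fun _ => od_one _, one_mem _⟩
  mul_mem' {x y} a b := ⟨fun i => (od_mul _ (x : Mˣ).ne_zero (y : Mˣ).ne_zero).trans
    (by rw [a.1, b.1, add_zero]), mul_mem a.2 b.2⟩
  inv_mem' {x} a := ⟨fun i => by
    rw [Subgroup.coe_inv, Units.val_inv_eq_inv_val, od_inv, a.1, neg_zero], inv_mem a.2⟩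

/-- the inclusion -/
def inc (m : ℕ) : Ew w ι J m →* Gv M ι J m := Subgroup.inclusion fun _ h => h.1

/-- representatives modulo `Uw` -/
def Dm (m : ℕ) (D : Set M) : Prop :=
  0 ∉ D ∧ ∀ x : M, x ≠ 0 → ∃! e : Ew w ι J m, e ∈ Uw w ι J m ∧ (e : Mˣ) * x ∈ D

/-- a frame -/
structure Fr (m : ℕ) {p : ℕ} (π : Fin (r + 1) → Ew w ι J m) (h : Fin (r + 1) → ℕ)
    (u : Fin p → Ew w ι J m) (d : Fin p → ℕ) (Rho : Finset M) : Prop where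
  pi : ∀ i, od (w i) ((π i : Mˣ) : M) = h i ∧ ∀ j, i < j → od (w i) ((π j : Mˣ) : M) = 0
  uu : ∀ j i, od (w i) ((u j : Mˣ) : M) = 0
  pos : ∀ j, 0 < d j
  mem : ∀ j, u j ^ d j ∈ Uw w ι J m
  bas : ∀ x ∈ Uw w ι J m, ∃! a : Fin p → ℤ, x = ∏ j, (u j ^ d j) ^ a j
  ne : ∀ ρ ∈ Rho, ρ ≠ 0
  rho : ∀ y : M, y ≠ 0 → 0 ≤ od (w 0) y → od (w 0) y < h 0 → ∃! z : M × (Fin p → ℕ),
    (z.1 ∈ Rho ∧ ∀ j, z.2 j < d j) ∧ (w 0).valuation M ((∏ j, u j ^ z.2 j)⁻¹ • y / z.1 - 1) < 1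
  dom : ∀ D, Dm w ι J m D → ∀ x : M, x ≠ 0 → ∃! e : Ew w ι J m, (e : Mˣ) • x ∈
    {y ∈ D | Bx w h y ∧ ∃ ρ ∈ Rho, (w 0).valuation M (y / ρ - 1) < 1}

variable {ι J} in
/-- the value of a vertex -/
abbrev vl {m : ℕ} (x : Gv M ι J m) : M := (x : Mˣ)

/-- the output of ADM -/
def Pw (n : ℕ) (c P : Pl M) (l : ℕ) {m : ℕ} (ϖ : Gv M ι J m) : Prop :=
  P.valuation M (vl ϖ - 1) < 1 ∧ (∀ Q : Pl M, Q ≠ c → Q.valuation M (vl ϖ) = 1) ∧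
    ∀ (a : Fin n → M) (N : ℕ), N.Coprime l → ∀ᶠ B : ℕ in atTop, ∀ j, ∃ d : 𝓞 M,
      (N : 𝓞 M) ∣ d ∧ d ∉ c.asIdeal ∧ ∀ i, i ≠ j → Algebra.trace K M (vl ϖ ^ B * a i * d) = 0

variable {J} in
/-- the regularised cocycle -/
def pz {n m : ℕ} (σ : Fin n → M →+* ℂ) (Ps : (Fin n → Fin n → ℂ_[2]) → Fn n → Dn)
    (nu : (Fin n → M) → (M → ℂ) → Fn n) (ϖ : Gv M ι J m) (B : ℕ) (t : Fin n → Gv M ι J m)
    (g : M → ℤ) : Dn :=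
  Ps (fun j => Ms.sv ι σ (vl (ϖ ^ B * t j))) (nu (fun j => vl (ϖ ^ B * t j)) fun x => g x)

variable {w ι J} in
/-- the translated cycle -/
def cy {m p : ℕ} (u : Fin p → Ew w ι J m) (d : Fin p → ℕ) (s : Gv M ι J m) : Ch (Gv M ι J m) :=
  tr s (cyc (List.ofFn fun k => inc w ι J m (u k ^ d k)))

/-- the normalisation of the values -/
def nm {n : ℕ} (b : Basis (Fin n) K M) (σ : Fin n → M →+* ℂ) (ω : ℂ) (m k : ℕ) (t : M) : ℂ_[2] :=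
  ι (Ms.kp b σ) * ((k - 1).factorial : ℂ_[2]) ^ n /
    (ι (J (Algebra.norm K t)) ^ (k - 1) * 2 ^ (m * n) * ι ω ^ (n * k))

/-- the series of a piece on the disc `y` -/
def Hs (ψ : K → ℂ) (m k : ℕ) (D : Set M) (g : M → ℤ) (y : M) (S : ℂ) : Prop :=
  HasSum (fun x : D => g x * Ms.EE ι J ψ m y x / J (Algebra.norm K (x : M)) ^ k) S

variable {J} in
theorem em_of {n : ℕ} {σ : Fin n → M →+* ℂ} (h : Sg J σ) : Ms.Em J σ :=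
  ⟨h.ext, fun x => (h.both x).2, fun x => (h.both x).1⟩

end

/-- row PCS: bookkeeping of the pieces -/
def PCS : Prop := ∀ (K : Type) [Field K] [NumberField K] (ι : ℂ →+* ℂ_[2]) (J : K →+* ℂ)
  (M : Type) [Field M] [NumberField M] [Algebra K M] (m r A p : ℕ) (w : Fin (r + 1) → Pl M)
  (φ : Fin (r + 1) → M → ZMod (2 ^ A)), (∀ i x y, x ≠ 0 → y ≠ 0 → φ i (x * y) = φ i x + φ i y) →
  (∀ x ∈ Ew w ι J m, ∑ i, φ i (x : Mˣ) = 0) →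
  (∀ (c : Pl M) (l : ℕ) I (e : Ew w ι J m) (y : M), (∀ i, c ≠ w i) →
    bs w ι J c l I (e • y) = bs w ι J c l I y) ∧
  (∀ z, ∀ e ∈ Uw w ι J m, ∀ y : M, pc w φ z (e • y) = pc w φ z y) ∧
  ((∀ i x, (w i).valuation M (x - 1) < 1 → φ i x = 0) → ∀ z, Aw w (pc w φ z)) ∧
  (∀ f : Fin (r + 1) → M → ℤ, (∀ i, At (w i) (f i)) → Aw w (∏ i, f i)) ∧
  ∀ π h (u : Fin p → Ew w ι J m) d Rho, Fr w ι J m π h u d Rho →
    (∀ s, cy u d s ∈ sp (Vx {a | ∃ e ∈ Uw w ι J m, a = s * inc w ι J m e} (p + 1))) ∧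
    ∀ (R : Type) [CommRing R] (F : (Fin (r + 1) → ℕ) → ZMod (2 ^ A) → R) (y : M),
      (∑ z ∈ ix A h Rho, F z.1 z.2.1 * ∑ e ∈ Fintype.piFinset fun k => range (d k),
        (pc w φ z ((∏ k, u k ^ e k)⁻¹ • y) : R) =
        if Bx w h y then F (fun i => (od (w i) y).toNat) (∑ i, φ i y) else 0) ∧
      ∑ z ∈ ix A h Rho, F z.1 z.2.1 * (pc w φ z y : R) =
        if Bx w h y ∧ ∃ ρ ∈ Rho, (w 0).valuation M (y / ρ - 1) < 1 then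
          F (fun i => (od (w i) y).toNat) (∑ i, φ i y) else 0

/-- row FRM: frames exist -/
def FRM : Prop := ∀ (K : Type) [Field K] [NumberField K] (ι : ℂ →+* ℂ_[2]) (J : K →+* ℂ) (Ω : ℝ),
  Base ι J Ω → ∀ (M : Type) [Field M] [NumberField M] [Algebra K M] (p m r A : ℕ) (t : 𝓞 M)
  (w : Fin (r + 1) → Pl M) (Φ : Ideal (𝓞 M) → ZMod (2 ^ A)) (φ : Fin (r + 1) → M → ZMod (2 ^ A))
  (q : Fin (p + 1) ⊕ Fin r ≃ Fin (r + 1) ⊕ Fin p) (γ : Fin (p + 1) ⊕ Fin r → M),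
  finrank K M = p + 1 → 2 ≤ m → 2 ∣ t → Aux t A (fun i => (w i).asIdeal) Φ φ →
  Gb ι J (fun i => (w i).asIdeal) m γ →
  ∃ (π : Fin (r + 1) → Ew w ι J m) (h : Fin (r + 1) → ℕ) (u : Fin p → Ew w ι J m) (d : Fin p → ℕ)
    (Rho : Finset M) (D : Set M) (γ' : Fin (p + 1) ⊕ Fin r → Mˣ)
    (P : Matrix (Fin (p + 1) ⊕ Fin r) (Fin (p + 1) ⊕ Fin r) ℤ), Fr w ι J m π h u d Rho ∧
    Dm w ι J m D ∧ (∀ j, (γ' j : M) = γ j ∧ V1 ι J m (γ j)) ∧ (P.det = 1 ∨ P.det = -1) ∧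
    ∀ j, ((Sum.elim π u (q j) : Ew w ι J m) : Mˣ) = ∏ i, γ' i ^ P j i

/-- row TFB: test functions -/
def TFB : Prop := ∀ (K : Type) [Field K] [NumberField K] (ι : ℂ →+* ℂ_[2]) (J : K →+* ℂ) π τ ψ,
  Ms.Ar ι J π τ ψ → ∀ (M : Type) [Field M] [NumberField M] [Algebra K M] (c : Pl M) (l : ℕ),
  Sm c.asIdeal l → ∀ (r : ℕ) (w : Fin (r + 1) → Pl M), (∀ i, (2 * l : 𝓞 M) ∉ (w i).asIdeal) →
  (∀ (m : ℕ) (e : Ew w ι J m), Ms.Ul l ((e : Mˣ) : M)) ∧ (∀ i, c ≠ w i) ∧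
  ∀ (I : Ideal (𝓞 M)) (G : M → ℤ), I ≠ ⊥ → I ⊔ Ideal.span {(2 * l : 𝓞 M)} = ⊤ → Aw w G →
    Ms.Tf ι π c.asIdeal l fun x => ((bs w ι J c l I x * G x : ℤ) : ℂ)

/-- row GOO: good vertices -/
def GOO : Prop := ∀ (K : Type) [Field K] [NumberField K] (ι : ℂ →+* ℂ_[2]) (J : K →+* ℂ) π τ ψ,
  Ms.Ar ι J π τ ψ → ∀ (M : Type) [Field M] [NumberField M] [Algebra K M] (c : Pl M) (l : ℕ),
  Sm c.asIdeal l → ∀ (r : ℕ) (w : Fin (r + 1) → Pl M), (∀ i, (2 * l : 𝓞 M) ∉ (w i).asIdeal) →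
  ∀ (m : ℕ) (I : Ideal (𝓞 M)) (ρ t : M), 1 ≤ m → I ≠ ⊥ → ρ ≠ 0 → t ≠ 0 → ∃ s : Gv M ι J m,
    ∀ (n : ℕ) (a : Fin n → M) (g : M → ℂ), (∀ j, (w 0).valuation M (a j - 1) < 1 ∧
      ∀ Q : Pl M, Q ≠ c → Q.valuation M (a j) = 1) →
      (∀ x, g x ≠ 0 → Iv w ι J I x ∧ (∀ i, (w i).valuation M x ≤ 1) ∧
        (w 0).valuation M (x / ρ - 1) < 1) → Ms.Good π l (fun j => t * (vl s * a j)) g

/-- row IPM: interpolation in the field -/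
def IPM : Prop := ∀ (K : Type) [Field K] [NumberField K] (ι : ℂ →+* ℂ_[2]) (J : K →+* ℂ) (Ω : ℝ),
  Base ι J Ω → ∀ (M : Type) [Field M] [NumberField M] [Algebra K M] (p : ℕ)
  (σ : Fin (p + 1) → M →+* ℂ), Sg J σ → ∀ (G : Type) [CommGroup G] (j : G →* Mˣ) (U : Subgroup G)
  (ε : Fin p → G) (k : ℕ), Function.Injective j → (∀ i, ε i ∈ U) →
  (∀ x ∈ U, ∃! a : Fin p → ℤ, x = ∏ i, ε i ^ a i) →
  (∀ x ∈ U, Algebra.norm K (j x : M) = 1 ∧ IsIntegral ℤ (j x : M)) → 3 ≤ k →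
  ∃ (η : ℂ) (V : Finset G), (η = 1 ∨ η = -1) ∧ ∀ (φ : M → ℂ) (D : Set M) (T : M),
    (∃ N : ℕ, N ≠ 0 ∧ ∀ x, φ x ≠ 0 → IsIntegral ℤ (N * x)) → (∃ B : ℝ, ∀ x, ‖φ x‖ ≤ B) →
    (∀ e ∈ U, ∀ x, φ (j e * x) = φ x) → 0 ∉ D → (∀ x : M, x ≠ 0 → ∃! e, e ∈ U ∧ j e * x ∈ D) →
    (∀ x, φ x ≠ 0 → Algebra.trace K M (T * x) ≠ 0) →
    (∀ a : Fin p → G, (∀ i, a i ∈ V) → ∃ (d : 𝓞 M) (q : ℕ), MZ φ d q ∧
      ∀ i, Algebra.trace K M (T * j (a i) * d) = 0) →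
    ∃ S, HasSum (fun x : D => φ x / J (Algebra.norm K (x : M)) ^ k) S ∧
      Reg (fun x => φ x * co (fun a : Fin (p + 1) → G =>
        ck k (fun i i' => σ i' (T * j (a i))) fun i => σ i x) (cyc (List.ofFn ε))) (η * S)

/-- row IPW: interpolation for the pieces -/
def IPW : Prop := ∀ (K : Type) [Field K] [NumberField K] (ι : ℂ →+* ℂ_[2]) (J : K →+* ℂ) (Ω : ℝ),
  Base ι J Ω → ∀ π τ ψ, Ms.Ar ι J π τ ψ → ∀ (M : Type) [Field M] [NumberField M] [Algebra K M]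
  (p : ℕ) (σ : Fin (p + 1) → M →+* ℂ), Sg J σ → ∀ (c : Pl M) (l : ℕ), Sm c.asIdeal l →
  ∀ (m r A : ℕ) (w : Fin (r + 1) → Pl M) (Φ : Ideal (𝓞 M) → ZMod (2 ^ A))
  (φ : Fin (r + 1) → M → ZMod (2 ^ A)), 2 ≤ m → Aux (2 * l) A (fun i => (w i).asIdeal) Φ φ →
  ∀ π' h (u : Fin p → Ew w ι J m) d Rho D (ϖ : Gv M ι J m) (k : ℕ), Fr w ι J m π' h u d Rho →
  Dm w ι J m D → Pw ι J (p + 1) c (w 0) l ϖ → 3 ≤ k → ∃ η : ℂ, (η = 1 ∨ η = -1) ∧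
    ∀ (t : M) (I : Ideal (𝓞 M)), t ≠ 0 → I ≠ ⊥ → I ⊔ Ideal.span {(2 * l : 𝓞 M)} = ⊤ →
    ∀ z ∈ ix A h Rho, (Ms.Tf ι π c.asIdeal l fun x => gz w ι J c l φ I z x) ∧ ∃ s : Gv M ι J m,
      (∀ (B : ℕ) (a : Fin (p + 1) → Gv M ι J m), (∀ j, ∃ e ∈ Uw w ι J m, a j = s * inc w ι J m e) →
        Ms.Good π l (fun j => t * vl (ϖ ^ B * a j)) fun x => gz w ι J c l φ I z x) ∧
      ∀ y, Ms.Fd ι J 0 y → ∃ S, Hs ι J ψ m k D (gz w ι J c l φ I z) y S ∧ ∀ᶠ B : ℕ in atTop,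
        Reg (fun x => gz w ι J c l φ I z x * Ms.EE ι J ψ m y x *
          co (fun a : Fin (p + 1) → Gv M ι J m =>
            ck k (fun j i => σ i (t * vl (ϖ ^ B * a j))) fun i => σ i x) (cy u d s)) (η * S)

/-- row PGA: the measures and the series give a germ of cocycles -/
def PGA : Prop := ∀ (K : Type) [Field K] [NumberField K] (ι : ℂ →+* ℂ_[2]) (J : K →+* ℂ) π τ ψ ω,
  Ms.Ar ι J π τ ψ → ∀ (M : Type) [Field M] [NumberField M] [Algebra K M] (n : ℕ)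
  (b : Basis (Fin n) K M) (σ : Fin n → M →+* ℂ), Sg J σ → ∀ (c P : Pl M) (l : ℕ), Sm c.asIdeal l →
  ∀ (m r : ℕ) (w : Fin (r + 1) → Pl M), (∀ i, (2 * l : 𝓞 M) ∉ (w i).asIdeal) →
  ∀ C0 Ps κ iv t0 nu (ϖ : Gv M ι J m), Pz m C0 Ps κ iv →
  Ms.Lm ι J π ψ ω b σ c.asIdeal l m t0 nu → Pw ι J n c P l ϖ →
  (∀ x : Gv M ι J m, Ld.Nr m (Ms.sv ι σ (vl x))) ∧
  (∀ (t : M) (a : Fin n → Gv M ι J m), ∀ᶠ B : ℕ in atTop,
    Ms.Adm K c.asIdeal fun j => t * vl (ϖ ^ B * a j)) ∧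
  ∃ T : AddSubgroup (M → ℤ), (∀ g, g ∈ T ↔ Ms.Tf ι π c.asIdeal l fun x => g x) ∧
    Pg (inc w ι J m) 0 T (fun e => ∑ i, lg (ι (σ i (e : Mˣ)))) (fun t =>
      ι (Ms.kp b σ) * ι (J (Algebra.norm K t0)) * ((Matrix.of fun j => Ms.sv ι σ (vl (t j))).det *
        κ fun j => Ms.sv ι σ (vl (t j)))) C0 (pz ι σ Ps nu ϖ)

/-- row VLY: the values on the discs of units -/
def VLY : Prop := ∀ (K : Type) [Field K] [NumberField K] (ι : ℂ →+* ℂ_[2]) (J : K →+* ℂ) (Ω : ℝ),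
  Base ι J Ω → ∀ π τ ψ ω, Ms.One ι J Ω π τ ψ ω → ∀ (M : Type) [Field M] [NumberField M]
  [Algebra K M] (p : ℕ) (b : Basis (Fin (p + 1)) K M) (σ : Fin (p + 1) → M →+* ℂ), Sg J σ →
  ∀ (c : Pl M) (l : ℕ), Sm c.asIdeal l → ∀ (m r A : ℕ) (w : Fin (r + 1) → Pl M)
  (Φ : Ideal (𝓞 M) → ZMod (2 ^ A)) (φ : Fin (r + 1) → M → ZMod (2 ^ A)), 2 ≤ m →
  Aux (2 * l) A (fun i => (w i).asIdeal) Φ φ → ∀ π' h (u : Fin p → Ew w ι J m) d Rho D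
  (ϖ : Gv M ι J m) (k : ℕ), Fr w ι J m π' h u d Rho → Dm w ι J m D → Pw ι J (p + 1) c (w 0) l ϖ →
  3 ≤ k → ∃ η : ℂ, (η = 1 ∨ η = -1) ∧ ∀ C0 Ps κ iv t0 nu (I : Ideal (𝓞 M)), Pz m C0 Ps κ iv →
    Ms.Gn ι J t0 → Ms.Lm ι J π ψ ω b σ c.asIdeal l m t0 nu → I ≠ ⊥ →
    I ⊔ Ideal.span {(2 * l : 𝓞 M)} = ⊤ → ∀ z ∈ ix A h Rho, ∃ (S : ℂ) (s : Gv M ι J m),
      Hs ι J ψ m k D (gz w ι J c l φ I z) t0 S ∧ ∀ᶠ B : ℕ in atTop,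
        (co (fun t => pz ι σ Ps nu ϖ B t (gz w ι J c l φ I z)) (cy u d s)).fst = 0 ∧
        ‖(co (fun t => pz ι σ Ps nu ϖ B t (gz w ι J c l φ I z)) (cy u d s)).snd -
          nm ι J b σ ω m k t0 * ι (η * S)‖ ≤ ‖(k : ℂ_[2])‖

/-- row VLZ: the values on all discs -/
def VLZ : Prop := ∀ (K : Type) [Field K] [NumberField K] (ι : ℂ →+* ℂ_[2]) (J : K →+* ℂ) (Ω : ℝ),
  Base ι J Ω → ∀ π τ ψ ω, Ms.One ι J Ω π τ ψ ω → ∀ (M : Type) [Field M] [NumberField M]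
  [Algebra K M] (p : ℕ) (b : Basis (Fin (p + 1)) K M), Vb ι J b →
  ∀ (c : Pl M) (l : ℕ), Sm c.asIdeal l → ∀ (m r A : ℕ) (w : Fin (r + 1) → Pl M)
  (Φ : Ideal (𝓞 M) → ZMod (2 ^ A)) (φ : Fin (r + 1) → M → ZMod (2 ^ A)), 2 ≤ m →
  Aux (2 * l) A (fun i => (w i).asIdeal) Φ φ → ∀ π' h (u : Fin p → Ew w ι J m) d Rho D (k : ℕ),
  Fr w ι J m π' h u d Rho → Dm w ι J m D → 3 ≤ k → ∀ I : Ideal (𝓞 M), I ≠ ⊥ →
  I ⊔ Ideal.span {(2 * l : 𝓞 M)} = ⊤ → ∀ z ∈ ix A h Rho, ∀ (y : M) (δ : ℝ), Ms.Fd ι J 0 y →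
    (∀ y', Ms.Fd ι J m (y' - y) → ‖ι (J (Algebra.norm K y')) ^ (k - 1)‖ ≤ δ) →
    ∃ S, Hs ι J ψ m k D (gz w ι J c l φ I z) y S ∧ ‖((k - 1).factorial : ℂ_[2]) ^ (p + 1) * ι S /
      (ι ω ^ ((p + 1) * k) * 2 ^ (m * (p + 1)))‖ ≤ δ / √(dv ι J b)

/-- row PIY: the leading term on one disc for one ideal -/
def PIY : Prop := ∀ (K : Type) [Field K] [NumberField K] (ι : ℂ →+* ℂ_[2]) (J : K →+* ℂ) (Ω : ℝ),
  Base ι J Ω → ∀ π τ ψ ω, Ms.One ι J Ω π τ ψ ω → ∀ (M : Type) [Field M] [NumberField M]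
  [Algebra K M] (p : ℕ) (b : Basis (Fin (p + 1)) K M), Vb ι J b → ∀ σ : Fin (p + 1) → M →+* ℂ,
  Sg J σ → ∀ (c : Pl M) (l : ℕ), Sm c.asIdeal l →
  ∀ (r : ℕ) (q : Fin (p + 1) ⊕ Fin r ≃ Fin (r + 1) ⊕ Fin p) (m : ℕ), 7 ≤ m → ∃ C : ℝ, 0 ≤ C ∧
  ∀ (A : ℕ) (w : Fin (r + 1) → Pl M) (Φ : Ideal (𝓞 M) → ZMod (2 ^ A))
    (φ : Fin (r + 1) → M → ZMod (2 ^ A)), Aux (2 * l) A (fun i => (w i).asIdeal) Φ φ →
    ∀ π' h (u : Fin p → Ew w ι J m) d Rho D (k : ℕ), Fr w ι J m π' h u d Rho → Dm w ι J m D →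
    3 ≤ k → ∃ η : ℂ_[2], ‖η‖ = 1 ∧ ∀ (t0 : M) (I : Ideal (𝓞 M)), Ms.Gn ι J t0 → I ≠ ⊥ →
      I ⊔ Ideal.span {(2 * l : 𝓞 M)} = ⊤ → ∃ S : Pc M r A → ℂ,
        (∀ z ∈ ix A h Rho, Hs ι J ψ m k D (gz w ι J c l φ I z) t0 (S z) ∧
          ‖nm ι J b σ ω m k t0 * ι (S z)‖ ≤ C) ∧ ∀ (g0 : ZMod (2 ^ A)) (i : ℕ), i ≤ r →
        ‖∑ z ∈ ix A h Rho, ((g0 - z.2.1).val.choose i : ℂ_[2]) * (nm ι J b σ ω m k t0 * ι (S z)) -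
          if i = r then η * (1 - l) * (ι (Ms.kp b σ) * ι (J (Algebra.norm K t0))) *
            (Matrix.of fun j j' => Sum.elim
              (fun i => lg (ι (σ i ((Sum.elim π' u (q j) : Ew w ι J m) : Mˣ))) / 2 ^ m)
              (fun i : Fin r => ((φ i.succ ((Sum.elim π' u (q j) : Ew w ι J m) : Mˣ)).val : ℂ_[2]))
              j').det else 0‖ ≤ C * ((1 / 2) ^ A + ‖(k : ℂ_[2])‖)

/-- row SUM: from ideals to pieces -/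
def SUM : Prop := ∀ (K : Type) [Field K] [NumberField K] (ι : ℂ →+* ℂ_[2]) (J : K →+* ℂ) (Ω : ℝ),
  Base ι J Ω → ∀ π τ ψ, Ms.Ar ι J π τ ψ → ∀ (M : Type) [Field M] [NumberField M] [Algebra K M]
  (m : ℕ), 2 ≤ m → ∃ Y Y' : Finset M, Y.Nonempty ∧ (∀ y ∈ Y, y ≠ 0 ∧ Vi ι J y ∧ Vi ι J y⁻¹) ∧
    (∀ y ∈ Y', Vi ι J y ∧ ∀ x : M, Vi ι J ((x - y) / 2 ^ m) → ‖ι (J (Algebra.norm K x))‖ ≤ 1 / 2) ∧
    ∀ (t0 : M) (c : Pl M) (l p r A h' e : ℕ) (w : Fin (r + 1) → Pl M)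
      (Φ : Ideal (𝓞 M) → ZMod (2 ^ A)) (φ : Fin (r + 1) → M → ZMod (2 ^ A))
      (R : Finset (Ideal (𝓞 M))) (lam : Ideal (𝓞 K) → ℂ) (a : Ideal (𝓞 M) → ℂ), Ms.Gn ι J t0 →
      Sm c.asIdeal l → Aux (2 * l) A (fun i => (w i).asIdeal) Φ φ →
      Rp ι J (fun i => (w i).asIdeal) m (2 * l) R → 0 < h' → 1 ≤ e → La J h' (2 ^ e) lam →
      (∀ I, a I = lam (Ideal.relNorm (𝓞 K) I)) → ∀ π' h (u : Fin p → Ew w ι J m) d Rho D,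
      Fr w ι J m π' h u d Rho → Dm w ι J m D → ∀ (S S' : Ideal (𝓞 M) → Pc M r A → M → ℂ),
      (∀ I ∈ R, ∀ z ∈ ix A h Rho,
        (∀ y ∈ Y, Hs ι J ψ m (2 * h' * 2 ^ e) D (gz w ι J c l φ I z) (t0 * y) (S I z y)) ∧
        ∀ y ∈ Y', Hs ι J ψ m (2 * h' * 2 ^ e) D (gz w ι J c l φ I z) (t0 * y) (S' I z y)) →
      ∀ i, Y.card * (2 ^ (m * finrank K M) * zz (fun i => (w i).asIdeal) Φ a c.asIdeal l i) =
        ∑ I ∈ R, ∑ z ∈ ix A h Rho, ((Φ I - z.2.1).val.choose i : ℂ) *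
          (a I / ∏ j, a (w j).asIdeal ^ z.1 j) * (∑ y ∈ Y, S I z y + ∑ y ∈ Y', S' I z y)

end Vale.Agent.P004C.Ld
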